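import Vale.Agent.P308.PM

namespace Vale.Agent.P308

open Finset Equiv

variable {V : Type} [DecidableEq V] {I F P Q : PM V} {v : ℕ → V} {i j : ℕ} {z z' : V}

/-- vertices of an arc -/
def arc (v : ℕ → V) (i j : ℕ) : Finset V := (Icc i j).image v

lemma mem_arc {u : V} : u ∈ arc v i j ↔ ∃ k, i ≤ k ∧ k ≤ j ∧ v k = u := by
  simp [arc, and_assoc]

lemma arc_mem {k : ℕ} (h1 : i ≤ k) (h2 : k ≤ j) : v k ∈ arc v i j := mem_arc.2 ⟨k, h1, h2, rfl⟩

omit [DecidableEq V] in
lemma Wk.eq (h : Wk I F v i j) {k l : ℕ} (a : i ≤ k) (b : k ≤ j + 1) (c : i ≤ l) (d : l ≤ j + 1)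
    (e : v k = v l) : k = l ∨ (k = i ∧ l = j + 1) ∨ (l = i ∧ k = j + 1) := by
  rcases lt_trichotomy k l with g | g | g
  exacts [.inr (.inl (h.inj k l a g d e)), .inl g, .inr (.inr (h.inj l k c g b e.symm))]

omit [DecidableEq V] in
lemma Wk.nbI (h : Wk I F v i j) {k : ℕ} (a : i + 1 ≤ k) (b : k ≤ j) :
    ∃ l, I (v k) = v l ∧ ((k + i) % 2 = 0 ∧ l = k + 1 ∨ (k + i) % 2 = 1 ∧ l + 1 = k) := by
  by_cases e : (k + i) % 2 = 0
  · exact ⟨_, h.hI k (by omega) b e, .inl ⟨e, rfl⟩⟩
  · obtain ⟨m, rfl⟩ : ∃ m, k = m + 1 := ⟨k - 1, by omega⟩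
    exact ⟨m, PM.rev (h.hI m (by omega) (by omega) (by omega)), .inr ⟨by omega, rfl⟩⟩

omit [DecidableEq V] in
lemma Wk.nbF (h : Wk I F v i j) {k : ℕ} (a : i + 1 ≤ k) (b : k ≤ j) :
    ∃ l, F (v k) = v l ∧ ((k + i) % 2 = 1 ∧ l = k + 1 ∨ (k + i) % 2 = 0 ∧ l + 1 = k) := by
  by_cases e : (k + i) % 2 = 1
  · exact ⟨_, h.hF k (by omega) b e, .inl ⟨e, rfl⟩⟩
  · obtain ⟨m, rfl⟩ : ∃ m, k = m + 1 := ⟨k - 1, by omega⟩
    exact ⟨m, PM.rev (h.hF m (by omega) (by omega) (by omega)), .inr ⟨by omega, rfl⟩⟩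

lemma arc_sub {W : Finset V} (hx : v i ∈ W) (h1 : Cl W P) (h2 : Cl W Q)
    (h : ∀ k, i ≤ k → k < j → P (v k) = v (k + 1) ∨ Q (v k) = v (k + 1)) : arc v i j ⊆ W := by
  intro u hu
  obtain ⟨k, a, b, rfl⟩ := mem_arc.1 hu
  clear hu
  induction k, a using Nat.le_induction with
  | base => exact hx
  | succ k a ih =>
    have := ih (by omega)
    rcases h k a b with e | e
    exacts [e ▸ h1 _ this, e ▸ h2 _ this]

/-- context of an even arc -/
structure Cx (I F P Q : PM V) (v : ℕ → V) (i j : ℕ) (z z' : V) : Prop where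
  hP : ∀ k, i + 1 < k → k ≤ j → P (v k) = I (v k)
  hQ : ∀ k, i + 1 ≤ k → k < j → Q (v k) = F (v k)
  hz : P (v (i + 1)) = z
  hz' : Q (v j) = z'
  nz : z ∉ arc v (i + 1) j
  nz' : z' ∉ arc v (i + 1) j

/-- result of sweeping an even arc -/
structure Sp (F P P' : PM V) (v : ℕ → V) (i j : ℕ) (z : V) : Prop where
  h1 : ∀ k, i + 1 ≤ k → k < j → P' (v k) = F (v k)
  h2 : P' (v j) = z
  h3 : ∀ u, u ∉ arc v (i + 1) j → u ≠ z → P' u = P u

lemma Sp.uniq {P₁ P₂ : PM V} (a : Sp F P P₁ v i j z) (b : Sp F P P₂ v i j z) : P₁ = P₂ :=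
  PM.ext fun u => by
    by_cases e : u ∈ arc v (i + 1) j
    · obtain ⟨k, c, d, rfl⟩ := mem_arc.1 e
      rcases d.lt_or_eq with g | rfl
      · rw [a.h1 k c g, b.h1 k c g]
      · rw [a.h2, b.h2]
    by_cases g : u = z
    · rw [g, PM.rev a.h2, PM.rev b.h2]
    · rw [a.h3 u e g, b.h3 u e g]

variable [Fintype V]

/-- orbit of an odd arc -/
lemma orb_odd (h : Wk I F v i j) (e : (i + j) % 2 = 0) (hij : i < j) (h0 : P (v (i + 1)) = v j)
    (hP : ∀ k, i + 1 < k → k < j → P (v k) = I (v k))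
    (hQ : ∀ k, i + 1 ≤ k → k ≤ j → Q (v k) = F (v k)) : orb P Q (v (i + 1)) = arc v (i + 1) j := by
  refine orb_eq (arc_mem le_rfl hij) (fun u hu => ?_) (fun u hu => ?_) fun W a b c =>
    arc_sub a b c fun k h1 h2 => ?_
  · obtain ⟨k, a, b, rfl⟩ := mem_arc.1 hu
    rcases a.eq_or_lt with rfl | a
    · exact h0 ▸ arc_mem hij le_rfl
    rcases b.eq_or_lt with rfl | b
    · exact PM.rev h0 ▸ arc_mem le_rfl hij
    obtain ⟨l, c, d⟩ := h.nbI a.le b.le
    rw [hP k a b, c]
    exact arc_mem (by omega) (by omega)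
  · obtain ⟨k, a, b, rfl⟩ := mem_arc.1 hu
    obtain ⟨l, c, d⟩ := h.nbF a b
    rw [hQ k a b, c]
    exact arc_mem (by omega) (by omega)
  · by_cases g : (k + i) % 2 = 0
    · exact .inl ((hP k (by omega) h2).trans (h.hI k (by omega) h2.le g))
    · exact .inr ((hQ k h1 h2.le).trans (h.hF k (by omega) h2.le (by omega)))

/-- twisted swap -/
noncomputable def hy (x z z' : V) (p : PM V × PM V) : PM V × PM V :=
  ((os x (p.1, cj z' z p.2)).1, cj z' z (os x (p.1, cj z' z p.2)).2)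

lemma hy_hy (x z z' : V) (p : PM V × PM V) : hy x z z' (hy x z z' p) = p := by
  simp only [hy, cj_cj, Prod.mk.eta, os_os]

lemma hy_spec {a : V → V → ℝ} (hs : ∀ u v, a u v = a v u) (ha : ∀ u v, 0 < a u v)
    (h : Wk I F v i j) (e : (i + j) % 2 = 1)
    (hij : i < j) (c : Cx I F P Q v i j z z') (n : z ≠ z') {P' Q' : PM V}
    (hp : hy (v (i + 1)) z z' (P, Q) = (P', Q')) :
    Sp F P P' v i j z ∧ (∀ k, i + 1 < k → k ≤ j → Q' (v k) = I (v k)) ∧ Q' (v (i + 1)) = z' ∧
      (∀ u, u ∉ arc v (i + 1) j → u ≠ z' → Q' u = Q u) ∧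
      wt a P' * wt a Q' * (a (v (i + 1)) z ^ 2 * a (v j) z' ^ 2) =
        wt a P * wt a Q * (a (v j) z ^ 2 * a (v (i + 1)) z' ^ 2) := by
  have mx : v (i + 1) ∈ arc v (i + 1) j := arc_mem le_rfl hij
  have my : v j ∈ arc v (i + 1) j := arc_mem hij le_rfl
  have nz := c.nz
  have nz' := c.nz'
  have q1 := cj_eq c.hz' (rfl : Q z = _) (by grind)
  have qi := Q.inv
  have hz' := c.hz'
  have q2 : ∀ k, i + 1 ≤ k → k < j → cj z' z Q (v k) = F (v k) ∧ F (v k) ∈ arc v (i + 1) j := by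
    intro k a b
    obtain ⟨l, c1, c2⟩ := h.nbF a b.le
    have : F (v k) ∈ arc v (i + 1) j := c1 ▸ arc_mem (by omega) (by omega)
    have := c.hQ k a b
    have : v k ∈ arc v (i + 1) j := arc_mem a b.le
    have : v k ≠ v j := fun g => by have := h.eq (by omega) (by omega) (by omega) (by omega) g; omega
    grind
  have nq : Q z ∉ arc v (i + 1) j := fun g => by
    obtain ⟨k, a, b, g⟩ := mem_arc.1 g
    rcases b.eq_or_lt with rfl | b
    · grind
    · have := q2 k a b
      have := c.hQ k a b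
      grind
  have c1 : Cl (insert z (arc v (i + 1) j)) P := fun u hu => by
    rcases Finset.mem_insert.1 hu with rfl | hu
    · exact PM.rev c.hz ▸ Finset.mem_insert_of_mem mx
    obtain ⟨k, a, b, rfl⟩ := mem_arc.1 hu
    rcases a.eq_or_lt with rfl | a
    · exact c.hz ▸ Finset.mem_insert_self _ _
    obtain ⟨l, c1, c2⟩ := h.nbI a.le b
    rw [c.hP k a b, c1]
    exact Finset.mem_insert_of_mem (arc_mem (by omega) (by omega))
  have c2 : Cl (insert z (arc v (i + 1) j)) (cj z' z Q) := fun u hu => by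
    rcases Finset.mem_insert.1 hu with rfl | hu
    · grind
    obtain ⟨k, a, b, rfl⟩ := mem_arc.1 hu
    rcases b.eq_or_lt with rfl | b
    · grind
    · have := q2 k a b
      grind
  have o : orb P (cj z' z Q) (v (i + 1)) = insert z (arc v (i + 1) j) :=
    orb_eq (Finset.mem_insert_of_mem mx) c1 c2 fun W a b d => Finset.insert_subset (c.hz ▸ b _ a)
      (arc_sub a b d fun k h1 h2 => by
        by_cases g : (k + i) % 2 = 0
        · exact .inl ((c.hP k (by omega) h2.le).trans (h.hI k (by omega) h2.le g))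
        · exact .inr ((q2 k h1 h2).1.trans (h.hF k (by omega) h2.le (by omega))))
  simp only [hy, os, o, Prod.mk.injEq] at hp
  obtain ⟨rfl, rfl⟩ := hp
  have m1 := mix_eq c1 c2
  have m2 := mix_eq c2 c1
  have w := wt_mix (a := a) c1 c2
  generalize mix _ P _ = P' at *
  generalize mix _ _ P = Q₂ at *
  have qn := Q.ne
  have r1 : Q₂ (Q z) = z' := by grind
  have r2 : Q₂ z = v (i + 1) := by rw [m2, if_pos (Finset.mem_insert_self _ _), PM.rev c.hz]
  have q3 := cj_eq r1 r2 (Q.ne z)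
  refine ⟨⟨fun k a b => ?_, by grind, by grind⟩, fun k a b => ?_, by grind, by grind, ?_⟩
  · rw [m1, if_pos (Finset.mem_insert_of_mem (arc_mem a b.le)), (q2 k a b).1]
  · have : v k ∈ arc v (i + 1) j := arc_mem a.le b
    have : v k ≠ v (i + 1) := fun g => by
      have := h.eq (by omega) (by omega) (by omega) (by omega) g; omega
    have := c.hP k a b
    grind
  · have w1 := wt_cj hs hz' (rfl : Q z = _) (by grind) (by grind)
    have w2 := wt_cj hs r1 r2 (Q.ne z) (by grind)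
    rw [hs (Q z) z', hs (Q z) z, hs z (v _), hs z' (v _)] at w2
    refine mul_right_cancel₀ (mul_pos (pow_pos (ha z' (Q z)) 2) (pow_pos (ha z (Q z)) 2)).ne' ?_
    linear_combination (wt a P' * a (v j) z' ^ 2 * a z (Q z) ^ 2) * w2 +
      (a (v j) z' ^ 2 * a z (Q z) ^ 4 * a (v (i + 1)) z' ^ 2) * w +
      (wt a P * a z (Q z) ^ 2 * a (v (i + 1)) z' ^ 2) * w1

/-- total weight -/
noncomputable def Zw (a : V → V → ℝ) : ℝ := ∑ X, wt a X
/-- weight of an edge -/
noncomputable def cw (a : V → V → ℝ) (u v : V) : ℝ := ∑ X : PM V, if X u = v then wt a X else 0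
/-- hole weights -/
noncomputable def nn (a : V → V → ℝ) (u v : V) : ℝ := cw a u v / (Zw a * a u v ^ 2)

variable {a : V → V → ℝ} {q : ℝ}

lemma cw_symm (u v : V) : cw a u v = cw a v u :=
  Finset.sum_congr rfl fun _ _ => if_congr ⟨PM.rev, PM.rev⟩ rfl rfl

lemma cw_self (u : V) : cw a u u = 0 := Finset.sum_eq_zero fun X _ => if_neg (X.ne u)

lemma cw_nonneg (ha : ∀ u v, 0 < a u v) (u v : V) : 0 ≤ cw a u v :=
  Finset.sum_nonneg fun X _ => by have := wt_pos ha X; positivity

lemma cw_le (ha : ∀ u v, 0 < a u v) (u v : V) : cw a u v ≤ Zw a :=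
  Finset.sum_le_sum fun X _ => by have := wt_pos ha X; split_ifs <;> linarith

/-- completed weights -/
structure Gd (a : V → V → ℝ) (q : ℝ) : Prop where
  hs : ∀ u v, a u v = a v u
  ha : ∀ u v, 0 < a u v
  hZ : 0 < Zw a
  hq : ∀ u v, u ≠ v → Zw a ≤ q * cw a u v

lemma Gd.symm (g : Gd a q) (u v : V) : nn a u v = nn a v u := by rw [nn, nn, cw_symm, g.hs]

lemma Gd.nonneg (g : Gd a q) (u v : V) : 0 ≤ nn a u v := by
  have := g.hZ
  have := cw_nonneg g.ha u v
  unfold nn; positivity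

lemma Gd.up (g : Gd a q) (u v : V) : nn a u v * a u v ^ 2 ≤ 1 := by
  have := g.ha u v
  have := g.hZ
  rw [nn, div_mul_eq_mul_div, mul_div_mul_right _ _ (by positivity), div_le_one this]
  exact cw_le g.ha u v

lemma Gd.lo (g : Gd a q) {u v : V} (h : u ≠ v) : 1 ≤ q * (nn a u v * a u v ^ 2) := by
  have := g.ha u v
  have := g.hZ
  rw [nn, div_mul_eq_mul_div, mul_div_mul_right _ _ (by positivity), ← mul_div_assoc, one_le_div this]
  exact g.hq u v h

lemma Gd.pos (g : Gd a q) {u v : V} (h : u ≠ v) : 0 < nn a u v :=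
  (g.nonneg u v).lt_of_ne fun e => by have := g.lo h; rw [← e] at this; norm_num at this

lemma Gd.q_ge (g : Gd a q) {u v : V} (h : u ≠ v) : 1 ≤ q := by
  have a1 := g.lo h
  have a2 := g.up u v
  have := mul_pos (g.pos h) (pow_pos (g.ha u v) 2)
  nlinarith

theorem Gd.four (g : Gd a q) (b c d e : V) :
    nn a b c * nn a d e ≤ nn a b d * nn a c e + (1 + q ^ 2) * (nn a b e * nn a c d) := by
  have n0 := g.nonneg
  have s0 : ∀ u, nn a u u = 0 := fun u => by simp [nn, cw_self]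
  have k1 := mul_nonneg (n0 b d) (n0 c e)
  have k2 := mul_nonneg (n0 b e) (n0 c d)
  have k3 := mul_nonneg (sq_nonneg q) k2
  by_cases h1 : b = c
  · subst h1; rw [s0]; nlinarith
  by_cases h2 : d = e
  · subst h2; rw [s0 d]; nlinarith
  by_cases h3 : b = d
  · subst h3; rw [g.symm c b] at *; nlinarith
  by_cases h4 : b = e
  · subst h4; rw [g.symm c b, g.symm d b] at *; nlinarith
  by_cases h5 : c = d
  · subst h5; nlinarith
  by_cases h6 : c = e
  · subst h6; rw [g.symm d c] at *; nlinarith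
  have w0 := wt_pos g.ha
  have ha := g.ha
  have Z := g.hZ
  have key : ∀ p : PM V × PM V, (if p.1 b = c then wt a p.1 else 0) * (if p.2 d = e then wt a p.2 else 0) ≤
      (fun p : PM V × PM V => wt a p.1 * if p.2 b = c ∧ p.2 d = e then wt a p.2 else 0) (os b p) +
      (fun p : PM V × PM V => (if p.1 d = c then wt a p.1 else 0) * (if p.2 b = e then wt a p.2 else 0) *
        (a b c ^ 2 * a d e ^ 2 / (a d c ^ 2 * a b e ^ 2))) (hy b c e p) +
      (fun p : PM V × PM V => (if p.1 e = c then wt a p.1 else 0) * (if p.2 b = d then wt a p.2 else 0) *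
        (a b c ^ 2 * a e d ^ 2 / (a e c ^ 2 * a b d ^ 2))) (hy b c d p) := by
    rintro ⟨X, Y⟩
    have t1 : ∀ (X : PM V) (p : Prop) [Decidable p], 0 ≤ if p then wt a X else 0 := fun X p _ => by
      have := w0 X; positivity
    have t2 : ∀ u v, 0 ≤ a u v ^ 2 := fun u v => sq_nonneg _
    have u1 := mul_nonneg (w0 (os b (X, Y)).1).le (t1 (os b (X, Y)).2
      ((os b (X, Y)).2 b = c ∧ (os b (X, Y)).2 d = e))
    have u2 : ∀ d e, 0 ≤ (if (hy b c e (X, Y)).1 d = c then wt a (hy b c e (X, Y)).1 else 0) *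
        (if (hy b c e (X, Y)).2 b = e then wt a (hy b c e (X, Y)).2 else 0) *
        (a b c ^ 2 * a d e ^ 2 / (a d c ^ 2 * a b e ^ 2)) := fun d e =>
      mul_nonneg (mul_nonneg (t1 _ _) (t1 _ _)) (by positivity)
    simp only
    by_cases hX : X b = c
    swap
    · rw [if_neg hX]; linarith [u2 d e, u2 e d]
    by_cases hY : Y d = e
    swap
    · rw [if_neg hY]; linarith [u2 d e, u2 e d]
    obtain ⟨v, j, v0, v1, v2, W⟩ := exists_wk X Y c
    have vb : v (0 + 1) = b := by rw [← W.hI 0 le_rfl (by omega) rfl, v0, PM.rev hX]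
    have H : ∀ d e k, c ≠ e → Y d = e → k ≤ j → k % 2 = 1 → v k = d → wt a X * wt a Y =
        (if (hy b c e (X, Y)).1 d = c then wt a (hy b c e (X, Y)).1 else 0) *
        (if (hy b c e (X, Y)).2 b = e then wt a (hy b c e (X, Y)).2 else 0) *
        (a b c ^ 2 * a d e ^ 2 / (a d c ^ 2 * a b e ^ 2)) := by
      intro d e k n hY h1 h2 h3
      have f := W.hF k (by omega) h1 (by omega)
      rw [h3, hY] at f
      obtain ⟨s1, -, s2, -, s3⟩ := hy_spec g.hs ha (W.sub le_rfl h1 rfl) (by omega) (by omega)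
        (P := X) (Q := Y) (z := c) (z' := e) (P' := (hy b c e (X, Y)).1) (Q' := (hy b c e (X, Y)).2) ⟨fun _ _ _ => rfl, fun _ _ _ => rfl, vb ▸ hX, h3 ▸ hY,
          fun m => by
            obtain ⟨l, m1, m2, m⟩ := mem_arc.1 m
            have := W.eq (by omega) (by omega) le_rfl (by omega) (m.trans v0.symm)
            omega, fun m => by
            obtain ⟨l, m1, m2, m⟩ := mem_arc.1 m
            have := W.eq (by omega) (by omega) (by omega) (by omega) (m.trans f)
            omega⟩ n (by rw [vb])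
      have s1 := s1.h2
      rw [vb, h3] at s3
      rw [h3] at s1
      rw [vb] at s2
      have := ha d c
      have := ha b e
      rw [if_pos s1, if_pos s2, ← mul_div_assoc, s3, mul_div_cancel_right₀ _ (by positivity)]
    rw [if_pos hX, if_pos hY]
    by_cases o : d ∈ orb X Y b
    · obtain ⟨k, -, k1, k2⟩ := mem_arc.1 (mem_orb.1 o (arc v 0 j) (vb ▸ arc_mem (by omega) (by omega))
        (fun u hu => by
          obtain ⟨k, -, k1, rfl⟩ := mem_arc.1 hu
          rcases Nat.eq_zero_or_pos k with rfl | k0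
          · exact W.hI 0 le_rfl k1 rfl ▸ arc_mem (by omega) (by omega)
          obtain ⟨l, c1, c2⟩ := W.nbI k0 k1
          exact c1 ▸ arc_mem (by omega) (by omega)) fun u hu => by
          obtain ⟨k, -, k1, rfl⟩ := mem_arc.1 hu
          rcases Nat.eq_zero_or_pos k with rfl | k0
          · rw [v0, ← v1, PM.rev (W.hF j (by omega) le_rfl (by omega))]
            exact arc_mem (by omega) le_rfl
          obtain ⟨l, c1, c2⟩ := W.nbF k0 k1
          rcases k1.eq_or_lt with rfl | k1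
          · rw [c1, show l = k + 1 by omega, v1, ← v0]
            exact arc_mem le_rfl (by omega)
          exact c1 ▸ arc_mem (by omega) (by omega))
      by_cases pk : k % 2 = 1
      · linarith [H d e k h6 hY k1 pk k2, u2 e d]
      obtain ⟨l, c1, c2⟩ := W.nbF (k := k) (Nat.pos_of_ne_zero fun k0 => h5 (by rw [← v0, ← k2, k0])) k1
      linarith [H e d l h5 (PM.rev hY) (by omega) (by omega) (by rw [← c1, k2, hY]), u2 d e]
    · have m := mix_eq (orb_cl2 X Y b) (orb_cl1 X Y b)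
      rw [if_pos (show (os b (X, Y)).2 b = c ∧ (os b (X, Y)).2 d = e from
        ⟨(m b).trans ((if_pos (orb_self ..)).trans hX), (m d).trans ((if_neg o).trans hY)⟩), wt_os]
      linarith [u2 d e, u2 e d]
  have sum := Finset.sum_le_sum fun p (_ : p ∈ univ) => key p
  rw [Finset.sum_add_distrib, Finset.sum_add_distrib] at sum
  replace sum := sum.trans_eq (congrArg₂ _ (congrArg₂ _ ((Function.Involutive.bijective (os_os b)).sum_comp
    fun p : PM V × PM V => wt a p.1 * if p.2 b = c ∧ p.2 d = e then wt a p.2 else 0)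
    ((Function.Involutive.bijective (hy_hy b c e)).sum_comp
      fun p : PM V × PM V => (if p.1 d = c then wt a p.1 else 0) * (if p.2 b = e then wt a p.2 else 0) *
        (a b c ^ 2 * a d e ^ 2 / (a d c ^ 2 * a b e ^ 2))))
    ((Function.Involutive.bijective (hy_hy b c d)).sum_comp
      fun p : PM V × PM V => (if p.1 e = c then wt a p.1 else 0) * (if p.2 b = d then wt a p.2 else 0) *
        (a b c ^ 2 * a e d ^ 2 / (a e c ^ 2 * a b d ^ 2))))
  simp only [Fintype.sum_prod_type, ← Finset.sum_mul, ← Finset.mul_sum] at sum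
  have t : (∑ Y : PM V, if Y b = c ∧ Y d = e then wt a Y else 0) ≤
      Zw a * (a b c ^ 2 * a e d ^ 2 / (a b e ^ 2 * a c d ^ 2)) := by
    rw [Zw, ← (Function.Involutive.bijective (cj_cj c e)).sum_comp (wt a), Finset.sum_mul]
    refine Finset.sum_le_sum fun Y _ => ?_
    have := ha b e
    have := ha c d
    split_ifs with h
    · rw [← mul_div_assoc, wt_cj g.hs h.1 (PM.rev h.2) h4 h3, mul_div_cancel_right₀ _ (by positivity)]
    · have := w0 (cj c e Y)
      positivity
  change cw a b c * cw a d e ≤ Zw a * _ + cw a d c * cw a b e * _ + cw a e c * cw a b d * _ at sum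
  have l := mul_le_mul (g.lo h4) (g.lo h5) zero_le_one ((g.lo h4).trans' zero_le_one)
  replace sum := sum.trans (add_le_add (add_le_add (mul_le_mul_of_nonneg_left t Z.le) le_rfl) le_rfl)
  rw [cw_symm d c, cw_symm e c, g.hs e d, g.hs d c, g.hs e c] at sum
  have r : ∀ u v, cw a u v = nn a u v * (Zw a * a u v ^ 2) := fun u v => by
    have := ha u v
    rw [nn, div_mul_cancel₀ _ (by positivity)]
  rw [r, r, r, r, r, r] at sum
  have p1 := ha b c
  have p2 := ha d e
  have p3 := ha b e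
  have p4 := ha c d
  have p5 := ha c e
  have p6 := ha b d
  have l' : 1 / (a b e ^ 2 * a c d ^ 2) ≤ q ^ 2 * (nn a b e * nn a c d) := by
    rw [div_le_iff₀ (by positivity)]; linarith
  refine le_of_mul_le_mul_right ?_ (show 0 < Zw a ^ 2 * (a b c ^ 2 * a d e ^ 2) by positivity)
  refine le_trans (le_of_eq (by ring)) (sum.trans (le_trans (le_of_eq ?_) (mul_le_mul_of_nonneg_right
    (show 1 / (a b e ^ 2 * a c d ^ 2) + nn a b e * nn a c d + nn a b d * nn a c e ≤ _ by linarith)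
    (by positivity))))
  field_simp

end Vale.Agent.P308
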