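import Vale.Agent.P308.Sweep

namespace Vale.Agent.P308

open Finset

lemma jensen_cls {α : Type} [Fintype α] {w : α → ℝ} (hw : ∀ x, 0 < w x) (R : α → Finset α)
    (h1 : ∀ x, x ∈ R x) (h2 : ∀ x y, y ∈ R x → R y = R x) (S : α → ℝ) :
    ∑ x, w x * ((∑ y ∈ R x, w y * S y) / ∑ y ∈ R x, w y) ^ 2 ≤ ∑ x, w x * S x ^ 2 := by
  classical
  have p : ∀ x, 0 < ∑ y ∈ R x, w y := fun x => Finset.sum_pos (fun y _ => hw y) ⟨x, h1 x⟩
  calc _ ≤ ∑ x, ∑ y, if y ∈ R x then w x * (w y * S y ^ 2 / ∑ z ∈ R y, w z) else 0 := by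
        refine Finset.sum_le_sum fun x _ => ?_
        rw [← Finset.sum_filter, Finset.filter_mem_eq_inter, Finset.univ_inter, ← Finset.mul_sum,
          Finset.sum_congr rfl (f := fun y => w y * S y ^ 2 / ∑ z ∈ R y, w z)
            (g := fun y => w y * S y ^ 2 / ∑ z ∈ R x, w z) fun y hy => by rw [h2 x y hy], ← Finset.sum_div]
        refine mul_le_mul_of_nonneg_left ?_ (hw x).le
        rw [div_pow, div_le_div_iff₀ (pow_pos (p x) 2) (p x), sq (∑ z ∈ R x, w z), ← mul_assoc]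
        refine mul_le_mul_of_nonneg_right ?_ (p x).le
        exact Finset.sum_sq_le_sum_mul_sum_of_sq_le_mul _ (fun y _ => mul_nonneg (hw y).le (sq_nonneg _))
          (fun y _ => (hw y).le) fun y _ => le_of_eq (by ring)
    _ = _ := by
        rw [Finset.sum_comm]
        refine Finset.sum_congr rfl fun y _ => ?_
        rw [Finset.sum_congr rfl (g := fun x => if x ∈ R y then w x * (w y * S y ^ 2 / ∑ z ∈ R y, w z) else 0)
          fun x _ => if_congr ⟨fun c => h2 x y c ▸ h1 x, fun c => h2 y x c ▸ h1 y⟩ rfl rfl,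
          ← Finset.sum_filter, Finset.filter_mem_eq_inter, Finset.univ_inter, ← Finset.sum_mul,
          mul_div_cancel₀ _ (p y).ne']

variable {V : Type} [DecidableEq V] [Fintype V] {a : V → V → ℝ} {q : ℝ}

/-- matchings that agree on a set -/
noncomputable def cls (U : Finset V) (X : PM V) : Finset (PM V) := univ.filter fun W => ∀ u ∈ U, W u = X u

/-- average over the background -/
noncomputable def gav (a : V → V → ℝ) (ψ : PM V → ℝ) (X : PM V) (U : Finset V) : ℝ :=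
  (∑ W ∈ cls U X, wt a W * ψ W) / ∑ W ∈ cls U X, wt a W

lemma cls_congr {U : Finset V} {X Y : PM V} (h : ∀ u ∈ U, X u = Y u) : cls U X = cls U Y :=
  Finset.filter_congr fun _ _ => forall₂_congr fun u hu => by rw [h u hu]

lemma mem_cls {U : Finset V} {X W : PM V} : W ∈ cls U X ↔ ∀ u ∈ U, W u = X u := by simp [cls]

lemma cls_cl {U : Finset V} {X W : PM V} (h : W ∈ cls U X) (c : Cl U X) : Cl U W :=
  fun u hu => mem_cls.1 h u hu ▸ c u hu

lemma sum_cls {U : Finset V} {X Y : PM V} (h1 : Cl U X) (h2 : Cl U Y) (F : PM V → ℝ) :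
    ∑ W ∈ cls U X, F W = ∑ W ∈ cls U Y, F (mix U W X) := by
  have k : ∀ X Y : PM V, Cl U X → Cl U Y → ∀ W ∈ cls U Y, mix U W X ∈ cls U X ∧ mix U (mix U W X) Y = W :=
    fun X Y h1 h2 W h => by
      have c := cls_cl h h2
      refine ⟨mem_cls.2 fun u hu => by rw [mix_eq c h1, if_pos hu], PM.ext fun u => ?_⟩
      rw [mix_eq (mix_cl c h1 c h1) h2, mix_eq c h1]
      split_ifs with e
      exacts [(mem_cls.1 h u e).symm, rfl]
  exact Finset.sum_nbij' (fun W => mix U W Y) (fun W => mix U W X) (fun W h => (k Y X h2 h1 W h).1)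
    (fun W h => (k X Y h1 h2 W h).1) (fun W h => (k Y X h2 h1 W h).2) (fun W h => (k X Y h1 h2 W h).2)
    fun W h => by rw [(k Y X h2 h1 W h).2]

lemma swap_le (ha : ∀ u v, 0 < a u v) (φ ψ : PM V → ℝ) (x : V) :
    ∑ p : PM V × PM V, wt a p.1 * wt a p.2 *
        (φ (os x p).1 - φ p.1 - gav a ψ p.2 (orb p.1 p.2 x) + gav a ψ p.1 (orb p.1 p.2 x)) ^ 2 ≤
      ∑ p : PM V × PM V, wt a p.1 * wt a p.2 * (φ (os x p).1 + ψ (os x p).2 - φ p.1 - ψ p.2) ^ 2 := by
  have w0 := wt_pos ha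
  simp only [Fintype.sum_prod_type, mul_assoc, ← Finset.mul_sum]
  refine Finset.sum_le_sum fun X _ => mul_le_mul_of_nonneg_left ?_ (w0 X).le
  refine le_trans (le_of_eq (Finset.sum_congr rfl fun Y _ => ?_)) (jensen_cls w0 (fun Y => cls (orb X Y x) Y)
    (fun Y => mem_cls.2 fun _ _ => rfl) (fun Y W h => by
      rw [orb_congr (mem_cls.1 h), cls_congr (mem_cls.1 h)]) _)
  have c1 := orb_cl1 X Y x
  have c2 := orb_cl2 X Y x
  have p : 0 < ∑ W ∈ cls (orb X Y x) Y, wt a W := Finset.sum_pos (fun y _ => w0 y) ⟨Y, mem_cls.2 fun _ _ => rfl⟩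
  have k : ∀ W ∈ cls (orb X Y x) Y, (os x (X, W)).1 = (os x (X, Y)).1 ∧ (os x (X, W)).2 = mix (orb X Y x) W X ∧
      wt a (mix (orb X Y x) W X) = wt a X / wt a (os x (X, Y)).1 * wt a W := fun W h => by
    have o := orb_congr (mem_cls.1 h)
    have e : (os x (X, W)).1 = (os x (X, Y)).1 := PM.ext fun u => by
      rw [os1 o, os1 rfl]
      split_ifs with e
      exacts [mem_cls.1 h u e, rfl]
    have e' : (os x (X, W)).2 = mix (orb X Y x) W X := by simp only [os, o]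
    refine ⟨e, e', ?_⟩
    rw [← e', ← e, div_mul_eq_mul_div, eq_div_iff (w0 _).ne', mul_comm, wt_os]
  have e1 : gav a ψ X (orb X Y x) = (∑ W ∈ cls (orb X Y x) Y, wt a W * ψ (mix (orb X Y x) W X)) /
      ∑ W ∈ cls (orb X Y x) Y, wt a W := by
    rw [gav, sum_cls c1 c2, sum_cls c1 c2, ← mul_div_mul_left _ (∑ W ∈ cls (orb X Y x) Y, wt a W)
      (div_pos (w0 X) (w0 (os x (X, Y)).1)).ne', Finset.mul_sum, Finset.mul_sum]
    congr 1 <;> refine Finset.sum_congr rfl fun W h => ?_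
    · rw [(k W h).2.2, mul_assoc]
    · exact (k W h).2.2
  have e2 : ∑ W ∈ cls (orb X Y x) Y, wt a W * (φ (os x (X, W)).1 + ψ (os x (X, W)).2 - φ X - ψ W) =
      (∑ W ∈ cls (orb X Y x) Y, wt a W) * (φ (os x (X, Y)).1 - φ X) - (∑ W ∈ cls (orb X Y x) Y, wt a W * ψ W) +
      ∑ W ∈ cls (orb X Y x) Y, wt a W * ψ (mix (orb X Y x) W X) := by
    rw [Finset.sum_mul, ← Finset.sum_sub_distrib, ← Finset.sum_add_distrib]
    exact Finset.sum_congr rfl fun W h => by rw [(k W h).1, (k W h).2.1]; ring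
  rw [e1, e2, gav]
  field_simp

/-- iterated energies -/
noncomputable def itE (e : PM V × PM V → ℝ) : ℕ → PM V × PM V → ℝ
  | 0, p => e p
  | r + 1, p => ∑ b, ∑ c, (itE e r (cj b c p.1, p.2) + itE e r (p.1, cj b c p.2) + itE e r (os b p))

lemma itE_nonneg {e : PM V × PM V → ℝ} (h : ∀ p, 0 ≤ e p) (r : ℕ) : ∀ p, 0 ≤ itE e r p := by
  induction r with
  | zero => exact h
  | succ r ih => exact fun p => sum_nonneg fun _ _ => sum_nonneg fun _ _ => add_nonneg (add_nonneg (ih _) (ih _)) (ih _)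

lemma itE_ge {e : PM V × PM V → ℝ} (h : ∀ p, 0 ≤ e p) (r : ℕ) (p : PM V × PM V) (b c : V) :
    itE e r (cj b c p.1, p.2) + itE e r (p.1, cj b c p.2) + itE e r (os b p) ≤ itE e (r + 1) p := by
  have n := itE_nonneg h r
  exact (Finset.single_le_sum (f := fun c => itE e r (cj b c p.1, p.2) + itE e r (p.1, cj b c p.2) + itE e r (os b p))
    (fun _ _ => add_nonneg (add_nonneg (n _) (n _)) (n _)) (mem_univ c)).trans
    (Finset.single_le_sum (f := fun b => ∑ c, (itE e r (cj b c p.1, p.2) + itE e r (p.1, cj b c p.2) + itE e r (os b p)))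
      (fun _ _ => sum_nonneg fun _ _ => add_nonneg (add_nonneg (n _) (n _)) (n _)) (mem_univ b))

lemma itE_sum (e : PM V × PM V → ℝ) (r : ℕ) :
    ∑ p, itE e r p = (3 * (Fintype.card V : ℝ) ^ 2) ^ r * ∑ p, e p := by
  induction r with
  | zero => simp [itE]
  | succ r ih =>
    simp only [itE]
    rw [Finset.sum_comm, Finset.sum_congr rfl fun b _ => Finset.sum_comm]
    simp only [Finset.sum_add_distrib]
    rw [Finset.sum_congr rfl fun b _ => Finset.sum_congr rfl fun c _ => (Function.Involutive.bijective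
        (f := fun p : PM V × PM V => (cj b c p.1, p.2)) fun p => by simp only [cj_cj]).sum_comp (itE e r),
      Finset.sum_congr rfl fun b _ => Finset.sum_congr rfl fun c _ => (Function.Involutive.bijective
        (f := fun p : PM V × PM V => (p.1, cj b c p.2)) fun p => by simp only [cj_cj]).sum_comp (itE e r),
      Finset.sum_congr rfl fun b _ => Finset.sum_congr rfl fun c _ =>
        (Function.Involutive.bijective (os_os b)).sum_comp (itE e r), ih]
    simp only [Finset.sum_const, Finset.card_univ, nsmul_eq_mul]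
    ring

/-- local energy of a pair -/
noncomputable def en (a : V → V → ℝ) (φ ψ : PM V → ℝ) (p : PM V × PM V) : ℝ :=
  ∑ b, ∑ c, min (wt a p.1) (wt a (cj b c p.1)) * wt a p.2 * (φ (cj b c p.1) - φ p.1) ^ 2 +
    ∑ x, wt a p.1 * wt a p.2 *
      (φ (os x p).1 - φ p.1 - gav a ψ p.2 (orb p.1 p.2 x) + gav a ψ p.1 (orb p.1 p.2 x)) ^ 2

lemma cyc_le (g : Gd a q) (φ ψ : PM V → ℝ) (x : V) (p : PM V × PM V) :
    wt a p.1 * wt a p.2 * (φ (os x p).1 - φ p.1) ^ 2 ≤ 16 * (Fintype.card V : ℝ) ^ 2 * LL q (Fintype.card V) ^ 5 *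
      (itE (en a φ ψ) 7 p + itE (en a φ ψ) 7 p.swap) := by
  have w0 := wt_pos g.ha
  have n1 : ∀ (p : PM V × PM V) b c, 0 ≤ min (wt a p.1) (wt a (cj b c p.1)) * wt a p.2 * (φ (cj b c p.1) - φ p.1) ^ 2 :=
    fun p b c => mul_nonneg (mul_nonneg (le_min (w0 _).le (w0 _).le) (w0 _).le) (sq_nonneg _)
  have n2 : ∀ (p : PM V × PM V) t, 0 ≤ wt a p.1 * wt a p.2 * t ^ 2 :=
    fun p t => mul_nonneg (mul_pos (w0 _) (w0 _)).le (sq_nonneg _)
  have n3 : ∀ p, 0 ≤ en a φ ψ p := fun p => add_nonneg (sum_nonneg fun _ _ => sum_nonneg fun _ _ => n1 _ _ _)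
    (sum_nonneg fun _ _ => n2 _ _)
  have n4 := itE_nonneg n3
  have n5 := itE_ge n3
  have n6 : ∀ (p : PM V × PM V) b c, min (wt a p.1) (wt a (cj b c p.1)) * wt a p.2 * (φ (cj b c p.1) - φ p.1) ^ 2 ≤
      en a φ ψ p := fun p b c => ((Finset.single_le_sum (fun c _ => n1 p b c) (mem_univ c)).trans
    (Finset.single_le_sum (fun b _ => sum_nonneg fun c _ => n1 p b c) (mem_univ b))).trans
    (le_add_of_nonneg_right (sum_nonneg fun _ _ => n2 _ _))
  have n7 : ∀ (p : PM V × PM V) x, wt a p.1 * wt a p.2 *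
      (φ (os x p).1 - φ p.1 - gav a ψ p.2 (orb p.1 p.2 x) + gav a ψ p.1 (orb p.1 p.2 x)) ^ 2 ≤ en a φ ψ p :=
    fun p x => (Finset.single_le_sum (fun x _ => n2 p
      (φ (os x p).1 - φ p.1 - gav a ψ p.2 (orb p.1 p.2 x) + gav a ψ p.1 (orb p.1 p.2 x))) (mem_univ x)).trans
      (le_add_of_nonneg_left (sum_nonneg fun _ _ => sum_nonneg fun _ _ => n1 _ _ _))
  obtain ⟨X, Y⟩ := p
  have L := zero_le_one.trans (LL_ge (g.q_ge (X.ne x)) (Fintype.card V)).2
  have W := mul_pos (w0 X) (w0 Y)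
  generalize hB : itE (en a φ ψ) 7 (X, Y) + itE (en a φ ψ) 7 (X, Y).swap = B
  have B0 : 0 ≤ B := hB ▸ add_nonneg (n4 _ _) (n4 _ _)
  have k : ∀ w t, wt a X * wt a Y ≤ LL q (Fintype.card V) ^ 5 * w → w * t ^ 2 ≤ B →
      |t| ≤ √(LL q (Fintype.card V) ^ 5 * B / (wt a X * wt a Y)) := fun w t h1 h2 => Real.abs_le_sqrt (by
    rw [le_div_iff₀ W]
    have := mul_le_mul_of_nonneg_left h1 (sq_nonneg t)
    have := mul_le_mul_of_nonneg_left h2 (pow_nonneg L 5)
    linarith)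
  have := Env.cycle ⟨a, q, Fintype.card V, φ, gav a ψ, fun m X Y => itE (en a φ ψ) m (X, Y) ≤ B, wt a X * wt a Y,
    √(LL q (Fintype.card V) ^ 5 * B / (wt a X * wt a Y)), g, Real.sqrt_nonneg _,
    fun U X Y h => by rw [gav, gav, cls_congr h],
    fun m X Y b c h => by linarith [n5 m (X, Y) b c, n4 m (X, cj b c Y), n4 m (os b (X, Y))],
    fun m X Y b c h => by linarith [n5 m (X, Y) b c, n4 m (cj b c X, Y), n4 m (os b (X, Y))],
    fun m X Y b h => by linarith [n5 m (X, Y) b b, n4 m (cj b b X, Y), n4 m (X, cj b b Y)],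
    fun m X Y h => by
      have := n5 m (X, Y) x x
      rw [cj_self] at this
      linarith [n4 m (X, cj x x Y), n4 m (os x (X, Y))],
    fun X' Y' b c h h1 h2 => k (min (wt a X') (wt a (cj b c X')) * wt a Y') _
      (by rcases min_choice (wt a X') (wt a (cj b c X')) with e | e <;> rwa [e]) ((n6 (X', Y') b c).trans h),
    fun X' Y' y h h1 => k _ _ h1 ((n7 (X', Y') y).trans h)⟩ le_rfl (X := X) (Y := Y)
    ⟨hB ▸ le_add_of_nonneg_right (n4 _ _), hB ▸ le_add_of_nonneg_left (n4 _ _), le_rfl⟩ x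
  have := pow_le_pow_left₀ (abs_nonneg _) this 2
  simp only [sq_abs, mul_pow] at this
  rw [Real.sq_sqrt (by positivity)] at this
  refine (mul_le_mul_of_nonneg_left this W.le).trans_eq ?_
  linear_combination (16 * (Fintype.card V : ℝ) ^ 2) * mul_div_cancel₀ (LL q (Fintype.card V) ^ 5 * B) W.ne'

/-- swap along all cycles that meet a set -/
noncomputable def sT (T : Finset V) (p : PM V × PM V) : PM V × PM V :=
  (mix (T.biUnion (orb p.1 p.2)) p.1 p.2, mix (T.biUnion (orb p.1 p.2)) p.2 p.1)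

lemma bi_cl {T : Finset V} {X Y W : PM V} (h : ∀ x, Cl (orb X Y x) W) : Cl (T.biUnion (orb X Y)) W :=
  fun u hu => by
    obtain ⟨x, b, c⟩ := Finset.mem_biUnion.1 hu
    exact Finset.mem_biUnion.2 ⟨x, b, h x u c⟩

lemma tele (ha : ∀ u v, 0 < a u v) (φ : PM V → ℝ) {C : ℝ}
    (hC : ∀ x, ∑ p : PM V × PM V, wt a p.1 * wt a p.2 * (φ (os x p).1 - φ p.1) ^ 2 ≤ C) (T : Finset V) :
    ∑ p : PM V × PM V, wt a p.1 * wt a p.2 * (φ (sT T p).1 - φ p.1) ^ 2 ≤ (T.card : ℝ) ^ 2 * C := by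
  have w0 := wt_pos ha
  have c1 : ∀ (T : Finset V) (p : PM V × PM V), Cl (T.biUnion (orb p.1 p.2)) p.1 := fun T p => bi_cl (orb_cl1 _ _)
  have c2 : ∀ (T : Finset V) (p : PM V × PM V), Cl (T.biUnion (orb p.1 p.2)) p.2 := fun T p => bi_cl (orb_cl2 _ _)
  have o : ∀ T p, orb (sT T p).1 (sT T p).2 = orb p.1 p.2 := fun T p => funext (orb_mix (c1 T p) (c2 T p))
  have em : ∀ p : PM V × PM V, (sT ∅ p).1 = p.1 := fun p => PM.ext fun u => by
    rw [sT, mix_eq (c1 _ p) (c2 _ p)]; simp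
  induction T using Finset.induction_on with
  | empty => simp [em]
  | insert x T hx ih =>
    have inv : Function.Involutive (sT T) := fun p => by
      rw [sT, o]; simp only [sT, mix_mix (c1 T p) (c2 T p), mix_mix (c2 T p) (c1 T p)]
    have st : ∀ p, (φ (sT (insert x T) p).1 - φ (sT T p).1) ^ 2 ≤ (φ (os x (sT T p)).1 - φ (sT T p).1) ^ 2 := by
      intro p
      have m1 : ∀ T u, (sT T p).1 u = _ := fun T => mix_eq (c1 T p) (c2 T p)
      have m2 : ∀ T u, (sT T p).2 u = _ := fun T => mix_eq (c2 T p) (c1 T p)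
      by_cases e : x ∈ T.biUnion (orb p.1 p.2)
      · rw [show (sT (insert x T) p).1 = (sT T p).1 from PM.ext fun u => by
          rw [m1, m1, Finset.biUnion_insert, Finset.union_eq_right.2 fun y hy =>
            mem_orb.1 hy _ e (c1 T p) (c2 T p)], sub_self, zero_pow two_ne_zero]
        exact sq_nonneg _
      · refine le_of_eq (congrArg (fun X => (φ X - _) ^ 2) (PM.ext fun u => ?_))
        rw [os1 (congrFun (o T p) x), m1, m1, m2, Finset.biUnion_insert]
        by_cases d : u ∈ orb p.1 p.2 x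
        · have := mem_orb.1 d (T.biUnion (orb p.1 p.2))ᶜ (Finset.mem_compl.2 e)
            (fun y hy => Finset.mem_compl.2 ((c1 T p).out (Finset.mem_compl.1 hy)))
            fun y hy => Finset.mem_compl.2 ((c2 T p).out (Finset.mem_compl.1 hy))
          rw [if_pos d, if_pos (Finset.mem_union_left _ d), if_neg (Finset.mem_compl.1 this)]
        · simp only [Finset.mem_union, d, false_or, if_false]
    have s2 : ∑ p : PM V × PM V, wt a p.1 * wt a p.2 * (φ (sT (insert x T) p).1 - φ (sT T p).1) ^ 2 ≤ C := by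
      refine le_trans ?_ (hC x)
      rw [← inv.bijective.sum_comp fun p : PM V × PM V => wt a p.1 * wt a p.2 * (φ (os x p).1 - φ p.1) ^ 2]
      refine Finset.sum_le_sum fun p _ => ?_
      rw [show wt a (sT T p).1 * wt a (sT T p).2 = _ from wt_mix (c1 T p) (c2 T p)]
      exact mul_le_mul_of_nonneg_left (st p) (mul_pos (w0 _) (w0 _)).le
    rw [Finset.card_insert_of_notMem hx]
    rcases T.eq_empty_or_nonempty with rfl | hT
    · simpa [em] using s2
    have t0 : (0 : ℝ) < T.card := by exact_mod_cast hT.card_pos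
    refine le_of_mul_le_mul_left ?_ t0
    have := add_le_add (mul_le_mul_of_nonneg_left ih (show (0 : ℝ) ≤ T.card + 1 by positivity))
      (mul_le_mul_of_nonneg_left s2 (show (0 : ℝ) ≤ T.card * (T.card + 1) by positivity))
    refine le_trans ?_ (this.trans_eq (by push_cast; ring))
    simp only [Finset.mul_sum, ← Finset.sum_add_distrib]
    refine Finset.sum_le_sum fun p _ => ?_
    have := mul_nonneg (mul_pos (w0 p.1) (w0 p.2)).le (sq_nonneg (φ (sT T p).1 - φ p.1 -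
      T.card * (φ (sT (insert x T) p).1 - φ (sT T p).1)))
    linarith

/-- the constant -/
noncomputable def CC (q : ℝ) (n : ℕ) : ℝ := 16 * n ^ 4 * LL q n ^ 5 * (3 * n ^ 2) ^ 7

/-- one particle inequality -/
theorem Gd.poinc (g : Gd a q) (hq : 1 ≤ q) (φ ψ : PM V → ℝ) (h0 : ∑ X, wt a X * φ X = 0) :
    Zw a * ∑ X, wt a X * φ X ^ 2 ≤ CC q (Fintype.card V) *
      ((∑ b, ∑ c, ∑ p : PM V × PM V, min (wt a p.1) (wt a (cj b c p.1)) * wt a p.2 * (φ (cj b c p.1) - φ p.1) ^ 2) +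
        ∑ x, ∑ p : PM V × PM V, wt a p.1 * wt a p.2 * (φ (os x p).1 + ψ (os x p).2 - φ p.1 - ψ p.2) ^ 2) := by
  have L := zero_le_one.trans (LL_ge hq (Fintype.card V)).2
  have t := tele g.ha φ (fun x => Finset.sum_le_sum fun p _ => cyc_le g φ ψ x p) univ
  rw [← Finset.mul_sum, Finset.sum_add_distrib, Prod.swap_bijective.sum_comp (itE (en a φ ψ) 7), itE_sum] at t
  have e1 : ∀ p : PM V × PM V, (sT univ p).1 = p.2 := fun p => PM.ext fun u => by
    rw [sT, mix_eq (bi_cl (orb_cl1 _ _)) (bi_cl (orb_cl2 _ _)),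
      if_pos (Finset.mem_biUnion.2 ⟨u, mem_univ _, orb_self ..⟩)]
  have e2 : ∑ p : PM V × PM V, wt a p.1 * wt a p.2 * (φ (sT univ p).1 - φ p.1) ^ 2 =
      2 * (Zw a * ∑ X, wt a X * φ X ^ 2) := by
    rw [Finset.sum_congr rfl (g := fun p => wt a p.1 * (wt a p.2 * φ p.2 ^ 2) + wt a p.1 * φ p.1 ^ 2 * wt a p.2 -
      2 * (wt a p.1 * φ p.1 * (wt a p.2 * φ p.2))) fun p _ => by rw [e1]; ring]
    simp only [Finset.sum_sub_distrib, Finset.sum_add_distrib, Fintype.sum_prod_type, ← Finset.mul_sum,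
      ← Finset.sum_mul, h0, Zw]
    ring
  have e3 : ∑ p, en a φ ψ p ≤ (∑ b, ∑ c, ∑ p : PM V × PM V, min (wt a p.1) (wt a (cj b c p.1)) * wt a p.2 *
      (φ (cj b c p.1) - φ p.1) ^ 2) +
      ∑ x, ∑ p : PM V × PM V, wt a p.1 * wt a p.2 * (φ (os x p).1 + ψ (os x p).2 - φ p.1 - ψ p.2) ^ 2 := by
    simp only [en]
    rw [Finset.sum_add_distrib, Finset.sum_comm, Finset.sum_congr rfl fun b _ => Finset.sum_comm,
      Finset.sum_comm (s := (univ : Finset (PM V × PM V)))]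
    exact add_le_add le_rfl (Finset.sum_le_sum fun x _ => swap_le g.ha φ ψ x)
  have := mul_le_mul_of_nonneg_left e3 (show 0 ≤ CC q (Fintype.card V) by unfold CC; positivity)
  rw [e2, Finset.card_univ] at t
  unfold CC at *
  linarith

end Vale.Agent.P308
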