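import Vale.Agent.P308.Pop
import Vale.Agent.P308.Var
import Vale.Agent.P328.Trial

namespace Vale.Agent.P308

open Finset Function
open Vale.Agent.P328 (split Av eat eat_sum decay)

section

variable {V : Type} [DecidableEq V] [Fintype V]

/-- edge weights from exponents -/
noncomputable def aw (R : ℕ) (c : V → V → ℕ) (u v : V) : ℝ := (R / (R - 1)) ^ c u v
/-- energy -/
def En (c : V → V → ℕ) (X : PM V) : ℕ := ∑ v, c v (X v)
/-- law of a matching -/
noncomputable def law (a : V → V → ℝ) (X : PM V) : ℝ := wt a X / Zw a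
/-- moves -/
noncomputable def mv (ω : Bool × V × V) (p : PM V × PM V) : PM V × PM V :=
  if ω.1 then os ω.2.1 p else (cj ω.2.1 ω.2.2 p.1, p.2)
/-- rates -/
noncomputable def rt (a : V → V → ℝ) (P : ℝ) (ω : Bool × V × V) (p : PM V × PM V) : ℝ :=
  (if ω.1 then 1 else min (wt a p.1) (wt a (cj ω.2.1 ω.2.2 p.1)) / wt a p.1) / (2 * P ^ 2)

omit [DecidableEq V] in
lemma wt_aw (R : ℕ) (c : V → V → ℕ) (X : PM V) : wt (aw R c) X = (R / (R - 1)) ^ En c X :=
  Finset.prod_pow_eq_pow_sum _ _ _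

lemma Gd.mv {a : V → V → ℝ} {q P g : ℝ} (h : Gd a q) (hq : 1 ≤ q) (hP : Fintype.card V ≤ P) [Nonempty V]
    (hg : 4 * P ^ 2 * CC q (Fintype.card V) ≤ g) : Mv (law a) mv (rt a P) (1 / g) := by
  have w0 := wt_pos h.ha
  have Z := h.hZ
  have n1 : (1 : ℝ) ≤ Fintype.card V := by exact_mod_cast Fintype.card_pos
  have P0 : 0 < P := by linarith
  have L := zero_lt_one.trans_le (LL_ge hq (Fintype.card V)).2
  have C0 : 0 < CC q (Fintype.card V) := by unfold CC; positivity
  have g0 : 0 < g := lt_of_lt_of_le (by positivity) hg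
  refine ⟨fun X => div_pos (w0 X) Z, by simp only [law, ← Finset.sum_div]; exact div_self Z.ne', ?_, ?_, ?_,
    fun p => ?_, fun φ ψ h0 => ?_⟩
  · rintro ⟨_ | _, b, c⟩ p <;> simp [P308.mv, cj_cj, os_os]
  · rintro ⟨_ | _, b, c⟩ p
    · have := w0 p.1
      have := w0 (cj b c p.1)
      simp only [P308.mv, rt, law, Bool.false_eq_true, if_false, cj_cj, min_comm (wt a p.1)]
      field_simp
    · simp only [P308.mv, rt, law, if_true, div_mul_div_comm, wt_os]
  · intro ω p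
    have := w0 p.1
    have := w0 (cj ω.2.1 ω.2.2 p.1)
    unfold rt; positivity
  · refine (Finset.sum_le_card_nsmul _ _ (1 / (2 * P ^ 2)) fun ω _ => div_le_div_of_nonneg_right ?_
      (by positivity)).trans ?_
    · split_ifs
      exacts [le_rfl, (div_le_one (w0 _)).2 (min_le_left _ _)]
    · simp only [Finset.card_univ, Fintype.card_prod, Fintype.card_bool, nsmul_eq_mul]
      rw [mul_one_div, div_le_one (by positivity)]
      push_cast
      nlinarith
  · have h1 : ∑ X, wt a X * φ X = 0 := by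
      simp only [law, div_mul_eq_mul_div, ← Finset.sum_div] at h0
      exact (div_eq_zero_iff.1 h0).resolve_right Z.ne'
    have p := h.poinc hq φ ψ h1
    have s0 : 0 ≤ ∑ x, ∑ p : PM V × PM V, wt a p.1 * wt a p.2 *
        (φ (os x p).1 + ψ (os x p).2 - φ p.1 - ψ p.2) ^ 2 :=
      sum_nonneg fun _ _ => sum_nonneg fun _ _ => mul_nonneg (mul_pos (w0 _) (w0 _)).le (sq_nonneg _)
    have s1 : 0 ≤ ∑ X, wt a X * φ X ^ 2 := sum_nonneg fun _ _ => mul_nonneg (w0 _).le (sq_nonneg _)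
    have e1 : ∀ b c, ∑ p : PM V × PM V, law a p.1 * law a p.2 * (rt a P (false, b, c) p *
        (φ (P308.mv (false, b, c) p).1 + ψ (P308.mv (false, b, c) p).2 - φ p.1 - ψ p.2) ^ 2) =
        1 / (2 * P ^ 2 * Zw a ^ 2) * ∑ p : PM V × PM V, min (wt a p.1) (wt a (cj b c p.1)) * wt a p.2 *
          (φ (cj b c p.1) - φ p.1) ^ 2 := fun b c => by
      rw [Finset.mul_sum]
      refine sum_congr rfl fun p _ => ?_
      have := w0 p.1
      simp only [P308.mv, rt, law, Bool.false_eq_true, if_false]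
      field_simp
      ring
    have e2 : ∀ b c, ∑ p : PM V × PM V, law a p.1 * law a p.2 * (rt a P (true, b, c) p *
        (φ (P308.mv (true, b, c) p).1 + ψ (P308.mv (true, b, c) p).2 - φ p.1 - ψ p.2) ^ 2) =
        1 / (2 * P ^ 2 * Zw a ^ 2) * ∑ p : PM V × PM V, wt a p.1 * wt a p.2 *
          (φ (os b p).1 + ψ (os b p).2 - φ p.1 - ψ p.2) ^ 2 := fun b c => by
      rw [Finset.mul_sum]
      refine sum_congr rfl fun p _ => ?_
      simp only [P308.mv, rt, law, if_true]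
      field_simp
    rw [Fintype.sum_prod_type, Fintype.sum_bool]
    simp only [Fintype.sum_prod_type (α₁ := V), e1, e2, ← Finset.mul_sum, Finset.sum_const, Finset.card_univ,
      nsmul_eq_mul]
    simp only [law, div_mul_eq_mul_div, ← Finset.sum_div]
    generalize (∑ x, ∑ p : PM V × PM V, wt a p.1 * wt a p.2 *
      (φ (os x p).1 + ψ (os x p).2 - φ p.1 - ψ p.2) ^ 2) = A at *
    generalize (∑ b : V, ∑ c : V, ∑ p : PM V × PM V, min (wt a p.1) (wt a (cj b c p.1)) * wt a p.2 *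
      (φ (cj b c p.1) - φ p.1) ^ 2) = B at *
    generalize (∑ X, wt a X * φ X ^ 2) = S at *
    have a2 : 0 ≤ B + A := nonneg_of_mul_nonneg_right ((mul_nonneg Z.le s1).trans p) C0
    have a3 := mul_le_mul_of_nonneg_left p (show 0 ≤ 4 * P ^ 2 by positivity)
    have a4 := mul_le_mul_of_nonneg_left hg a2
    have a5 := mul_le_mul_of_nonneg_left n1 (mul_nonneg s0 g0.le)
    refine le_of_mul_le_mul_right ?_ (show 0 < 2 * P ^ 2 * Zw a ^ 2 * g by positivity)
    calc _ = 4 * P ^ 2 * (Zw a * S) := by field_simp; ring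
      _ ≤ (Fintype.card V * A + B) * g := by linarith
      _ = _ := by field_simp

end

lemma sum_dite {N Q : ℕ} (h : N ≤ Q) (f : Fin N → ℝ) :
    ∑ i ∈ range Q, (if h : i < N then f ⟨i, h⟩ else 0) = ∑ i, f i := by
  rw [Finset.sum_fin_eq_sum_range]
  exact (Finset.sum_subset (Finset.range_subset_range.2 h) fun i _ hi => dif_neg (by simpa using hi)).symm

variable {n : ℕ}

/-- a move on a pair driven by a digit -/
noncomputable def pm (R W P : ℕ) (c : Fin n → Fin n → ℕ) (a : ℕ) (p : PM (Fin n) × PM (Fin n)) :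
    PM (Fin n) × PM (Fin n) :=
  if h1 : a / 2 % P < n then if h2 : a / 2 / P % P < n then
    if a % 2 = 0 then os ⟨_, h1⟩ p
    else if a / 2 / P / P < (R - 1) ^ (En c p.1 - En c (cj ⟨_, h1⟩ ⟨_, h2⟩ p.1)) *
      R ^ (W - (En c p.1 - En c (cj ⟨_, h1⟩ ⟨_, h2⟩ p.1))) then (cj ⟨_, h1⟩ ⟨_, h2⟩ p.1, p.2) else p
  else p else p

lemma pm_sum {R W P : ℕ} (hR : 2 ≤ R) (hP : n ≤ P) {c : Fin n → Fin n → ℕ} (hW : ∀ X, En c X ≤ W)
    (G : PM (Fin n) × PM (Fin n) → ℝ) (p : PM (Fin n) × PM (Fin n)) :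
    ∑ a ∈ range (2 * (P * (P * R ^ W))), (G p - G (pm R W P c a p)) =
      (2 * (P * (P * R ^ W)) : ℕ) * ∑ ω, rt (aw R c) P ω p * (G p - G (mv ω p)) := by
  have r1 : (2 : ℝ) ≤ R := by exact_mod_cast hR
  rcases Nat.eq_zero_or_pos P with rfl | P0
  · simp
  have acc : ∀ X' : PM (Fin n), ∑ u ∈ range (R ^ W), (G p - G (if u < (R - 1) ^ (En c p.1 - En c X') *
      R ^ (W - (En c p.1 - En c X')) then (X', p.2) else p)) =
      R ^ W * (min (wt (aw R c) p.1) (wt (aw R c) X') / wt (aw R c) p.1 * (G p - G (X', p.2))) := fun X' => by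
    obtain ⟨l, hl⟩ := Nat.exists_eq_add_of_le (show En c p.1 - En c X' ≤ W from (Nat.sub_le _ _).trans (hW _))
    have b : (((R - 1) ^ (En c p.1 - En c X') * R ^ (W - (En c p.1 - En c X')) : ℕ) : ℝ) =
        R ^ W * (min (wt (aw R c) p.1) (wt (aw R c) X') / wt (aw R c) p.1) := by
      have : (1 : ℝ) ≤ R / (R - 1) := (one_le_div (by linarith)).2 (by linarith)
      have : (R : ℝ) - 1 ≠ 0 := by linarith
      rw [wt_aw, wt_aw]
      rcases le_total (En c p.1) (En c X') with d | d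
      · rw [min_eq_left (pow_le_pow_right₀ ‹_› d), Nat.sub_eq_zero_of_le d, div_self (by positivity)]
        simp
      · rw [min_eq_right (pow_le_pow_right₀ ‹_› d)]
        obtain ⟨k, hk⟩ := Nat.exists_eq_add_of_le d
        rw [hk, Nat.add_sub_cancel_left] at hl ⊢
        rw [hl, Nat.add_sub_cancel_left]
        push_cast [Nat.cast_sub (show 1 ≤ R by omega)]
        simp only [pow_add, div_pow]
        field_simp
    have g : (range (R ^ W)).filter (fun u => u < (R - 1) ^ (En c p.1 - En c X') * R ^ (W - (En c p.1 - En c X'))) =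
        range ((R - 1) ^ (En c p.1 - En c X') * R ^ (W - (En c p.1 - En c X'))) := by
      have : (R - 1) ^ (En c p.1 - En c X') * R ^ (W - (En c p.1 - En c X')) ≤ R ^ W := by
        generalize En c p.1 - En c X' = d at *
        rw [hl, Nat.add_sub_cancel_left, pow_add]
        exact Nat.mul_le_mul_right _ (Nat.pow_le_pow_left (Nat.sub_le _ _) _)
      ext v; simp only [Finset.mem_filter, Finset.mem_range]; omega
    simp only [apply_ite G, apply_ite (G p - ·), sub_self]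
    rw [← Finset.sum_filter, g, Finset.sum_const, Finset.card_range, nsmul_eq_mul, b, mul_assoc]
  have e : ∀ s, ∑ b ∈ range (P * (P * R ^ W)), (G p - G (if h1 : b % P < n then if h2 : b / P % P < n then
      if s = 0 then os ⟨_, h1⟩ p
      else if b / P / P < (R - 1) ^ (En c p.1 - En c (cj ⟨_, h1⟩ ⟨_, h2⟩ p.1)) *
        R ^ (W - (En c p.1 - En c (cj ⟨_, h1⟩ ⟨_, h2⟩ p.1))) then (cj ⟨_, h1⟩ ⟨_, h2⟩ p.1, p.2) else p
      else p else p)) = ∑ x : Fin n, ∑ y : Fin n, R ^ W * (2 * P ^ 2 * rt (aw R c) P (decide (s = 0), x, y) p *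
        (G p - G (mv (decide (s = 0), x, y) p))) := fun s => by
    rw [split P _ fun x b => G p - G (if h1 : x < n then if h2 : b % P < n then if s = 0 then os ⟨_, h1⟩ p
      else if b / P < (R - 1) ^ (En c p.1 - En c (cj ⟨_, h1⟩ ⟨_, h2⟩ p.1)) *
        R ^ (W - (En c p.1 - En c (cj ⟨_, h1⟩ ⟨_, h2⟩ p.1))) then (cj ⟨_, h1⟩ ⟨_, h2⟩ p.1, p.2) else p
      else p else p), ← sum_dite hP]
    refine sum_congr rfl fun x _ => ?_
    by_cases h1 : x < n
    swap
    · simp [h1]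
    simp only [h1, dif_pos]
    rw [split P _ fun y u => G p - G (if h2 : y < n then if s = 0 then os ⟨_, h1⟩ p
      else if u < (R - 1) ^ (En c p.1 - En c (cj ⟨_, h1⟩ ⟨_, h2⟩ p.1)) *
        R ^ (W - (En c p.1 - En c (cj ⟨_, h1⟩ ⟨_, h2⟩ p.1))) then (cj ⟨_, h1⟩ ⟨_, h2⟩ p.1, p.2) else p
      else p), ← sum_dite hP]
    refine sum_congr rfl fun y _ => ?_
    by_cases h2 : y < n
    swap
    · simp [h2]
    have : (P : ℝ) ≠ 0 := by positivity
    simp only [h2, dif_pos, rt, mv]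
    by_cases h3 : s = 0
    · simp only [h3, if_true, decide_true, Finset.sum_const, Finset.card_range, nsmul_eq_mul]
      push_cast
      field_simp
    · simp only [h3, if_false, decide_false, Bool.false_eq_true, acc]
      field_simp
  unfold pm
  rw [split 2 _ fun s b => G p - G (if h1 : b % P < n then if h2 : b / P % P < n then
      if s = 0 then os ⟨_, h1⟩ p
      else if b / P / P < (R - 1) ^ (En c p.1 - En c (cj ⟨_, h1⟩ ⟨_, h2⟩ p.1)) *
        R ^ (W - (En c p.1 - En c (cj ⟨_, h1⟩ ⟨_, h2⟩ p.1))) then (cj ⟨_, h1⟩ ⟨_, h2⟩ p.1, p.2) else p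
      else p else p), Finset.sum_range_succ, Finset.sum_range_one, e, e, Fintype.sum_prod_type, Fintype.sum_bool]
  simp only [Fintype.sum_prod_type (α₁ := Fin n), mul_assoc, ← Finset.mul_sum, decide_true, one_ne_zero, decide_false]
  push_cast
  ring

/-- one step of the population chain -/
noncomputable def pstep {α : Type} {N : ℕ} (Q : ℕ) (f : ℕ → α × α → α × α) (σ : Fin N → α) (a : ℕ) : Fin N → α :=
  if hi : a % Q < N then if hj : a / Q % Q < N then
    if a % Q = a / Q % Q then σ else lift ⟨_, hi⟩ ⟨_, hj⟩ (f (a / Q / Q)) σ else σ else σ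

lemma pstep_Av {α κ : Type} [Fintype κ] {N Q B : ℕ} (hQ : N ≤ Q) (Q0 : 0 < Q) (B0 : 0 < B) {f : ℕ → α × α → α × α}
    {m : κ → α × α → α × α} {r : κ → α × α → ℝ}
    (h : ∀ (G : α × α → ℝ) p, ∑ a ∈ range B, (G p - G (f a p)) = B * ∑ ω, r ω p * (G p - G (m ω p)))
    (F : (Fin N → α) → ℝ) (σ : Fin N → α) : Av (Q * (Q * B)) (pstep Q f) F σ = F σ - ((Q : ℝ) ^ 2)⁻¹ *
      ∑ p ∈ (univ : Finset (Fin N)).offDiag, ∑ ω, r ω (σ p.1, σ p.2) * (F σ - F (lift p.1 p.2 (m ω) σ)) := by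
  have e : ∑ a ∈ range (Q * (Q * B)), (F σ - F (pstep Q f σ a)) = B * ∑ p ∈ (univ : Finset (Fin N)).offDiag,
      ∑ ω, r ω (σ p.1, σ p.2) * (F σ - F (lift p.1 p.2 (m ω) σ)) := by
    unfold pstep
    rw [split Q _ fun i b => F σ - F (if hi : i < N then if hj : b % Q < N then
      if i = b % Q then σ else lift ⟨_, hi⟩ ⟨_, hj⟩ (f (b / Q)) σ else σ else σ),
      show (univ : Finset (Fin N)).offDiag = univ.filter fun p => ¬p.1 = p.2 by ext; simp, Finset.sum_filter,
      Finset.mul_sum, Fintype.sum_prod_type, ← sum_dite hQ]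
    refine sum_congr rfl fun i _ => ?_
    by_cases hi : i < N
    swap
    · simp [hi]
    simp only [hi, dif_pos]
    rw [split Q _ fun j b => F σ - F (if hj : j < N then
      if i = j then σ else lift ⟨_, hi⟩ ⟨_, hj⟩ (f b) σ else σ), ← sum_dite hQ]
    refine sum_congr rfl fun j _ => ?_
    by_cases hj : j < N
    swap
    · simp [hj]
    by_cases e : i = j
    · simp [e]
    have := h (fun p => F (update (update σ ⟨i, hi⟩ p.1) ⟨j, hj⟩ p.2)) (σ ⟨i, hi⟩, σ ⟨j, hj⟩)
    simp only [update_eq_self] at this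
    simp only [hj, dif_pos, e, if_false, Fin.mk.injEq, not_false_eq_true, if_true]
    exact this
  have : (Q : ℝ) ≠ 0 := by positivity
  have : (B : ℝ) ≠ 0 := by positivity
  rw [Finset.sum_sub_distrib, Finset.sum_const, Finset.card_range, nsmul_eq_mul] at e
  rw [Av, div_eq_iff (by positivity), (sub_sub_cancel _ _).symm.trans (congrArg (_ - ·) e)]
  push_cast
  field_simp

theorem chain_mix {N R W P Q g j tm d y : ℕ} {c : Fin n → Fin n → ℕ} {q : ℝ} (h : Gd (aw R c) q) (hq : 1 ≤ q)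
    (n0 : 0 < n) (g0 : 0 < g) (hR : 512 * g ≤ R) (hP : n ≤ P) (hW : ∀ X, En c X ≤ W)
    (hg : 4 * (P : ℝ) ^ 2 * CC q n ≤ g) (hQ : 2 * N ≤ Q) (hN : 2304 * g ^ 2 * d ≤ N) (hd : 2 * (j + 2 + y) ≤ d)
    (hy : 2 * tm + 2 ≤ 2 ^ y) (htm : 4 * g * Q ^ 2 * (Q + j) ≤ tm) {ν : PM (Fin n) → ℝ} (n1 : ∑ x, ν x = 1)
    (n2 : ∑ x, ν x ^ 2 / law (aw R c) x ≤ 1 + 9 / R ^ 2) {F : (Fin N → PM (Fin n)) → ℝ} (hF : ∀ σ, |F σ| ≤ 1) :
    ∑ σ : Fin N → PM (Fin n), (∏ k, ν (σ k)) * (Av (Q * (Q * (2 * (P * (P * R ^ W))))) (pstep Q (pm R W P c)))^[tm] F σ ≤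
      ∑ σ : Fin N → PM (Fin n), (∏ k, law (aw R c) (σ k)) * F σ + 2 * (1 / 2) ^ j := by
  have : Nonempty (Fin n) := ⟨⟨0, n0⟩⟩
  have g1 : (1 : ℝ) ≤ g := by exact_mod_cast g0
  have k0 : 0 < 2304 * g ^ 2 := by positivity
  have N0 : 0 < N := lt_of_lt_of_le (Nat.mul_pos k0 (by omega)) hN
  have Q0 : 0 < Q := by omega
  have P0 : 0 < P := by omega
  have R0 : 0 < R := by omega
  have N1 : (1 : ℝ) ≤ N := by exact_mod_cast N0
  have hQ' : 2 * (N : ℝ) ≤ Q := by exact_mod_cast hQ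
  obtain ⟨D, hD⟩ : ∃ D, D = N / (2304 * g ^ 2) := ⟨_, rfl⟩
  have D1 : 2304 * g ^ 2 * D ≤ N := hD ▸ Nat.mul_div_le _ _
  have D2 : N < 2304 * g ^ 2 * (D + 1) := hD ▸ Nat.lt_mul_div_succ _ k0
  have D3 : d ≤ D := hD ▸ (Nat.le_div_iff_mul_le k0).2 (mul_comm d _ ▸ hN)
  have D4 : D ≤ N := hD ▸ Nat.div_le_self _ _
  refine ((h.mv hq (P := P) (by simpa using hP) (by simpa using hg)).mix (by positivity) (div_le_one_of_le₀ g1 (by positivity))
    (M := Q ^ 2) (by positivity) (by rw [Fintype.card_fin]; nlinarith) (D := D) ?_ n1 n2 (A := 2 ^ (D / 2 + 1))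
    (by positivity) ?_ (pstep_Av (by omega) Q0 (by positivity) (pm_sum (by omega) hP hW)) tm hF).trans
    (add_le_add le_rfl ?_)
  · rw [Fintype.card_fin, div_pow, one_pow, one_div_mul_eq_div, le_div_iff₀ (by positivity)]
    exact_mod_cast D1.trans_eq' (by ring)
  · rw [Fintype.card_fin]
    have a : (N : ℝ) * (4 * (9 / R ^ 2)) ≤ (D / 2 + 1 : ℕ) := by
      have b : N * 36 ≤ (D / 2 + 1) * R ^ 2 := by
        have := Nat.pow_le_pow_left hR 2
        have := Nat.mul_le_mul_left (D / 2 + 1) this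
        have := Nat.mul_le_mul_left (g ^ 2) (show D + 1 ≤ 2 * (D / 2 + 1) by omega)
        nlinarith
      rw [← mul_div_assoc, ← mul_div_assoc, div_le_iff₀ (by positivity)]
      exact_mod_cast b
    calc _ ≤ Real.exp (4 * (9 / R ^ 2)) ^ N := pow_le_pow_left₀ (by positivity) (by
            linarith [Real.add_one_le_exp (4 * (9 / (R : ℝ) ^ 2))]) _
      _ ≤ Real.exp 1 ^ (D / 2 + 1) := by
          rw [← Real.exp_nat_mul, ← Real.exp_nat_mul, mul_one]
          exact Real.exp_le_exp.2 a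
      _ ≤ (2 ^ 2) ^ (D / 2 + 1) := pow_le_pow_left₀ (Real.exp_pos _).le (by linarith [Real.exp_one_lt_d9]) _
      _ = _ := pow_right_comm _ _ _
  · have m : 1 ≤ 4 * g * Q ^ 2 := Nat.succ_le_of_lt (by positivity)
    have a := decay m htm (x := 1 - 1 / g * Fintype.card (Fin N) / Q ^ 2 / 4) (by
      rw [Fintype.card_fin, sub_nonneg, one_div_mul_eq_div, div_div, div_div, div_le_one (by positivity)]
      nlinarith [mul_le_mul_of_nonneg_right g1 (sq_nonneg (Q : ℝ))]) (by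
      rw [Fintype.card_fin, one_div_mul_eq_div, div_div, div_div]
      push_cast
      rw [show (g : ℝ) * (Q ^ 2 * 4) = 4 * g * Q ^ 2 by ring]
      gcongr)
    have b : (2 * tm + 2 : ℝ) ≤ 2 ^ y := by exact_mod_cast hy
    rw [mul_add, two_mul ((1 / 2 : ℝ) ^ j)]
    refine add_le_add ((mul_le_mul (pow_le_pow_right₀ one_le_two (show D / 2 + 1 ≤ Q by omega)) a
      (by refine pow_nonneg ?_ _; rw [Fintype.card_fin, sub_nonneg, one_div_mul_eq_div, div_div, div_div,
            div_le_one (by positivity)]; nlinarith [mul_le_mul_of_nonneg_right g1 (sq_nonneg (Q : ℝ))])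
      (by positivity)).trans_eq ?_) ?_
    · rw [pow_add, ← mul_assoc, ← mul_pow]; simp
    · rw [← mul_div_assoc, one_div_pow, div_le_div_iff₀ (by positivity) (by positivity), one_mul]
      refine (mul_le_mul_of_nonneg_right (mul_le_mul_of_nonneg_left b (by positivity)) (by positivity)).trans ?_
      rw [← pow_add, ← pow_add]
      exact pow_le_pow_right₀ one_le_two (by omega)

end Vale.Agent.P308
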