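import Vale.Agent.P328.Impl

namespace Vale.Agent.P308

open Vale.Agent.P328 Enc

/-- adjacency matrix and two unary numbers -/
structure Inr where
  d : List (List ℕ) × List ℕ × List ℕ

instance : Enc Inr := ⟨fun x => enc x.d⟩

/-- learning state -/
abbrev St := List ℕ × ℕ × ℕ × ℕ

def swp (b c v : ℕ) : ℕ := if v = b then c else if v = c then b else v
def parI (r : ℕ) : ℕ := if r % 2 = 0 then r + 1 else r - 1
def fac (n : ℕ) : ℕ := rep n (fun i b => b * (i + 1)) 1

namespace Inr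

variable (x : Inr)

def n : ℕ := x.d.1.length
def e : ℕ := x.d.2.1.length
def k : ℕ := x.d.2.2.length
def adj (u v : ℕ) : ℕ := (x.d.1.getD u []).getD v 0
def pa : ℕ := Nat.size x.n
def P : ℕ := 2 ^ x.pa
def D : ℕ := 48 * (x.n ^ 2 + 1) * x.e
def kk : ℕ := 1 + (4 * x.D) ^ 2
def L : ℕ := 2 * (2 * x.kk ^ 3 * (x.n + 1)) * (4 * x.D) * x.kk
def g : ℕ := 4 * x.P ^ 2 * (16 * x.n ^ 4 * x.L ^ 5 * (3 * x.n ^ 2) ^ 7) + 1
def ra : ℕ := Nat.size (512 * x.g + 24 * x.n ^ 2)
def R : ℕ := 2 ^ x.ra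
def lam : ℕ := x.n ^ 2 + x.e + 4
def m : ℕ := x.R * x.lam
def T : ℕ := 2 * x.R * x.D * (2 * x.n * x.lam + x.n ^ 2) + 1
def h : ℕ := 24 * (x.n ^ 2 + 1) * x.D + 32 * x.T * x.e
def j : ℕ := x.k + x.T * ((x.n ^ 2 + 1) * 2)
def s : ℕ := 4 * x.h ^ 2 * x.j + 1
def W : ℕ := x.n * (x.m + x.T)
def qa : ℕ := 21 + 3 * Nat.size (x.g + x.j + x.T * x.s)
def Q : ℕ := 2 ^ x.qa
def N : ℕ := 2304 * x.g ^ 2 * (2 * (x.j + 2 + 5 * x.qa))
def NT : ℕ := x.N + x.T * x.s
def tm : ℕ := 4 * x.g * x.Q ^ 2 * (x.Q + x.j)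
def B : ℕ := x.Q * (x.Q * (2 * (x.P * (x.P * x.R ^ x.W))))
def K : ℕ := 2 ^ (2 * x.n + x.n ^ 2 + x.ra * 2)
def C : ℕ := (x.K ^ x.n) ^ x.NT
def bits : ℕ := (2 * x.n + x.n ^ 2 + x.ra * 2) * x.n * x.NT +
  (x.qa + (x.qa + (1 + (x.pa + (x.pa + x.ra * x.W))))) * x.tm * x.T
def ix (u v : ℕ) : ℕ := min u v * x.n + max u v
def cf (c : List ℕ) (u v : ℕ) : ℕ := c.getD (x.ix u v) 0
def nrm (X : List ℕ) : List ℕ := mapR x.n fun v => min (X.getD v 0) x.n
def cjI (b c : ℕ) (X : List ℕ) : List ℕ := mapR x.n fun v => swp b c (X.getD (swp b c v) 0)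
def En (c X : List ℕ) : ℕ := sumR x.n fun v => x.cf c v (X.getD v 0)
def grow (X Y M : List ℕ) : List ℕ := mapR x.n fun v =>
  if M.getD v 0 = 0 ∧ M.getD (X.getD v 0) 0 = 0 ∧ M.getD (Y.getD v 0) 0 = 0 then 0 else 1
def orbI (X Y : List ℕ) (a : ℕ) : List ℕ :=
  rep x.n (fun _ M => x.grow X Y M) (mapR x.n fun v => if v = a then 1 else 0)
def mixI (M X Y : List ℕ) : List ℕ := mapR x.n fun v => if M.getD v 0 = 0 then X.getD v 0 else Y.getD v 0
def df (c : List ℕ) (a b : ℕ) (X : List ℕ) : ℕ := min (x.En c X - x.En c (x.cjI a b X)) x.W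
def pmI (c : List ℕ) (a : ℕ) (p : List ℕ × List ℕ) : List ℕ × List ℕ :=
  if a / 2 % x.P < x.n then if a / 2 / x.P % x.P < x.n then
    if a % 2 = 0 then (x.mixI (x.orbI p.1 p.2 (a / 2 % x.P)) p.1 p.2, x.mixI (x.orbI p.1 p.2 (a / 2 % x.P)) p.2 p.1)
    else if a / 2 / x.P / x.P < (x.R - 1) ^ x.df c (a / 2 % x.P) (a / 2 / x.P % x.P) p.1 *
      x.R ^ (x.W - x.df c (a / 2 % x.P) (a / 2 / x.P % x.P) p.1) then
      (x.cjI (a / 2 % x.P) (a / 2 / x.P % x.P) p.1, p.2) else p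
  else p else p
def put (σ : List (List ℕ)) (i j : ℕ) (p : List ℕ × List ℕ) : List (List ℕ) :=
  mapR (min σ.length x.NT) fun l => x.nrm (if l = j then p.2 else if l = i then p.1 else σ.getD l [])
def stp (c : List ℕ) (σ : List (List ℕ)) (a : ℕ) : List (List ℕ) :=
  if a % x.Q < σ.length then if a / x.Q % x.Q < σ.length then if a % x.Q = a / x.Q % x.Q then σ else
    x.put σ (a % x.Q) (a / x.Q % x.Q) (x.pmI c (a / x.Q / x.Q) (σ.getD (a % x.Q) [], σ.getD (a / x.Q % x.Q) []))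
  else σ else σ
def ct (τ : List (List ℕ)) (a : ℕ) : ℕ := sumR x.s fun l => if (τ.getD l []).getD (a / x.n) 0 = a % x.n then 1 else 0
def c0 (u v : ℕ) : ℕ := if x.adj u v = 0 then 0 else x.m
def f1 (τ : List (List ℕ)) : ℕ := rep (x.n * x.n)
  (fun a b => if ¬a / x.n = a % x.n ∧ x.ct τ a * (2 * x.D) < x.s then a else b) (x.n * x.n)
def f2 (c : List ℕ) (τ : List (List ℕ)) : ℕ := rep (x.n * x.n)
  (fun a b => if ¬a / x.n = a % x.n ∧ x.c0 (a / x.n) (a % x.n) < x.cf c (a / x.n) (a % x.n) ∧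
    2 * x.s < x.ct τ a * x.D then a else b) (x.n * x.n)
def upd (y : St) (τ : List (List ℕ)) : St :=
  if y.2.2.2 = 0 then
    if x.f1 τ < x.n * x.n then
      (mapR (x.n * x.n) fun a => y.1.getD a 0 + if a = x.ix (x.f1 τ / x.n) (x.f1 τ % x.n) then 1 else 0,
        y.2.1 * ((x.s - x.ct τ (x.f1 τ)) * (x.R - 1) ^ 2 + x.ct τ (x.f1 τ) * x.R ^ 2),
        y.2.2.1 * (x.s * (x.R - 1) ^ 2), 0)
    else if x.f2 y.1 τ < x.n * x.n then
      (mapR (x.n * x.n) fun a => y.1.getD a 0 - if a = x.ix (x.f2 y.1 τ / x.n) (x.f2 y.1 τ % x.n) then 1 else 0,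
        y.2.1 * ((x.s - x.ct τ (x.f2 y.1 τ)) * x.R ^ 2 + x.ct τ (x.f2 y.1 τ) * (x.R - 1) ^ 2),
        y.2.2.1 * (x.s * x.R ^ 2), 0)
    else (y.1, y.2.1, y.2.2.1, 1)
  else y
def run (c : List ℕ) (σ : List (List ℕ)) (ω : ℕ) : List (List ℕ) := ((eat x.B (x.stp c))^[x.tm] (σ, ω)).1
def cut (y : St) (N : ℕ) (σ : List (List ℕ)) : St × List (List ℕ) :=
  (x.upd y (mapR x.s fun l => σ.getD (N + l) []), mapR (min N x.NT) fun l => x.nrm (σ.getD l []))
def ph (y : St × List (List ℕ)) (ω : ℕ) : St × List (List ℕ) := x.cut y.1 (y.2.length - x.s) (x.run y.1.1 y.2 ω)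
def key (b v : ℕ) : ℕ := b / x.K ^ min v x.n % x.K * x.n + v
def rk (b v : ℕ) : ℕ := sumR x.n fun u => if x.key b u < x.key b v then 1 else 0
def ini (b : ℕ) : List ℕ := mapR x.n fun v => sumR x.n fun w => if x.rk b w = parI (x.rk b v) then w else 0
def pop (a : ℕ) : List (List ℕ) := mapR x.NT fun l => x.ini (a / (x.K ^ x.n) ^ min l x.NT % x.K ^ x.n)
def s0 : St := (mapR (x.n * x.n) fun _ => x.m, fac x.n, 2 ^ (x.n / 2) * fac (x.n / 2), 0)
def fin (a b : ℕ) : St := ((eat (x.B ^ x.tm) x.ph)^[x.T] ((x.s0, x.pop a), b)).1.1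
def out (y : St) : ℕ := (2 * y.2.1 + y.2.2.1) / (2 * y.2.2.1)
def main (a : ℕ) : ℕ := if x.n % 2 = 1 then 0 else if x.n = 0 then 1 else out (x.fin (a % x.C) (a / x.C))

end Inr

open Inr

variable {α : Type} [Enc α] {x : α → Inr} {i j t u r : α → ℕ} {y w z : α → List ℕ} {σ : α → List (List ℕ)}

@[fun_prop] lemma PB.div {s t : α → ℕ} (hs : PB s) : PB fun a => s a / t a := hs.mono fun _ => Nat.div_le_self _ _
@[fun_prop] lemma pt_d (hx : PT x) : PT fun a => (x a).d := hx.of_enc fun _ => rfl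
@[fun_prop] lemma pt_n (hx : PT x) : PT fun a => (x a).n := by unfold Inr.n; fun_prop
@[fun_prop] lemma pb_n (hx : PT x) : PB fun a => (x a).n := by unfold Inr.n; fun_prop
@[fun_prop] lemma pt_e (hx : PT x) : PT fun a => (x a).e := by unfold Inr.e; fun_prop
@[fun_prop] lemma pb_e (hx : PT x) : PB fun a => (x a).e := by unfold Inr.e; fun_prop
@[fun_prop] lemma pt_k (hx : PT x) : PT fun a => (x a).k := by unfold Inr.k; fun_prop
@[fun_prop] lemma pb_k (hx : PT x) : PB fun a => (x a).k := by unfold Inr.k; fun_prop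
@[fun_prop] lemma pt_pa (hx : PT x) : PT fun a => (x a).pa := by unfold Inr.pa; fun_prop
@[fun_prop] lemma pb_pa (hx : PT x) : PB fun a => (x a).pa := by unfold Inr.pa; fun_prop
@[fun_prop] lemma pt_P (hx : PT x) : PT fun a => (x a).P := by unfold Inr.P; fun_prop
@[fun_prop] lemma pb_P (hx : PT x) : PB fun a => (x a).P :=
  PB.mono (t := fun a => 2 * (x a).n + 1) (by fun_prop) fun _ => two_pow_size _
@[fun_prop] lemma pt_D (hx : PT x) : PT fun a => (x a).D := by unfold Inr.D; fun_prop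
@[fun_prop] lemma pb_D (hx : PT x) : PB fun a => (x a).D := by unfold Inr.D; fun_prop
@[fun_prop] lemma pt_kk (hx : PT x) : PT fun a => (x a).kk := by unfold Inr.kk; fun_prop
@[fun_prop] lemma pb_kk (hx : PT x) : PB fun a => (x a).kk := by unfold Inr.kk; fun_prop
@[fun_prop] lemma pt_L (hx : PT x) : PT fun a => (x a).L := by unfold Inr.L; fun_prop
@[fun_prop] lemma pb_L (hx : PT x) : PB fun a => (x a).L := by unfold Inr.L; fun_prop
@[fun_prop] lemma pt_g (hx : PT x) : PT fun a => (x a).g := by unfold Inr.g; fun_prop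
@[fun_prop] lemma pb_g (hx : PT x) : PB fun a => (x a).g := by unfold Inr.g; fun_prop
@[fun_prop] lemma pt_ra (hx : PT x) : PT fun a => (x a).ra := by unfold Inr.ra; fun_prop
@[fun_prop] lemma pb_ra (hx : PT x) : PB fun a => (x a).ra := by unfold Inr.ra; fun_prop
@[fun_prop] lemma pt_R (hx : PT x) : PT fun a => (x a).R := by unfold Inr.R; fun_prop
@[fun_prop] lemma pb_R (hx : PT x) : PB fun a => (x a).R :=
  PB.mono (t := fun a => 2 * (512 * (x a).g + 24 * (x a).n ^ 2) + 1) (by fun_prop) fun _ => two_pow_size _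
@[fun_prop] lemma pt_lam (hx : PT x) : PT fun a => (x a).lam := by unfold Inr.lam; fun_prop
@[fun_prop] lemma pb_lam (hx : PT x) : PB fun a => (x a).lam := by unfold Inr.lam; fun_prop
@[fun_prop] lemma pt_m (hx : PT x) : PT fun a => (x a).m := by unfold Inr.m; fun_prop
@[fun_prop] lemma pb_m (hx : PT x) : PB fun a => (x a).m := by unfold Inr.m; fun_prop
@[fun_prop] lemma pt_T (hx : PT x) : PT fun a => (x a).T := by unfold Inr.T; fun_prop
@[fun_prop] lemma pb_T (hx : PT x) : PB fun a => (x a).T := by unfold Inr.T; fun_prop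
@[fun_prop] lemma pt_h (hx : PT x) : PT fun a => (x a).h := by unfold Inr.h; fun_prop
@[fun_prop] lemma pb_h (hx : PT x) : PB fun a => (x a).h := by unfold Inr.h; fun_prop
@[fun_prop] lemma pt_j (hx : PT x) : PT fun a => (x a).j := by unfold Inr.j; fun_prop
@[fun_prop] lemma pb_j (hx : PT x) : PB fun a => (x a).j := by unfold Inr.j; fun_prop
@[fun_prop] lemma pt_s (hx : PT x) : PT fun a => (x a).s := by unfold Inr.s; fun_prop
@[fun_prop] lemma pb_s (hx : PT x) : PB fun a => (x a).s := by unfold Inr.s; fun_prop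
@[fun_prop] lemma pt_W (hx : PT x) : PT fun a => (x a).W := by unfold Inr.W; fun_prop
@[fun_prop] lemma pb_W (hx : PT x) : PB fun a => (x a).W := by unfold Inr.W; fun_prop
@[fun_prop] lemma pt_qa (hx : PT x) : PT fun a => (x a).qa := by unfold Inr.qa; fun_prop
@[fun_prop] lemma pb_qa (hx : PT x) : PB fun a => (x a).qa := by unfold Inr.qa; fun_prop
@[fun_prop] lemma pt_Q (hx : PT x) : PT fun a => (x a).Q := by unfold Inr.Q; fun_prop
@[fun_prop] lemma pb_Q (hx : PT x) : PB fun a => (x a).Q :=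
  PB.mono (t := fun a => 2 ^ 21 * (2 * ((x a).g + (x a).j + (x a).T * (x a).s) + 1) ^ 3) (by fun_prop) fun a => by
    rw [Q, qa, pow_add, mul_comm 3, pow_mul]
    exact Nat.mul_le_mul_left _ (Nat.pow_le_pow_left (two_pow_size _) _)
@[fun_prop] lemma pt_N (hx : PT x) : PT fun a => (x a).N :=
  ((PT.const 2304).mul ((pt_g hx).pow 2)).mul (by fun_prop)
@[fun_prop] lemma pb_N (hx : PT x) : PB fun a => (x a).N := by unfold Inr.N; fun_prop
@[fun_prop] lemma pt_NT (hx : PT x) : PT fun a => (x a).NT := by unfold Inr.NT; fun_prop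
@[fun_prop] lemma pb_NT (hx : PT x) : PB fun a => (x a).NT := by unfold Inr.NT; fun_prop
@[fun_prop] lemma pt_tm (hx : PT x) : PT fun a => (x a).tm :=
  (((PT.const 4).mul (pt_g hx)).mul ((pt_Q hx).pow 2)).mul ((pt_Q hx).add (pt_j hx))
@[fun_prop] lemma pb_tm (hx : PT x) : PB fun a => (x a).tm := by unfold Inr.tm; fun_prop
@[fun_prop] lemma pt_B (hx : PT x) : PT fun a => (x a).B := by unfold Inr.B; fun_prop
@[fun_prop] lemma pt_K (hx : PT x) : PT fun a => (x a).K := by unfold Inr.K; fun_prop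
@[fun_prop] lemma pt_C (hx : PT x) : PT fun a => (x a).C := by unfold Inr.C; fun_prop
lemma pb_bits : PB bits := by unfold bits; fun_prop
@[fun_prop] lemma pt_adj (hx : PT x) (hi : PT i) (hj : PT j) : PT fun a => (x a).adj (i a) (j a) := by
  unfold adj; fun_prop
@[fun_prop] lemma pt_swp (hi : PT i) (hj : PT j) (hu : PT u) : PT fun a => swp (i a) (j a) (u a) := by
  unfold swp; fun_prop
@[fun_prop] lemma pt_parI (hi : PT i) : PT fun a => parI (i a) := by unfold parI; fun_prop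
@[fun_prop] lemma pt_fac (hi : PT i) (hi' : PB i) : PT fun a => fac (i a) :=
  PT.rep (f := fun _ i b => b * (i + 1)) hi hi' (by fun_prop) (by fun_prop) (t := fun p => sz (p.2 + 1))
    (by fun_prop) fun _ _ _ => sz_mul _ _
@[fun_prop] lemma pt_ix (hx : PT x) (hi : PT i) (hj : PT j) : PT fun a => (x a).ix (i a) (j a) := by
  unfold ix; fun_prop
@[fun_prop] lemma pt_cf (hx : PT x) (hy : PT y) (hi : PT i) (hj : PT j) :
    PT fun a => (x a).cf (y a) (i a) (j a) := by unfold cf; fun_prop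
@[fun_prop] lemma pt_nrm (hx : PT x) (hy : PT y) : PT fun a => (x a).nrm (y a) := by unfold nrm; fun_prop
@[fun_prop] lemma pt_cjI (hx : PT x) (hi : PT i) (hj : PT j) (hy : PT y) :
    PT fun a => (x a).cjI (i a) (j a) (y a) := by unfold cjI; fun_prop
@[fun_prop] lemma pt_En (hx : PT x) (hy : PT y) (hw : PT w) : PT fun a => (x a).En (y a) (w a) := by
  unfold En; fun_prop
@[fun_prop] lemma pt_grow (hx : PT x) (hy : PT y) (hw : PT w) (hz : PT z) :
    PT fun a => (x a).grow (y a) (w a) (z a) := by unfold grow; fun_prop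

lemma sz_bd {β : Type} [Enc β] (n : ℕ) {f : ℕ → β} {b : ℕ} (h : ∀ c, sz (f c) ≤ b) : sz (mapR n f) ≤ n * (b + 1) + 1 := by
  rw [sz_mapR]
  exact Nat.succ_le_succ ((Finset.sum_le_card_nsmul _ _ (b + 1) fun c _ => Nat.succ_le_succ (h c)).trans (by simp))

@[fun_prop] lemma pt_orbI (hx : PT x) (hy : PT y) (hw : PT w) (hi : PT i) :
    PT fun a => (x a).orbI (y a) (w a) (i a) :=
  PT.rep (f := fun a _ M => (x a).grow (y a) (w a) M) (by fun_prop) (by fun_prop) (by fun_prop) (by fun_prop)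
    (t := fun p => (x p.1).n * (sz 1 + 1) + 1) (by fun_prop) fun a _ _ =>
      (sz_bd _ fun c => sz_mono (by split_ifs <;> omega)).trans (Nat.le_add_left _ _)
@[fun_prop] lemma pt_mixI (hx : PT x) (hy : PT y) (hw : PT w) (hz : PT z) :
    PT fun a => (x a).mixI (y a) (w a) (z a) := by unfold mixI; fun_prop
@[fun_prop] lemma pt_df (hx : PT x) (hy : PT y) (hi : PT i) (hj : PT j) (hw : PT w) :
    PT fun a => (x a).df (y a) (i a) (j a) (w a) := by unfold df; fun_prop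
@[fun_prop] lemma pb_df (hx : PT x) : PB fun a => (x a).df (y a) (i a) (j a) (w a) := by unfold df; fun_prop
@[fun_prop] lemma pt_pmI {p : α → List ℕ × List ℕ} (hx : PT x) (hy : PT y) (hi : PT i) (hp : PT p) :
    PT fun a => (x a).pmI (y a) (i a) (p a) := by unfold pmI; fun_prop
@[fun_prop] lemma pt_put {p : α → List ℕ × List ℕ} (hx : PT x) (hσ : PT σ) (hi : PT i) (hj : PT j) (hp : PT p) :
    PT fun a => (x a).put (σ a) (i a) (j a) (p a) := by unfold put; fun_prop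
@[fun_prop] lemma pt_stp (hx : PT x) (hy : PT y) (hσ : PT σ) (hi : PT i) :
    PT fun a => (x a).stp (y a) (σ a) (i a) := by unfold stp; fun_prop
@[fun_prop] lemma pt_ct (hx : PT x) (hσ : PT σ) (hi : PT i) : PT fun a => (x a).ct (σ a) (i a) := by
  unfold ct; fun_prop
@[fun_prop] lemma pt_c0 (hx : PT x) (hi : PT i) (hj : PT j) : PT fun a => (x a).c0 (i a) (j a) := by
  unfold c0; fun_prop
@[fun_prop] lemma pt_f1 (hx : PT x) (hσ : PT σ) : PT fun a => (x a).f1 (σ a) :=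
  PT.rep (f := fun p a b => if ¬a / (x p).n = a % (x p).n ∧ (x p).ct (σ p) a * (2 * (x p).D) < (x p).s then a else b)
    (by fun_prop) (by fun_prop) (by fun_prop) (by fun_prop) (t := fun p => sz p.2) (by fun_prop)
    fun a i b => by simp only; split_ifs <;> omega
@[fun_prop] lemma pt_f2 (hx : PT x) (hy : PT y) (hσ : PT σ) : PT fun a => (x a).f2 (y a) (σ a) :=
  PT.rep (f := fun p a b => if ¬a / (x p).n = a % (x p).n ∧ (x p).c0 (a / (x p).n) (a % (x p).n) <
    (x p).cf (y p) (a / (x p).n) (a % (x p).n) ∧ 2 * (x p).s < (x p).ct (σ p) a * (x p).D then a else b)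
    (by fun_prop) (by fun_prop) (by fun_prop) (by fun_prop) (t := fun p => sz p.2) (by fun_prop)
    fun a i b => by simp only; split_ifs <;> omega
@[fun_prop] lemma pt_upd {s : α → St} (hx : PT x) (hs : PT s) (hσ : PT σ) : PT fun a => (x a).upd (s a) (σ a) := by
  unfold upd; fun_prop

lemma B_pos (x : Inr) : 0 < x.B := by unfold B Q P R; positivity

lemma sz_pop (x : Inr) (N : ℕ) (f : ℕ → List ℕ) :
    sz (mapR (min N x.NT) fun l => x.nrm (f l)) ≤ x.NT * (x.n * (sz x.n + 1) + 1 + 1) + 1 :=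
  (sz_bd _ fun _ => sz_bd _ fun _ => sz_mono (Nat.min_le_right _ _)).trans
    (Nat.succ_le_succ (Nat.mul_le_mul_right _ (Nat.min_le_right _ _)))

@[fun_prop] lemma pt_run (hx : PT x) (hy : PT y) (hσ : PT σ) (hi : PT i) :
    PT fun a => (x a).run (y a) (σ a) (i a) :=
  (PT.eat (st := fun a => (x a).stp (y a)) (by fun_prop) (fun a => B_pos _) (by fun_prop) (by fun_prop) (by fun_prop)
    (by fun_prop) (t := fun p => (x p.1).NT * ((x p.1).n * (sz (x p.1).n + 1) + 1 + 1) + 1) (by fun_prop)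
    fun a y ω => by
      simp only [stp]
      split_ifs
      · omega
      · exact (sz_pop _ _ _).trans (Nat.le_add_left _ _)
      all_goals omega).fst
@[fun_prop] lemma pt_cut {s : α → St} (hx : PT x) (hs : PT s) (hi : PT i) (hσ : PT σ) :
    PT fun a => (x a).cut (s a) (i a) (σ a) := by unfold cut; fun_prop
@[fun_prop] lemma pt_ph {s : α → St × List (List ℕ)} (hx : PT x) (hs : PT s) (hi : PT i) :
    PT fun a => (x a).ph (s a) (i a) := by unfold ph; fun_prop
@[fun_prop] lemma pt_key (hx : PT x) (hi : PT i) (hj : PT j) : PT fun a => (x a).key (i a) (j a) := by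
  unfold key; fun_prop
@[fun_prop] lemma pt_rk (hx : PT x) (hi : PT i) (hj : PT j) : PT fun a => (x a).rk (i a) (j a) := by
  unfold rk; fun_prop
@[fun_prop] lemma pt_ini (hx : PT x) (hi : PT i) : PT fun a => (x a).ini (i a) := by unfold ini; fun_prop
@[fun_prop] lemma pt_pop (hx : PT x) (hi : PT i) : PT fun a => (x a).pop (i a) := by unfold pop; fun_prop
@[fun_prop] lemma pt_s0 (hx : PT x) : PT fun a => (x a).s0 := by unfold s0; fun_prop

lemma ct_le (x : Inr) (τ : List (List ℕ)) (a : ℕ) : x.ct τ a ≤ x.s := by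
  unfold ct sumR
  refine (Finset.sum_le_card_nsmul _ _ 1 fun c _ => ?_).trans (by simp)
  simp only; split_ifs <;> omega

lemma sz_upd (x : Inr) (y : St) (τ : List (List ℕ)) :
    sz (x.upd y τ) ≤ sz y + (x.n * x.n * 3 + 2 + 2 * sz (2 * (x.s * x.R ^ 2))) := by
  obtain ⟨c, N, D, f⟩ := y
  have a1 := sz_getD c 0 (x.n * x.n)
  have r : (x.R - 1) ^ 2 ≤ x.R ^ 2 := Nat.pow_le_pow_left (Nat.sub_le _ _) _
  have a2 : ∀ (M a b u v : ℕ), a ≤ x.s → b ≤ x.s → u ≤ x.R ^ 2 → v ≤ x.R ^ 2 →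
      sz (M * (a * u + b * v)) ≤ sz M + sz (2 * (x.s * x.R ^ 2)) := fun M a b u v h1 h2 h3 h4 =>
    (sz_mul _ _).trans (Nat.add_le_add_left (sz_mono (by
      have := Nat.mul_le_mul h1 h3
      have := Nat.mul_le_mul h2 h4
      omega)) _)
  have a3 := fun u h => a2 D x.s 0 u 0 le_rfl (Nat.zero_le _) h (Nat.zero_le _)
  have a4 : ∀ g : ℕ → ℕ, (∀ a, g a ≤ c.getD a 0 + 1) → sz (mapR (x.n * x.n) g) ≤ sz c + (x.n * x.n * 3 + 1) :=
    fun g hg => by
      have := Finset.sum_le_sum fun i (_ : i ∈ Finset.range (x.n * x.n)) =>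
        Nat.succ_le_succ ((sz_mono (hg i)).trans (sz_succ _))
      simp only [sz_mapR, Nat.succ_eq_add_one, Finset.sum_add_distrib, Finset.sum_const,
        Finset.card_range, smul_eq_mul, show sz 0 = 1 from rfl] at *
      omega
  have a5 := sz_pos f
  simp only [zero_mul, add_zero] at a3
  simp only [upd]
  split_ifs
  · have := a2 N _ _ _ _ (Nat.sub_le _ (x.ct τ (x.f1 τ))) (ct_le x τ (x.f1 τ)) r le_rfl
    have := a3 _ r
    have := a4 (fun a => c.getD a 0 + if a = x.ix (x.f1 τ / x.n) (x.f1 τ % x.n) then 1 else 0) fun a => by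
      split_ifs <;> omega
    simp only [sz_pair, show sz 0 = 1 from rfl] at *
    omega
  · have := a2 N _ _ _ _ (Nat.sub_le _ (x.ct τ (x.f2 c τ))) (ct_le x τ (x.f2 c τ)) le_rfl r
    have := a3 _ le_rfl
    have := a4 (fun a => c.getD a 0 - if a = x.ix (x.f2 c τ / x.n) (x.f2 c τ % x.n) then 1 else 0) fun a => by
      omega
    simp only [sz_pair, show sz 0 = 1 from rfl] at *
    omega
  · simp only [sz_pair, show sz 1 = 2 from rfl]
    omega
  · omega

lemma pt_fin (hx : PT x) (hi : PT i) (hj : PT j) : PT fun a => (x a).fin (i a) (j a) :=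
  (PT.eat (st := fun a => (x a).ph) (by fun_prop) (fun a => pow_pos (B_pos _) _) (by fun_prop) (by fun_prop)
    (by fun_prop) (by fun_prop) (t := fun p => ((x p.1).n * (x p.1).n * 3 + 2 + 2 * sz (2 * ((x p.1).s * (x p.1).R ^ 2))) +
      ((x p.1).NT * ((x p.1).n * (sz (x p.1).n + 1) + 1 + 1) + 1)) (by fun_prop) fun a y ω => by
      obtain ⟨s, σ⟩ := y
      have := sz_upd (x a) s (mapR (x a).s fun l => ((x a).run s.1 σ ω).getD (σ.length - (x a).s + l) [])
      have := sz_pop (x a) (σ.length - (x a).s) fun l => ((x a).run s.1 σ ω).getD l []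
      simp only [ph, cut, sz_pair]
      omega).fst.fst

lemma pt_all : PT fun a : Inr × List ℕ => a.1.main (toNum a.2) := by
  have h : PT fun a : Inr × List ℕ => toNum a.2 := by unfold toNum; fun_prop
  have := pt_fin (x := fun a : Inr × List ℕ => a.1) (i := fun a => toNum a.2 % a.1.C) (j := fun a => toNum a.2 / a.1.C)
    (by fun_prop) (by fun_prop) (by fun_prop)
  unfold main out; fun_prop

end Vale.Agent.P308
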