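import Vale.Agent.P308.Out
import Vale.Agent.P308.Impl
import Vale.Agent.P328.Final

namespace Vale.Agent.P308

open Finset Equiv Function
open Vale.Agent.P328 (mapR sumR rep rep_succ eat eat_map eat_sum split Av)

lemma mapR_eq {β : Type} (n : ℕ) (f : ℕ → β) : mapR n f = List.ofFn fun i : Fin n => f i := by
  apply List.ext_getElem <;> simp [mapR]

lemma getD_ofFn {β : Type} {n : ℕ} (f : Fin n → β) (i : Fin n) (d : β) : (List.ofFn f).getD i d = f i := by
  simp [List.getD_eq_getElem?_getD]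

lemma getD_mapR {β : Type} {n i : ℕ} (f : ℕ → β) (h : i < n) (d : β) : (mapR n f).getD i d = f i := by
  rw [mapR_eq]; exact getD_ofFn _ ⟨i, h⟩ d

lemma swp_eq {n : ℕ} (b c v : Fin n) : swp b c v = swap b c v := by
  simp only [swp, swap_apply_def, Fin.val_inj, apply_ite Fin.val]

lemma fac_eq (n : ℕ) : fac n = n.factorial := by
  induction n with
  | zero => rfl
  | succ n ih => rw [fac, rep_succ, ← fac, ih, Nat.factorial_succ, mul_comm]

lemma fnd_spec (p : ℕ → Prop) [DecidablePred p] (M n : ℕ) {r : ℕ} (h : rep n (fun a b => if p a then a else b) M = r) :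
    (r < n ∧ p r) ∨ (r = M ∧ ∀ a < n, ¬p a) := by
  induction n generalizing r with
  | zero => exact .inr ⟨h.symm, by simp⟩
  | succ n ih =>
    rw [rep_succ] at h
    split_ifs at h with e
    · exact .inl ⟨by omega, h ▸ e⟩
    rcases ih h with a | a
    · exact .inl ⟨by omega, a.2⟩
    · exact .inr ⟨a.1, fun b hb => (Nat.lt_succ_iff_lt_or_eq.1 hb).elim (a.2 b) fun x => x ▸ e⟩

namespace Inr

variable (x : Inr)

/-- list of a matching -/
def eX (X : PM (Fin x.n)) : List ℕ := List.ofFn fun v => (X v : ℕ)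
/-- list of a population -/
def eP {N : ℕ} (σ : Fin N → PM (Fin x.n)) : List (List ℕ) := List.ofFn fun l => x.eX (σ l)
/-- exponents -/
def cF (y : St) (u v : Fin x.n) : ℕ := x.cf y.1 u v

lemma eX_get (X : PM (Fin x.n)) (v : Fin x.n) : (x.eX X).getD v 0 = X v := getD_ofFn _ _ _

lemma nrm_eq (X : PM (Fin x.n)) : x.nrm (x.eX X) = x.eX X := by
  rw [nrm, mapR_eq]
  exact congrArg _ (funext fun v => by rw [eX_get, min_eq_left (X v).2.le])

lemma cjI_eq (b c : Fin x.n) (X : PM (Fin x.n)) : x.cjI b c (x.eX X) = x.eX (cj b c X) := by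
  rw [cjI, mapR_eq]
  exact congrArg _ (funext fun v => by rw [swp_eq, eX_get, swp_eq, cj_apply])

lemma En_eq (y : St) (X : PM (Fin x.n)) : x.En y.1 (x.eX X) = P308.En (x.cF y) X := by
  simp only [En, sumR, Finset.sum_range, eX_get, P308.En, cF]

lemma orbI_eq (X Y : PM (Fin x.n)) (a v : Fin x.n) : (x.orbI (x.eX X) (x.eX Y) a).getD v 0 = 0 ↔ v ∉ orb X Y a := by
  have key : ∀ t, ∃ S : Finset (Fin x.n), (∀ v : Fin x.n, (rep t (fun _ M => x.grow (x.eX X) (x.eX Y) M)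
      (mapR x.n fun v => if v = a then 1 else 0)).getD v 0 = 0 ↔ v ∉ S) ∧ a ∈ S ∧ S ⊆ orb X Y a ∧
      (Cl S X ∧ Cl S Y ∨ t + 1 ≤ S.card) := by
    intro t
    induction t with
    | zero => exact ⟨{a}, fun v => by
        rw [P328.rep_zero, getD_mapR _ v.2]; simp [Fin.val_inj], mem_singleton_self _,
        by simpa using orb_self .., .inr (by simp)⟩
    | succ t ih =>
      obtain ⟨S, h1, h2, h3, h4⟩ := ih
      have i := X.inv
      have j := Y.inv
      have s : S ⊆ univ.filter fun v => v ∈ S ∨ X v ∈ S ∨ Y v ∈ S := fun v hv => by simp [hv]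
      refine ⟨univ.filter fun v => v ∈ S ∨ X v ∈ S ∨ Y v ∈ S, fun v => ?_, s h2, fun v hv => ?_, ?_⟩
      · rw [rep_succ, grow, getD_mapR _ v.2, eX_get, eX_get]
        simp [h1, -List.getD_eq_getElem?_getD]
      · rcases (mem_filter.1 hv).2 with c | c | c
        exacts [h3 c, i v ▸ orb_cl1 _ _ _ _ (h3 c), j v ▸ orb_cl2 _ _ _ _ (h3 c)]
      by_cases e : (univ.filter fun v => v ∈ S ∨ X v ∈ S ∨ Y v ∈ S) ⊆ S
      · rw [e.antisymm s]
        exact .inl ⟨fun v hv => e (by simp [i, hv]), fun v hv => e (by simp [j, hv])⟩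
      rcases h4 with c | c
      · exact absurd (fun v hv => by
          rcases (mem_filter.1 hv).2 with d | d | d
          exacts [d, i v ▸ c.1 _ d, j v ▸ c.2 _ d]) e
      · exact .inr (c.trans_lt (Finset.card_lt_card ⟨s, e⟩))
  obtain ⟨S, h1, h2, h3, h4⟩ := key x.n
  have := Finset.card_le_univ S
  rw [Fintype.card_fin] at this
  obtain ⟨c1, c2⟩ := h4.resolve_right (by omega)
  rw [orbI, h1, h3.antisymm fun _ hy => mem_orb.1 hy _ h2 c1 c2]

lemma mixI_eq {M : List ℕ} {U : Finset (Fin x.n)} (h : ∀ v : Fin x.n, M.getD v 0 = 0 ↔ v ∉ U) {X Y : PM (Fin x.n)}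
    (h1 : Cl U X) (h2 : Cl U Y) : x.mixI M (x.eX X) (x.eX Y) = x.eX (mix U X Y) := by
  rw [mixI, mapR_eq]
  exact congrArg _ (funext fun v => by simp only [h, eX_get, mix_eq h1 h2, ite_not, apply_ite Fin.val])

lemma pmI_eq (y : St) (hW : ∀ X, P308.En (x.cF y) X ≤ x.W) (a : ℕ) (p : PM (Fin x.n) × PM (Fin x.n)) :
    x.pmI y.1 a (x.eX p.1, x.eX p.2) =
      (x.eX (pm x.R x.W x.P (x.cF y) a p).1, x.eX (pm x.R x.W x.P (x.cF y) a p).2) := by
  unfold pmI pm
  by_cases h1 : a / 2 % x.P < x.n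
  swap
  · rw [if_neg h1, dif_neg h1]
  by_cases h2 : a / 2 / x.P % x.P < x.n
  swap
  · rw [if_pos h1, dif_pos h1, if_neg h2, dif_neg h2]
  have c := x.cjI_eq ⟨_, h1⟩ ⟨_, h2⟩ p.1
  have o := x.orbI_eq p.1 p.2 ⟨_, h1⟩
  simp only at c o
  simp only [if_pos h1, dif_pos h1, if_pos h2, dif_pos h2, df, c, En_eq,
    min_eq_left ((Nat.sub_le _ _).trans (hW p.1)), x.mixI_eq o (orb_cl1 _ _ _) (orb_cl2 _ _ _),
    x.mixI_eq o (orb_cl2 _ _ _) (orb_cl1 _ _ _)]
  split_ifs <;> rfl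

lemma stp_eq (y : St) (hW : ∀ X, P308.En (x.cF y) X ≤ x.W) {N : ℕ} (hN : N ≤ x.NT) (σ : Fin N → PM (Fin x.n))
    (a : ℕ) : x.eP (pstep x.Q (pm x.R x.W x.P (x.cF y)) σ a) = x.stp y.1 (x.eP σ) a := by
  have l : (x.eP σ).length = N := List.length_ofFn
  have g : ∀ i : Fin N, (x.eP σ).getD i [] = x.eX (σ i) := fun i => getD_ofFn _ _ _
  unfold stp pstep
  rw [l]
  by_cases h1 : a % x.Q < N
  swap
  · rw [if_neg h1, dif_neg h1]
  by_cases h2 : a / x.Q % x.Q < N
  swap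
  · rw [if_pos h1, dif_pos h1, if_neg h2, dif_neg h2]
  rw [if_pos h1, dif_pos h1, if_pos h2, dif_pos h2]
  split_ifs
  · rfl
  rw [g ⟨_, h1⟩, g ⟨_, h2⟩, x.pmI_eq y hW _ (σ ⟨_, h1⟩, σ ⟨_, h2⟩), put, l, min_eq_left hN, mapR_eq]
  refine congrArg List.ofFn (funext fun k => ?_)
  simp only [g, lift, update_apply, Fin.ext_iff, apply_ite x.nrm, nrm_eq, apply_ite x.eX]

lemma ph_eq (y : St) (hW : ∀ X, P308.En (x.cF y) X ≤ x.W) {N : ℕ} (hN : N + x.s ≤ x.NT)
    (σ : Fin (N + x.s) → PM (Fin x.n)) (ω : ℕ) : x.ph (y, x.eP σ) ω =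
      (x.upd y (x.eP fun k => ((eat x.B (pstep x.Q (pm x.R x.W x.P (x.cF y))))^[x.tm] (σ, ω)).1 (Fin.natAdd N k)),
        x.eP fun k => ((eat x.B (pstep x.Q (pm x.R x.W x.P (x.cF y))))^[x.tm] (σ, ω)).1 (Fin.castAdd x.s k)) := by
  have l : (x.eP σ).length = N + x.s := List.length_ofFn
  simp only [ph, run, eat_map x.eP (x.stp_eq y hW hN), l, Nat.add_sub_cancel, cut,
    min_eq_left ((Nat.le_add_right _ _).trans hN), mapR_eq]
  generalize ((eat x.B (pstep x.Q (pm x.R x.W x.P (x.cF y))))^[x.tm] (σ, ω)).1 = τ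
  have g : ∀ i, (x.eP τ).getD (i : Fin _) [] = x.eX (τ i) := fun i => getD_ofFn _ _ _
  congr 3 <;> funext k
  · exact g (Fin.natAdd N k)
  · exact (congrArg x.nrm (g (Fin.castAdd x.s k))).trans (x.nrm_eq _)

lemma ini_eq (he : x.n % 2 = 0) (b : ℕ) : x.ini b = x.eX (P308.ini he fun v => b / x.K ^ (v : ℕ) % x.K) := by
  have r : ∀ v : Fin x.n, x.rk b v = rank (fun v : Fin x.n => b / x.K ^ (v : ℕ) % x.K * x.n + v) v := fun v => by
    rw [rk, sumR, Finset.sum_range, rank, Finset.card_filter]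
    simp only [key, min_eq_left (Fin.is_le' ..)]
  rw [ini, mapR_eq]
  refine congrArg _ (funext fun v => ?_)
  simp only [sumR, Finset.sum_range, r, show parI = par from rfl, ← ini_spec he]
  simp

lemma ix_lt (u v : Fin x.n) : x.ix u v < x.n * x.n := by
  have := Nat.mul_le_mul_right x.n (show min (u : ℕ) v + 1 ≤ x.n by omega)
  rw [Nat.succ_mul] at this
  unfold ix
  omega

lemma ix_eq (a b u v : Fin x.n) : x.ix a b = x.ix u v ↔ (a = u ∧ b = v) ∨ (a = v ∧ b = u) := by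
  refine ⟨fun h => ?_, by rintro (⟨rfl, rfl⟩ | ⟨rfl, rfl⟩) <;> simp [ix, min_comm, max_comm]⟩
  have h1 := congrArg (· % x.n) h
  simp only [ix, Nat.mul_add_mod_of_lt (max_lt a.2 b.2), Nat.mul_add_mod_of_lt (max_lt u.2 v.2)] at h1
  rw [ix, ix, h1, Nat.add_right_cancel_iff, Nat.mul_left_inj (by have := a.2; omega)] at h
  simp only [Fin.ext_iff]
  omega

lemma D_ge (he : 1 ≤ x.e) : 48 * (x.n ^ 2 + 1) ≤ x.D := Nat.le_mul_of_pos_right _ he

lemma R_ge : 512 * x.g + 24 * x.n ^ 2 ≤ x.R ∧ 0 < x.g := ⟨(Nat.lt_size_self _).le, Nat.succ_pos _⟩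

/-- the parameters -/
noncomputable def lp (he : 1 ≤ x.e) (hs : ∀ u v : Fin x.n, x.adj u v = x.adj v u) : Lp (Fin x.n) where
  R := x.R
  δ := 1 / x.D
  η := 1 / x.h
  K := (x.R / (x.R - 1)) ^ (Fintype.card (Fin x.n) * x.m)
  Φ := -(Fintype.card (Fin x.n) * x.m * (16 / 15 * (1 / x.R)) + Fintype.card (Fin x.n) ^ 2)
  m := x.m
  c0 u v := x.c0 u v
  hR := by have := x.R_ge; omega
  hR' := by rw [Fintype.card_fin]; have := x.R_ge; omega
  δ0 := by have := x.D_ge he; have : 0 < x.D := by omega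
           positivity
  hδ := by
    have := x.D_ge he
    rw [Fintype.card_fin, mul_one_div, div_le_one (by exact_mod_cast (by omega))]
    exact_mod_cast (by omega)
  hδ' := by
    have := x.D_ge he
    rw [mul_one_div, div_le_one (by exact_mod_cast (by omega))]
    exact_mod_cast (by omega)
  η0 := by positivity
  hη := by
    have := x.D_ge he
    have a : 16 * x.D ≤ x.h := le_trans (Nat.mul_le_mul_right _ (by omega)) (Nat.le_add_right _ _)
    rw [mul_one_div, div_le_div_iff₀ (by exact_mod_cast (by omega)) (by exact_mod_cast (by omega)), one_mul]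
    exact_mod_cast a
  hη' := by
    have := x.D_ge he
    have a : 24 * (x.n ^ 2 + 1) * x.D ≤ x.h := Nat.le_add_right _ _
    have b : 0 < 24 * (x.n ^ 2 + 1) * x.D := Nat.mul_pos (by omega) (by omega)
    rw [Fintype.card_fin, mul_one_div, div_le_div_iff₀ (by exact_mod_cast (by omega)) (by exact_mod_cast (by omega)),
      one_mul]
    exact_mod_cast le_trans (Nat.mul_le_mul_right _ (by omega)) a
  K0 := pow_nonneg (zero_le_one.trans (sg_bd (by have := x.R_ge; omega)).2.2.2.2.2) _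
  cs u v := by rw [c0, c0, hs]

lemma upd_spec (he : 1 ≤ x.e) (hs : ∀ u v : Fin x.n, x.adj u v = x.adj v u) (y : St) (τ : Fin x.s → PM (Fin x.n))
    (h : 0 < y.2.2.1) : 0 < (x.upd y (x.eP τ)).2.2.1 ∧ (x.lp he hs).Spec (x.cF y) (y.2.1 / y.2.2.1) (¬y.2.2.2 = 0)
      (fun u v => P308.ct τ u v / x.s) (x.cF (x.upd y (x.eP τ)))
      ((x.upd y (x.eP τ)).2.1 / (x.upd y (x.eP τ)).2.2.1) (¬(x.upd y (x.eP τ)).2.2.2 = 0) := by
  have s0 : 0 < x.s := Nat.succ_pos _
  have R0 : 16 ≤ x.R := (x.lp he hs).hR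
  have D0 : 0 < x.D := by have := x.D_ge he; omega
  have s1 : (0 : ℝ) < x.s := by exact_mod_cast s0
  have D1 : (0 : ℝ) < x.D := by exact_mod_cast D0
  have R1 : (16 : ℝ) ≤ x.R := by exact_mod_cast R0
  have R2 : (x.R : ℝ) - 1 ≠ 0 := by linarith
  have h1 : (0 : ℝ) < y.2.2.1 := by exact_mod_cast h
  have c1 : ∀ u v : Fin x.n, x.ct (x.eP τ) (u * x.n + v) = P308.ct τ u v ∧ (u * x.n + v) / x.n = u ∧
      (u * x.n + v) % x.n = v ∧ u * x.n + v < x.n * x.n := fun u v => by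
    have a : (u * x.n + v) / x.n = u := by
      rw [mul_comm, Nat.mul_add_div v.pos, Nat.div_eq_of_lt v.2, add_zero]
    have b : (u * x.n + v) % x.n = v := Nat.mul_add_mod_of_lt v.2
    have := Nat.mul_le_mul_right x.n (Nat.succ_le_of_lt u.2)
    rw [Nat.succ_mul] at this
    refine ⟨?_, a, b, by omega⟩
    simp only [ct, a, b, sumR, Finset.sum_range, eP, getD_ofFn, eX_get, Fin.val_inj, P308.ct]
  have c2 : ∀ a < x.n * x.n, ∃ u v : Fin x.n, a = u * x.n + v := fun a ha =>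
    ⟨⟨a / x.n, Nat.div_lt_of_lt_mul ha⟩, ⟨a % x.n, Nat.mod_lt _ (Nat.pos_of_mul_pos_left (by omega : 0 < x.n * x.n))⟩,
      (Nat.div_add_mod' _ _).symm⟩
  have c3 := ct_le x (x.eP τ)
  have F1 := fnd_spec _ _ _ (show rep _ _ _ = x.f1 (x.eP τ) from rfl)
  have F2 := fnd_spec _ _ _ (show rep _ _ _ = x.f2 y.1 (x.eP τ) from rfl)
  unfold upd
  split_ifs with a b c
  · obtain ⟨u, v, e⟩ := c2 _ b
    obtain ⟨d1, d2, d3, -⟩ := c1 u v
    obtain ⟨-, g1, g2⟩ := F1.resolve_right (by omega)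
    have c4 := c3 (u * x.n + v)
    rw [e, d2, d3, d1] at *
    refine ⟨Nat.mul_pos h (Nat.mul_pos s0 (pow_pos (by omega) _)), .inr ⟨not_not.2 a, not_not.2 rfl, u, v,
      .inl ⟨⟨fun z => g1 (congrArg _ z), fun p q => ?_⟩, ?_, ?_⟩⟩⟩
    · simp only [cF, cf, getD_mapR _ (x.ix_lt p q), ix_eq]
    · simp only [lp]
      rw [div_div, div_lt_div_iff₀ s1 (by positivity), one_mul, mul_comm (x.D : ℝ)]
      exact_mod_cast g2
    · simp only [lp, sg]
      push_cast [Nat.cast_sub c4, Nat.cast_sub (show 1 ≤ x.R by omega)]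
      field_simp
      ring
  · obtain ⟨u, v, e⟩ := c2 _ c
    obtain ⟨d1, d2, d3, -⟩ := c1 u v
    obtain ⟨-, g1, g2, g3⟩ := F2.resolve_right (by omega)
    have c4 := c3 (u * x.n + v)
    rw [e, d2, d3] at *
    rw [d1] at *
    refine ⟨Nat.mul_pos h (Nat.mul_pos s0 (pow_pos (by omega) _)), .inr ⟨not_not.2 a, not_not.2 rfl, u, v,
      .inr ⟨fun p q n => ?_, ⟨fun z => g1 (congrArg _ z), fun p q => ?_⟩, g2, ?_, ?_⟩⟩⟩
    · obtain ⟨d1, d2, d3, d4⟩ := c1 p q
      have := (F1.resolve_left fun z => b z.1).2 _ d4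
      rw [d1, d2, d3, not_and, not_lt] at this
      simp only [lp]
      rw [div_div, div_le_div_iff₀ (by positivity) s1, one_mul, mul_comm (x.D : ℝ)]
      exact_mod_cast this fun z => n (Fin.ext z)
    · simp only [cF, cf, getD_mapR _ (x.ix_lt p q), ← ix_eq] at g2 ⊢
      split_ifs with z
      · rw [z]; omega
      · rfl
    · simp only [lp]
      rw [mul_one_div, div_lt_div_iff₀ D1 s1]
      exact_mod_cast g3
    · simp only [lp, sg]
      push_cast [Nat.cast_sub c4, Nat.cast_sub (show 1 ≤ x.R by omega)]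
      field_simp
      ring
  · refine ⟨h, .inl ⟨.inr fun p q n z => ?_, rfl, rfl, not_false⟩⟩
    obtain ⟨d1, d2, d3, d4⟩ := c1 p q
    have := (F2.resolve_left fun z => c z.1).2 _ d4
    rw [d1, d2, d3, not_and, not_and, not_lt] at this
    simp only [lp]
    rw [mul_one_div, div_le_div_iff₀ s1 D1]
    exact_mod_cast this (fun z => n (Fin.ext z)) z
  · exact ⟨h, .inl ⟨.inl a, rfl, rfl, a⟩⟩

lemma Q_bd : 2 * (x.N + x.T * x.s) ≤ x.Q ∧ 2 * x.tm + 2 ≤ 2 ^ (5 * x.qa) := by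
  have g0 := x.R_ge.2
  obtain ⟨z, hz⟩ : ∃ z, z = x.g + x.j + x.T * x.s := ⟨_, rfl⟩
  have a : 2 ^ 21 * z ^ 3 ≤ x.Q := by
    rw [Q, qa, pow_add, mul_comm 3, pow_mul, ← hz]
    exact Nat.mul_le_mul_left _ (Nat.pow_le_pow_left (Nat.lt_size_self _).le _)
  have b : x.qa ≤ 21 + 3 * z := by rw [qa, ← hz]; have := P328.nsize_le_self z; omega
  have z1 : z ≤ z ^ 3 := Nat.le_self_pow (by norm_num) _
  constructor
  · have : x.N ≤ 2304 * z ^ 2 * (246 * z) :=
      Nat.mul_le_mul (Nat.mul_le_mul_left _ (Nat.pow_le_pow_left (by omega) _)) (by omega)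
    have e : 2304 * z ^ 2 * (246 * z) = 566784 * z ^ 3 := by ring
    omega
  · rw [mul_comm 5, pow_mul, ← Q]
    have c : x.tm ≤ 4 * x.Q * x.Q ^ 2 * (2 * x.Q) :=
      Nat.mul_le_mul (Nat.mul_le_mul_right _ (by omega)) (by omega)
    have d : 18 ≤ x.Q := by omega
    have e := Nat.mul_le_mul_right (x.Q ^ 4) d
    have f : 0 < x.Q ^ 4 := by positivity
    have : 4 * x.Q * x.Q ^ 2 * (2 * x.Q) = 8 * x.Q ^ 4 := by ring
    have : x.Q * x.Q ^ 4 = x.Q ^ 5 := by ring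
    omega

lemma out_ok [Nonempty (PM (Fin x.n))] (G : SimpleGraph (Fin x.n)) [DecidableRel G.Adj]
    (hG : ∀ u v : Fin x.n, x.adj u v = if G.Adj u v then 1 else 0) (he : 1 ≤ x.e)
    (hs : ∀ u v : Fin x.n, x.adj u v = x.adj v u) {y : St} (a : 0 < y.2.2.1)
    (b : (x.lp he hs).Good x.T (x.cF y) (y.2.1 / y.2.2.1) (¬y.2.2.2 = 0)) :
    |(out y : ℝ) - {M : G.Subgraph | M.IsPerfectMatching}.ncard| ≤
      {M : G.Subgraph | M.IsPerfectMatching}.ncard / x.e := by
  have R0 : 16 ≤ x.R := (x.lp he hs).hR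
  have D0 := x.D_ge he
  have R1 : (16 : ℝ) ≤ x.R := by exact_mod_cast R0
  have D1 : (0 : ℝ) < x.D := by exact_mod_cast (by omega)
  have e1 : (1 : ℝ) ≤ x.e := by exact_mod_cast he
  have h0 : 0 < x.h := Nat.add_pos_left (Nat.mul_pos (by omega) (by omega)) _
  rw [ncard_pm]
  refine (x.lp he hs).final G.Adj (fun u v => by simp [lp, Inr.c0, hG]) rfl he ?_ ?_ ?_ ?_ a b
  · simp only [lp, T, m, Fintype.card_fin]
    have : (0 : ℝ) ≤ x.n * x.lam := by positivity
    have : (0 : ℝ) < 1 / x.D / 2 * (1 / x.R) := by positivity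
    push_cast
    rw [add_mul, show (2 * x.R * x.D * (2 * x.n * x.lam + x.n ^ 2) * (1 / x.D / 2 * (1 / x.R)) : ℝ) =
      2 * x.n * x.lam + x.n ^ 2 by field_simp, show (x.n * (x.R * x.lam) * (16 / 15 * (1 / x.R)) : ℝ) =
      16 / 15 * (x.n * x.lam) by field_simp]
    linarith
  · simp only [lp]
    rw [mul_one_div, div_le_div_iff₀ (by exact_mod_cast h0) (by positivity), one_mul]
    exact_mod_cast le_of_eq_of_le (by ring) (Nat.le_add_left (32 * x.T * x.e) _)
  · simp only [lp, Fintype.card_fin]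
    rw [mul_one_div, ← mul_div_assoc, div_le_div_iff₀ D1 (by positivity), one_mul, D]
    push_cast
    nlinarith
  · simp only [lp, m]
    have a := card_pm_le (V := Fin x.n)
    rw [Fintype.card_fin] at a
    have b : (2 : ℝ) ≤ (x.R / (x.R - 1)) ^ x.R := by
      have := one_add_mul_le_pow (a := 1 / (x.R - 1 : ℝ)) (le_trans (by norm_num) (one_div_nonneg.2 (by linarith))) x.R
      have z : (x.R : ℝ) - 1 ≠ 0 := by linarith
      rw [show (1 + 1 / (x.R - 1) : ℝ) = x.R / (x.R - 1) by field_simp; ring, mul_one_div] at this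
      linarith [(sg_bd R0).2.2.2.2.2]
    have d : (x.e : ℝ) ≤ 2 ^ x.e := by exact_mod_cast Nat.lt_two_pow_self.le
    rw [pow_mul, one_div_mul_eq_div, le_div_iff₀ (by positivity)]
    refine le_trans ?_ (pow_le_pow_left₀ zero_le_two b _)
    rw [lam, pow_add, pow_add, mul_assoc]
    exact mul_le_mul (by exact_mod_cast a) (by linarith) (by positivity) (by positivity)

end Inr

end Vale.Agent.P308
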