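import Vale.Agent.P308.Geo

namespace Vale.Agent.P308

open Finset

variable {V : Type} [DecidableEq V] [Fintype V] {a : V → V → ℝ} {q κ c : ℝ} {h : V → ℝ}

/-- centre data -/
structure Ctr (a : V → V → ℝ) (κ : ℝ) (h : V → ℝ) : Prop where
  pos : ∀ u, 0 < h u
  up : ∀ u w, nn a u w ≤ κ * (h u * h w)

lemma Ctr.lo (g : Gd a q) (C : Ctr a κ h) {u w : V} (n : u ≠ w) :
    1 ≤ q * κ * (h u * h w * a u w ^ 2) := by
  have := mul_le_mul_of_nonneg_left (mul_le_mul_of_nonneg_right (C.up u w) (sq_nonneg (a u w)))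
    (zero_le_one.trans (g.q_ge n))
  linarith [g.lo n]

lemma Gd.hi (g : Gd a q) (hc : 0 ≤ c) {u w : V} (t : h u * h w ≤ c * nn a u w) :
    h u * h w * a u w ^ 2 ≤ c := by
  have := mul_le_mul_of_nonneg_right t (sq_nonneg (a u w))
  have := mul_le_mul_of_nonneg_left (g.up u w) hc
  linarith

lemma rp_aux {w w' A B H M N : ℝ} (w0 : 0 ≤ w) (w1 : 0 ≤ w') (r : w' * A = w * B) (h1 : H * A ≤ M)
    (h2 : 1 ≤ N * (H * B)) (n : 0 ≤ N) : w ≤ M * N * w' := by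
  have := mul_le_mul_of_nonneg_left h2 w0
  have := mul_le_mul_of_nonneg_left h1 (mul_nonneg n w1)
  have : w * (N * (H * B)) = N * w' * (H * A) := by linear_combination (-N * H) * r
  linarith

lemma Ctr.rp2 (g : Gd a q) (C : Ctr a κ h) (hc : 0 ≤ c) {w w' : ℝ} (w0 : 0 ≤ w) (w1 : 0 ≤ w')
    {e1 d1 e2 d2 f1 g1 f2 g2 : V} (t1 : h e1 * h d1 ≤ c * nn a e1 d1) (t2 : h e2 * h d2 ≤ c * nn a e2 d2)
    (n1 : f1 ≠ g1) (n2 : f2 ≠ g2) (hh : h e1 * h d1 * (h e2 * h d2) = h f1 * h g1 * (h f2 * h g2))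
    (r : w' * (a e1 d1 ^ 2 * a e2 d2 ^ 2) = w * (a f1 g1 ^ 2 * a f2 g2 ^ 2)) :
    w ≤ (c * q * κ) ^ 2 * w' := by
  have p := C.pos
  have a1 := mul_le_mul (g.hi hc t1) (g.hi hc t2) (by have := p e2; have := p d2; positivity) hc
  have a2 := mul_le_mul (C.lo g n1) (C.lo g n2) zero_le_one (zero_le_one.trans (C.lo g n1))
  have := rp_aux (H := h e1 * h d1 * (h e2 * h d2)) (M := c * c) (N := (q * κ) ^ 2) w0 w1 r
    (by linarith) (by rw [hh]; linarith) (sq_nonneg _)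
  linarith

lemma Ctr.rp3 (g : Gd a q) (C : Ctr a κ h) (hc : 0 ≤ c) (hκ : 0 ≤ κ) {w w' : ℝ} (w0 : 0 ≤ w) (w1 : 0 ≤ w')
    {e1 d1 e2 d2 e3 d3 f1 g1 f2 g2 f3 g3 : V} (t1 : h e1 * h d1 ≤ c * nn a e1 d1)
    (t2 : h e2 * h d2 ≤ c * nn a e2 d2) (t3 : h e3 * h d3 ≤ c * nn a e3 d3)
    (n1 : f1 ≠ g1) (n2 : f2 ≠ g2) (n3 : f3 ≠ g3)
    (hh : h e1 * h d1 * (h e2 * h d2) * (h e3 * h d3) = h f1 * h g1 * (h f2 * h g2) * (h f3 * h g3))
    (r : w' * (a e1 d1 ^ 2 * a e2 d2 ^ 2 * a e3 d3 ^ 2) = w * (a f1 g1 ^ 2 * a f2 g2 ^ 2 * a f3 g3 ^ 2)) :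
    w ≤ (c * q * κ) ^ 3 * w' := by
  have p := C.pos
  have a1 := mul_le_mul (mul_le_mul (g.hi hc t1) (g.hi hc t2) (by have := p e2; have := p d2; positivity) hc)
    (g.hi hc t3) (by have := p e3; have := p d3; positivity) (mul_nonneg hc hc)
  have a2 := mul_le_mul (C.lo g n1) (C.lo g n2) zero_le_one (zero_le_one.trans (C.lo g n1))
  have a3 := mul_le_mul a2 (C.lo g n3) zero_le_one (le_trans (by norm_num) a2)
  have := g.q_ge n1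
  have := rp_aux (H := h e1 * h d1 * (h e2 * h d2) * (h e3 * h d3)) (M := c * c * c) (N := (q * κ) ^ 3) w0 w1 r
    (by linarith) (by rw [hh]; linarith) (by positivity)
  linarith

/-- constants -/
def kk (q : ℝ) : ℝ := 1 + q ^ 2
/-- constants -/
def rr (q : ℝ) (N : ℕ) : ℝ := 2 * kk q ^ 3 * (N + 1)
/-- constants -/
def LL (q : ℝ) (N : ℕ) : ℝ := 2 * rr q N * q * kk q

lemma kk_ge (q : ℝ) : 1 ≤ kk q := le_add_of_nonneg_right (sq_nonneg q)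

lemma rr_ge (q : ℝ) (N : ℕ) : kk q ^ 3 * (N + 1) * 2 ≤ rr q N ∧ kk q * N ≤ 2 * rr q N ∧ 1 ≤ rr q N := by
  have k := kk_ge q
  have : kk q ≤ kk q ^ 3 := le_self_pow₀ k (by norm_num)
  have n : (0 : ℝ) ≤ N := N.cast_nonneg
  unfold rr
  refine ⟨by linarith, by nlinarith, by nlinarith⟩

lemma LL_ge (hq : 1 ≤ q) (N : ℕ) : q * rr q N ≤ LL q N ∧ 1 ≤ LL q N := by
  have k := kk_ge q
  have r := (rr_ge q N).2.2
  have : 1 ≤ q * rr q N := one_le_mul_of_one_le_of_one_le hq r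
  unfold LL
  constructor <;> nlinarith

lemma Ctr.df (g : Gd a q) {N : ℕ} (C : Ctr a (kk q) h) {u u' w w' s t s' t' : V}
    (t1 : h u * h u' ≤ (1 + rr q N) * nn a u u') (t2 : h w * h w' ≤ kk q * N * nn a w w')
    (hh : h s * h t * (h s' * h t') = h u * h u' * (h w * h w')) :
    nn a s t * nn a s' t' ≤ rr q N ^ 2 * (nn a u u' * nn a w w') := by
  have p := C.pos
  have n := g.nonneg
  have k := kk_ge q
  obtain ⟨r1, -, r2⟩ := rr_ge q N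
  have a1 := mul_le_mul (C.up s t) (C.up s' t') (n _ _) ((n _ _).trans (C.up s t))
  have a2 := mul_le_mul t1 t2 (mul_pos (p _) (p _)).le (mul_nonneg (by linarith) (n _ _))
  have a3 := mul_le_mul_of_nonneg_left a2 (sq_nonneg (kk q))
  have a4 : kk q ^ 3 * N * (1 + rr q N) ≤ rr q N ^ 2 := by
    have : 0 ≤ kk q ^ 3 * N := by positivity
    have : 0 ≤ kk q ^ 3 := by positivity
    nlinarith
  have a5 := mul_le_mul_of_nonneg_right a4 (mul_nonneg (n u u') (n w w'))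
  rw [← hh] at a3
  linarith

/-- crossing defect of two walls -/
def Df (a : V → V → ℝ) (ρ : ℝ) (x u y w : V) : Prop := nn a u y * nn a w x ≤ ρ ^ 2 * (nn a x u * nn a y w)

lemma Gd.centre (g : Gd a q) {N : ℕ} {v : ℕ → V} {i j : ℕ} (hij : i < j) (hN : j ≤ N) (xy : v i ≠ v j)
    {x₁ x₂ y₁ y₂ : V} (a1 : x₁ ≠ v i) (a2 : x₁ ≠ v j) (b1 : x₂ ≠ v i) (b2 : x₂ ≠ v j)
    (d11 : Df a (rr q N) (v i) x₁ (v j) y₁) (d12 : Df a (rr q N) (v i) x₁ (v j) y₂)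
    (d21 : Df a (rr q N) (v i) x₂ (v j) y₁) (d22 : Df a (rr q N) (v i) x₂ (v j) y₂) :
    ∃ (h : V → ℝ) (k : ℕ), i ≤ k ∧ k < j ∧ Ctr a (kk q) h ∧
      h (v i) * h x₁ ≤ (1 + rr q N) * nn a (v i) x₁ ∧ h (v i) * h x₂ ≤ (1 + rr q N) * nn a (v i) x₂ ∧
      h (v j) * h y₁ ≤ (1 + rr q N) * nn a (v j) y₁ ∧ h (v j) * h y₂ ≤ (1 + rr q N) * nn a (v j) y₂ ∧
      h (v i) * h (v j) ≤ (1 + rr q N) * nn a (v i) (v j) ∧
      h (v k) * h (v (k + 1)) ≤ kk q * N * nn a (v k) (v (k + 1)) := by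
  obtain ⟨h, k, k1, k2, p, u, t1, t2, t3, t4, t5, t6⟩ := P308.centre g.symm (fun u => by simp [nn, cw_self])
    g.nonneg (fun _ _ => g.pos) (kk_ge q) (zero_lt_one.trans_le (rr_ge q N).2.2) g.four hij xy a1 a2 b1 b2
    d11 d12 d21 d22
  refine ⟨h, k, k1, k2, ⟨p, u⟩, t1, t2, t3, t4, t5, t6.trans (mul_le_mul_of_nonneg_right
    (mul_le_mul_of_nonneg_left ?_ (zero_le_one.trans (kk_ge q))) (g.nonneg _ _))⟩
  have : (j : ℝ) ≤ N := by exact_mod_cast hN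
  have : (0 : ℝ) ≤ i := i.cast_nonneg
  linarith

lemma os1 {P Q : PM V} {x : V} {U : Finset V} (o : orb P Q x = U) (u : V) :
    (os x (P, Q)).1 u = if u ∈ U then Q u else P u := o ▸ mix_eq (orb_cl1 _ _ _) (orb_cl2 _ _ _) u

lemma os2 {P Q : PM V} {x : V} {U : Finset V} (o : orb P Q x = U) (u : V) :
    (os x (P, Q)).2 u = if u ∈ U then P u else Q u := o ▸ mix_eq (orb_cl2 _ _ _) (orb_cl1 _ _ _) u

omit [Fintype V] in
lemma Wk.mem {I F : PM V} {v : ℕ → V} {i j : ℕ} (h : Wk I F v i j) {k s t : ℕ} (a : i ≤ k) (b : k ≤ j + 1)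
    (c : i + 1 ≤ s) (d : t ≤ j) : v k ∈ arc v s t ↔ s ≤ k ∧ k ≤ t :=
  ⟨fun m => by
    obtain ⟨l, l1, l2, m⟩ := mem_arc.1 m
    have := h.eq (by omega) (by omega) a b m
    omega, fun m => arc_mem m.1 m.2⟩

omit [Fintype V] [DecidableEq V] in
lemma Wk.ne {I F : PM V} {v : ℕ → V} {i j : ℕ} (h : Wk I F v i j) {k l : ℕ} (a : i + 1 ≤ k) (b : k ≤ j)
    (c : i ≤ l) (d : l ≤ j + 1) (n : k ≠ l) : v k ≠ v l := fun m => by
  have := h.eq (by omega) (by omega) c d m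
  omega

/-- abstract setting of the sweeping argument -/
structure Env (V : Type) [DecidableEq V] [Fintype V] where
  a : V → V → ℝ
  q : ℝ
  N : ℕ
  f : PM V → ℝ
  g : PM V → Finset V → ℝ
  Ok : ℕ → PM V → PM V → Prop
  W : ℝ
  β : ℝ
  gd : Gd a q
  hβ : 0 ≤ β
  g_congr : ∀ U (X Y : PM V), (∀ u ∈ U, X u = Y u) → g X U = g Y U
  m1 : ∀ m X Y b c, Ok (m + 1) X Y → Ok m (cj b c X) Y
  m2 : ∀ m X Y b c, Ok (m + 1) X Y → Ok m X (cj b c Y)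
  m3 : ∀ m X Y x, Ok (m + 1) X Y → Ok m (os x (X, Y)).1 (os x (X, Y)).2
  m0 : ∀ m X Y, Ok (m + 1) X Y → Ok m X Y
  sw : ∀ X Y b c, Ok 0 X Y → W ≤ LL q N ^ 5 * (wt a X * wt a Y) → W ≤ LL q N ^ 5 * (wt a (cj b c X) * wt a Y) →
    |f (cj b c X) - f X| ≤ β
  fl : ∀ X Y x, Ok 0 X Y → W ≤ LL q N ^ 5 * (wt a X * wt a Y) →
    |f (os x (X, Y)).1 - f X - g Y (orb X Y x) + g X (orb X Y x)| ≤ β

namespace Env

variable (E : Env V)

lemma mono {m k : ℕ} {X Y : PM V} (h : E.Ok m X Y) (hk : k ≤ m) : E.Ok k X Y := by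
  induction m, hk using Nat.le_induction with
  | base => exact h
  | succ m _ ih => exact ih (E.m0 _ _ _ h)

lemma mhy {m : ℕ} {X Y : PM V} (h : E.Ok (m + 3) X Y) (x z z' : V) :
    E.Ok m (hy x z z' (X, Y)).1 (hy x z z' (X, Y)).2 :=
  E.m2 _ _ _ _ _ (E.m3 _ _ _ _ (E.m2 _ _ _ _ _ h))

lemma flip {m : ℕ} {X Y : PM V} {x : V} {U : Finset V} {B : ℝ} (h : E.Ok m X Y) (o : orb X Y x = U)
    (w : E.W ≤ LL E.q E.N ^ 5 * (wt E.a X * wt E.a Y)) (b : |E.g Y U - E.g X U| ≤ B) :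
    |E.f (os x (X, Y)).1 - E.f X| ≤ E.β + B := by
  have := E.fl X Y x (E.mono h (Nat.zero_le _)) w
  rw [o] at this
  rw [abs_le] at *
  constructor <;> linarith [this.1, this.2, b.1, b.2]

/-- the top pair -/
def Top (I F : PM V) : Prop := E.Ok 7 I F ∧ E.Ok 7 F I ∧ E.W ≤ wt E.a I * wt E.a F

lemma Top.symm {E : Env V} {I F : PM V} (h : E.Top I F) : E.Top F I := ⟨h.2.1, h.1, mul_comm (wt E.a I) _ ▸ h.2.2⟩

/-- statement for odd arcs -/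
def OSt (I F : PM V) (v : ℕ → V) (i j : ℕ) : Prop :=
  E.Top I F → Wk I F v i j → (i + j) % 2 = 0 → i < j → j ≤ E.N →
    nn E.a (v (i + 1)) (v j) * nn E.a (v i) (v (j + 1)) ≤
      rr E.q E.N ^ 2 * (nn E.a (v (i + 1)) (v i) * nn E.a (v j) (v (j + 1))) →
    Df E.a (rr E.q E.N) (v (i + 1)) (v i) (v j) (v (j + 1)) →
    ∀ P Q : PM V, P (v (i + 1)) = v j → (∀ k, i + 1 < k → k < j → P (v k) = I (v k)) →
      (∀ k, i + 1 ≤ k → k ≤ j → Q (v k) = F (v k)) →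
      |E.g Q (arc v (i + 1) j) - E.g P (arc v (i + 1) j)| ≤ 4 * ((j : ℝ) - i - 1) * E.β

/-- statement for even arcs -/
def ESt (I F : PM V) (v : ℕ → V) (i j : ℕ) : Prop :=
  E.Top I F → Wk I F v i j → (i + j) % 2 = 1 → i < j → j ≤ E.N → ∀ P Q z z', Cx I F P Q v i j z z' →
    E.Ok 5 P Q → E.W ≤ LL E.q E.N ^ 2 * (wt E.a P * wt E.a Q) →
    Df E.a (rr E.q E.N) (v (i + 1)) (v i) (v j) (v (j + 1)) → Df E.a (rr E.q E.N) (v (i + 1)) (v i) (v j) z' →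
    Df E.a (rr E.q E.N) (v (i + 1)) z (v j) (v (j + 1)) → Df E.a (rr E.q E.N) (v (i + 1)) z (v j) z' →
    ∀ P', Sp F P P' v i j z → |E.f P' - E.f P| ≤ 4 * ((j : ℝ) - i - 1) * E.β

lemma up {w w' : ℝ} {k : ℕ} (hq : 1 ≤ E.q) (hk : k ≤ 3) (h0 : 0 ≤ w') (h1 : E.W ≤ LL E.q E.N ^ 2 * w)
    (h2 : w ≤ LL E.q E.N ^ k * w') : E.W ≤ LL E.q E.N ^ 5 * w' := by
  have l := (LL_ge hq E.N).2
  refine h1.trans ((mul_le_mul_of_nonneg_left h2 (sq_nonneg _)).trans ?_)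
  rw [← mul_assoc, ← pow_add]
  exact mul_le_mul_of_nonneg_right (pow_le_pow_right₀ l (by omega)) h0

end Env

end Vale.Agent.P308
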