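import Vale.Agent.P308.Arc

namespace Vale.Agent.P308

open Finset

variable {V : Type}

/-- a centre on the way from one end of a path to the other -/
lemma centre {n : V → V → ℝ} {κ ρ : ℝ} (hs : ∀ u v, n u v = n v u) (h0 : ∀ u, n u u = 0)
    (hn : ∀ u v, 0 ≤ n u v) (hp : ∀ u v, u ≠ v → 0 < n u v) (hκ : 1 ≤ κ) (hρ : 0 < ρ)
    (h4 : ∀ b c d e, n b c * n d e ≤ n b d * n c e + κ * (n b e * n c d))
    {v : ℕ → V} {i j : ℕ} (hij : i < j) (xy : v i ≠ v j) {x₁ x₂ y₁ y₂ : V}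
    (a1 : x₁ ≠ v i) (a2 : x₁ ≠ v j) (b1 : x₂ ≠ v i) (b2 : x₂ ≠ v j)
    (d11 : n x₁ (v j) * n y₁ (v i) ≤ ρ ^ 2 * (n (v i) x₁ * n (v j) y₁))
    (d12 : n x₁ (v j) * n y₂ (v i) ≤ ρ ^ 2 * (n (v i) x₁ * n (v j) y₂))
    (d21 : n x₂ (v j) * n y₁ (v i) ≤ ρ ^ 2 * (n (v i) x₂ * n (v j) y₁))
    (d22 : n x₂ (v j) * n y₂ (v i) ≤ ρ ^ 2 * (n (v i) x₂ * n (v j) y₂)) :
    ∃ (h : V → ℝ) (k : ℕ), i ≤ k ∧ k < j ∧ (∀ u, 0 < h u) ∧ (∀ u w, n u w ≤ κ * (h u * h w)) ∧
      h (v i) * h x₁ ≤ (1 + ρ) * n (v i) x₁ ∧ h (v i) * h x₂ ≤ (1 + ρ) * n (v i) x₂ ∧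
      h (v j) * h y₁ ≤ (1 + ρ) * n (v j) y₁ ∧ h (v j) * h y₂ ≤ (1 + ρ) * n (v j) y₂ ∧
      h (v i) * h (v j) ≤ (1 + ρ) * n (v i) (v j) ∧
      h (v k) * h (v (k + 1)) ≤ κ * (j - i) * n (v k) (v (k + 1)) := by
  set x := v i with hx
  set y := v j with hy
  obtain ⟨t, t0, t1, t2, t3, t4⟩ : ∃ t, 0 < t ∧ t * n x₁ y ≤ ρ * n x x₁ ∧ t * n x₂ y ≤ ρ * n x x₂ ∧
      n y₁ x ≤ t * (ρ * n y y₁) ∧ n y₂ x ≤ t * (ρ * n y y₂) := by
    have p1 := hp _ _ a2
    have p2 := hp _ _ b2
    have p3 := hp _ _ a1.symm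
    have p4 := hp _ _ b1.symm
    have k : ∀ s w, 0 < n s y → n s y * n w x ≤ ρ ^ 2 * (n x s * n y w) →
        n w x ≤ ρ * n x s / n s y * (ρ * n y w) := fun s w p d => by
      rw [div_mul_eq_mul_div, le_div_iff₀ p]; linarith
    rcases le_total (ρ * n x x₁ / n x₁ y) (ρ * n x x₂ / n x₂ y) with c | c
    · exact ⟨_, by positivity, (div_mul_cancel₀ _ p1.ne').le, (le_div_iff₀ p2).1 c, k _ _ p1 d11,
        k _ _ p1 d12⟩
    · exact ⟨_, by positivity, (le_div_iff₀ p1).1 c, (div_mul_cancel₀ _ p2.ne').le, k _ _ p2 d21,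
        k _ _ p2 d22⟩
  have m := hp _ _ xy
  obtain ⟨s, s0, s1⟩ : ∃ s, 0 < s ∧ s * s = t * n x y :=
    ⟨√(t * n x y), Real.sqrt_pos.2 (by positivity), Real.mul_self_sqrt (by positivity)⟩
  obtain ⟨h, hh⟩ : ∃ h : V → ℝ, ∀ u, h u * s = n u x + t * n u y :=
    ⟨fun u => (n u x + t * n u y) / s, fun u => div_mul_cancel₀ _ s0.ne'⟩
  have pos : ∀ u, 0 < h u := fun u => by
    refine pos_of_mul_pos_right (a := s) ?_ s0.le
    rw [mul_comm, hh]
    by_cases e : u = x
    · rw [e, h0]; positivity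
    · have := hp _ _ e
      have := hn u y
      positivity
  have e1 : h x = s := mul_right_cancel₀ s0.ne' (by rw [hh, h0, s1, zero_add])
  have e2 : h y * t = s := mul_right_cancel₀ s0.ne' (by
    rw [mul_right_comm, hh, h0, s1, hs y x]; ring)
  have l1 : ∀ w, t * n w y ≤ ρ * n x w → h x * h w ≤ (1 + ρ) * n x w := fun w c => by
    rw [e1, mul_comm, hh, hs w x]; linarith
  have l2 : ∀ w, n w x ≤ t * (ρ * n y w) → h y * h w ≤ (1 + ρ) * n y w := fun w c => by
    refine le_of_mul_le_mul_right ?_ t0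
    rw [mul_right_comm, e2, mul_comm, hh, hs w y]; linarith
  have ch : ∀ u w, n x w / (h x * h w) ≤ n x u / (h x * h u) + κ * (n u w / (h u * h w)) := fun u w => by
    have := pos u
    have := pos w
    have := pos x
    have k : n x w * h u ≤ n x u * h w + κ * (h x * n u w) := by
      refine le_of_mul_le_mul_right ?_ s0
      have := mul_le_mul_of_nonneg_left (h4 x w u y) t0.le
      rw [hs w u] at this
      calc _ = n x w * (h u * s) := by ring
        _ ≤ n x u * (h w * s) + κ * (s * s * n u w) := by rw [hh, hh, s1, hs u x, hs w x]; linarith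
        _ = _ := by rw [e1]; ring
    rw [div_le_iff₀ (by positivity)]
    refine le_of_mul_le_mul_right (k.trans_eq ?_) (pos u)
    field_simp
  have exy : h x * h y = n x y := mul_right_cancel₀ t0.ne' (by rw [mul_assoc, e2, e1, s1, mul_comm])
  have hji : (0 : ℝ) < j - i := sub_pos.2 (by exact_mod_cast hij)
  obtain ⟨k, k1, k2, k3⟩ : ∃ k, i ≤ k ∧ k < j ∧ h (v k) * h (v (k + 1)) ≤ κ * (j - i) * n (v k) (v (k + 1)) := by
    by_contra c
    push Not at c
    have : ∀ k, i + 1 ≤ k → k ≤ j → n x (v k) / (h x * h (v k)) < (k - i) / (j - i) := by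
      have st : ∀ k, i ≤ k → k < j → κ * (n (v k) (v (k + 1)) / (h (v k) * h (v (k + 1)))) < 1 / (j - i) :=
        fun k a b => by
          rw [← mul_div_assoc, div_lt_div_iff₀ (mul_pos (pos _) (pos _)) hji]
          have := c k a b
          linarith
      intro k a
      induction k, a using Nat.le_induction with
      | base =>
        intro b
        have := ch x (v (i + 1))
        have := st i le_rfl b
        rw [h0] at *
        push_cast
        rw [add_sub_cancel_left]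
        simp only [zero_div, zero_add] at *
        linarith
      | succ k a ih =>
        intro b
        have := ch (v k) (v (k + 1))
        have := st k (by omega) b
        have := ih (by omega)
        push_cast
        rw [show ((k : ℝ) + 1 - i) / (j - i) = (k - i) / (j - i) + 1 / (j - i) by ring]
        linarith
    have := this j hij le_rfl
    rw [← hy, exy, div_self m.ne', div_self hji.ne'] at this
    exact lt_irrefl _ this
  refine ⟨h, k, k1, k2, pos, fun u w => ?_, l1 _ t1, l1 _ t2, l2 _ t3, l2 _ t4, by rw [exy]; nlinarith, k3⟩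
  refine le_of_mul_le_mul_right ?_ (mul_pos s0 s0)
  have := mul_le_mul_of_nonneg_left (h4 u w x y) t0.le
  have n1 := mul_nonneg (hn u x) (hn w y)
  have n2 := mul_nonneg (hn u x) (hn w x)
  have n3 := mul_nonneg (hn u y) (hn w y)
  calc _ = t * (n u w * n x y) := by rw [s1]; ring
    _ ≤ κ * ((n u x + t * n u y) * (n w x + t * n w y)) := by
      have := mul_nonneg (mul_nonneg t0.le n1) (sub_nonneg.2 hκ)
      have := mul_nonneg (zero_le_one.trans hκ) (add_nonneg n2 (mul_nonneg (sq_nonneg t) n3))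
      nlinarith
    _ = _ := by rw [← hh, ← hh]; ring

end Vale.Agent.P308
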