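import Vale.Agent.P308.Phase

namespace Vale.Agent.P308

open Finset Equiv Function

section

variable {V : Type} [DecidableEq V] [Fintype V]

lemma cj_const {β : Type} (F : PM V → β) (h : ∀ b c X, F (cj b c X) = F X) (X Y : PM V) : F X = F Y := by
  induction hk : (univ.filter fun v => X v ≠ Y v).card using Nat.strong_induction_on generalizing X with
  | _ k ih =>
    by_cases e : ∀ v, X v = Y v
    · rw [PM.ext e]
    push Not at e
    obtain ⟨v, e⟩ := e
    have c := cj_eq (rfl : X v = _) (rfl : X (Y v) = _) (Y.ne v).symm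
    have i := X.inv
    have j := Y.inv
    rw [← h (X v) (Y v) X]
    refine ih _ (hk ▸ Finset.card_lt_card ⟨fun u hu => ?_, fun s => ?_⟩) _ rfl
    · simp only [mem_filter, mem_univ, true_and] at *
      grind
    · have := s (show v ∈ _ by simpa using e)
      simp [c] at this

lemma card_pm {m : ℕ} (h : Fintype.card V = 2 * m) :
    Fintype.card (PM V) * (2 ^ m * m.factorial) = (2 * m).factorial := by
  have a := Perm.card_of_cycleType_mul_eq V (Multiset.replicate m 2)
  have b : ∏ n ∈ (Multiset.replicate m 2).toFinset, ((Multiset.replicate m 2).count n).factorial = m.factorial := by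
    rw [Multiset.toFinset_replicate]
    split_ifs with e <;> simp [e]
  rw [b, Multiset.sum_replicate, Multiset.prod_replicate, smul_eq_mul, h, mul_comm m, Nat.sub_self,
    if_pos ⟨le_rfl, fun a ha => (Multiset.eq_of_mem_replicate ha).ge⟩, Nat.factorial_zero, one_mul] at a
  rw [← a, ← Finset.card_univ, ← Finset.card_image_of_injective _ PM.inj]
  congr 2
  ext g
  simp only [mem_image, mem_univ, true_and, mem_filter]
  constructor
  · rintro ⟨X, rfl⟩
    have p : X.f ^ 2 = 1 := Equiv.ext X.inv
    have s := Perm.sum_cycleType X.f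
    rw [Perm.cycleType_of_pow_prime_eq_one p, Multiset.sum_replicate, smul_eq_mul, show X.f.support = univ from
      Finset.eq_univ_of_forall fun v => Perm.mem_support.2 (X.ne v), Finset.card_univ, h] at s
    rw [Perm.cycleType_of_pow_prime_eq_one p, show X.f.cycleType.card = m by omega]
  · intro e
    have s := Perm.sum_cycleType g
    rw [e, Multiset.sum_replicate, smul_eq_mul, mul_comm, ← h] at s
    have p : g ^ 2 = 1 := Perm.pow_prime_eq_one_iff.2 fun c hc => Multiset.eq_of_mem_replicate (e ▸ hc)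
    exact ⟨⟨g, fun v => congrArg (· v) p, fun v => Perm.mem_support.1
      (Finset.eq_univ_of_card _ s.symm ▸ mem_univ v)⟩, rfl⟩

lemma card_pm_le : Fintype.card (PM V) ≤ 2 ^ (Fintype.card V ^ 2) := by
  refine (Fintype.card_le_of_injective _ PM.inj).trans ?_
  rw [Fintype.card_perm, sq, pow_mul]
  exact (Nat.factorial_le_pow _).trans (Nat.pow_le_pow_left Nat.lt_two_pow_self.le _)

omit [DecidableEq V] in
lemma wt_const (R m : ℕ) (X : PM V) : wt (aw R fun _ _ => m) X = (R / (R - 1)) ^ (Fintype.card V * m) := by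
  simp [wt_aw, En]

lemma Zw_const (R m : ℕ) :
    Zw (aw R fun _ _ : V => m) = Fintype.card (PM V) * (R / (R - 1)) ^ (Fintype.card V * m) := by
  simp [Zw, wt_const]

lemma Lp.init [Nonempty (PM V)] (P : Lp V) (h0 : ∀ u v, P.c0 u v ≤ P.m)
    (hK : P.K = (P.R / (P.R - 1)) ^ (Fintype.card V * P.m))
    (hΦ : P.Φ = -(Fintype.card V * P.m * (16 / 15 * (1 / P.R)) + Fintype.card V ^ 2)) :
    P.Good 0 (fun _ _ => P.m) (Fintype.card (PM V)) False := by
  obtain ⟨s0, s1, -, l1, l2, r⟩ := sg_bd P.hR
  have R0 : (16 : ℝ) ≤ P.R := by exact_mod_cast P.hR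
  have r0 : (0 : ℝ) < 1 / P.R := by positivity
  have r1 : (1 : ℝ) / P.R ≤ 1 / 16 := one_div_le_one_div_of_le (by norm_num) R0
  have δ0 := P.δ0
  refine ⟨fun _ _ => rfl, h0, fun _ _ => le_rfl, (Finset.sum_eq_zero fun p hp => max_eq_left ?_).trans_le
    (by positivity), by simp [Zw_const, hK], by simp [Zw_const, hK], False.elim, fun _ => ?_⟩
  · obtain ⟨u, v⟩ := p
    have n : u ≠ v := (mem_offDiag.1 hp).2.2
    have z := Zw_pos P.hR fun _ _ : V => P.m
    have c0 := cw_nonneg (aw_pos P.hR fun _ _ : V => P.m) u v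
    have a : Zw (aw P.R fun _ _ : V => P.m) ≤ Fintype.card V * cw (aw P.R fun _ _ : V => P.m) u v := by
      rw [← nsmul_eq_mul, ← Finset.card_univ]
      refine le_trans (le_of_eq ?_) (Finset.sum_le_card_nsmul univ (cw (aw P.R fun _ _ : V => P.m) u) _ fun w _ => ?_)
      · unfold Zw cw
        rw [Finset.sum_comm]
        simp
      rcases eq_or_ne w u with rfl | e
      · rwa [cw_self]
      rw [cw, cw, ← (Involutive.bijective (cj_cj v w)).sum_comp]
      refine le_of_eq (sum_congr rfl fun X _ => if_congr ?_ (by rw [wt_const, wt_const]) rfl)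
      rw [cj_apply, swap_apply_of_ne_of_ne n e.symm, swap_apply_eq_iff, swap_apply_right]
    have n1 : (1 : ℝ) ≤ Fintype.card V := by exact_mod_cast Fintype.card_pos_iff.2 ⟨u⟩
    have b : P.δ * Fintype.card V ≤ 1 := by nlinarith [P.hδ]
    have d : P.δ ≤ mg (aw P.R fun _ _ : V => P.m) u v := by
      rw [mg, le_div_iff₀ z]
      nlinarith [mul_le_mul_of_nonneg_left a δ0.le, mul_le_mul_of_nonneg_right b c0]
    have := P.η0
    have := P.hη
    nlinarith
  · have c1 : (0 : ℝ) < Fintype.card (PM V) := by exact_mod_cast Fintype.card_pos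
    have a : Real.log (Fintype.card (PM V)) ≤ Fintype.card V ^ 2 := by
      refine (Real.log_le_log c1 (show _ ≤ (2 : ℝ) ^ (Fintype.card V ^ 2) by exact_mod_cast card_pm_le)).trans ?_
      rw [Real.log_pow]
      push_cast
      exact mul_le_of_le_one_right (sq_nonneg _) (by linarith [Real.log_two_lt_d9])
    have b := mul_le_mul_of_nonneg_left l2 (show (0 : ℝ) ≤ Fintype.card V * P.m by positivity)
    have d : 0 ≤ P.δ * lg P.R * (∑ p ∈ (univ : Finset V).offDiag, P.m : ℕ) :=
      mul_nonneg (mul_nonneg δ0.le (by linarith)) (Nat.cast_nonneg _)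
    rw [Lp.pot, Zw_const, Real.log_mul c1.ne' (by positivity), Real.log_pow, hΦ, ← lg]
    push_cast at *
    linarith

/-- rank of a key -/
def rank (κ : V → ℕ) (v : V) : ℕ := (univ.filter fun u => κ u < κ v).card
/-- partner of a position -/
def par (r : ℕ) : ℕ := if r % 2 = 0 then r + 1 else r - 1

omit [DecidableEq V] in
lemma rank_inj {κ : V → ℕ} (h : Injective κ) : Injective (rank κ) := by
  have k : ∀ u v, κ u < κ v → rank κ u < rank κ v := fun u v e => Finset.card_lt_card
    ⟨fun w => by simp only [mem_filter, mem_univ, true_and]; omega, fun s => by simpa using s (show u ∈ _ by simpa)⟩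
  intro u v e
  rcases lt_trichotomy (κ u) (κ v) with c | c | c
  exacts [absurd e (k u v c).ne, h c, absurd e (k v u c).ne']

omit [DecidableEq V] in
lemma exists_pm {κ : V → ℕ} (h : Injective κ) (he : Fintype.card V % 2 = 0) :
    ∃ X : PM V, ∀ v, rank κ (X v) = par (rank κ v) := by
  have lt : ∀ v, rank κ v < Fintype.card V := fun v => Finset.card_lt_card
    ⟨subset_univ _, fun s => by simpa using s (mem_univ v)⟩
  have sj := ((Fintype.bijective_iff_injective_and_card fun v => (⟨rank κ v, lt v⟩ : Fin _)).2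
    ⟨fun u v e => rank_inj h (congrArg Fin.val e), by simp⟩).2
  choose f hf using fun v => sj ⟨par (rank κ v), by have := lt v; unfold par; split_ifs <;> omega⟩
  simp only [Fin.mk.injEq] at hf
  exact ⟨PM.of f (fun v => rank_inj h (by rw [hf, hf]; unfold par; split_ifs <;> omega)) fun v e => by
    have := hf v
    rw [e] at this
    unfold par at this
    split_ifs at this <;> omega, hf⟩

end

lemma push {α β ι : Type} [Fintype α] [Fintype β] [Fintype ι] [DecidableEq ι] [DecidableEq α] (f : β → α) (μ : β → ℝ)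
    (F : (ι → α) → ℝ) : ∑ d : ι → β, (∏ k, μ (d k)) * F (fun k => f (d k)) =
      ∑ σ : ι → α, (∏ k, ∑ b, if f b = σ k then μ b else 0) * F σ := by
  simp only [Finset.prod_univ_sum, Fintype.piFinset_univ, Finset.sum_mul]
  rw [Finset.sum_comm]
  refine sum_congr rfl fun d _ => ((Finset.sum_eq_single (fun k => f (d k)) (fun σ _ n => ?_) (by simp)).trans
    (by simp)).symm
  obtain ⟨k, e⟩ := Function.ne_iff.1 n
  rw [Finset.prod_eq_zero (mem_univ k) (if_neg e.symm), zero_mul]

lemma digits {C N : ℕ} (G : (Fin N → ℕ) → ℝ) :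
    ∑ a ∈ range (C ^ N), G (fun l => a / C ^ (l : ℕ) % C) = ∑ d : Fin N → Fin C, G fun l => d l := by
  rw [Finset.sum_range, ← finFunctionFinEquiv.symm.sum_comp]
  rfl

variable {n : ℕ}

lemma key_inj (d : Fin n → ℕ) : Injective fun v : Fin n => d v * n + v := fun u v e => by
  have := congrArg (· % n) e
  simpa [Nat.mod_eq_of_lt, Fin.ext_iff] using this

/-- matching from keys -/
noncomputable def ini (he : n % 2 = 0) (d : Fin n → ℕ) : PM (Fin n) :=
  (exists_pm (key_inj d) (by simpa using he)).choose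

lemma ini_spec (he : n % 2 = 0) (d : Fin n → ℕ) (v w : Fin n) :
    ini he d v = w ↔ rank (fun v => d v * n + v) w = par (rank (fun v => d v * n + v) v) := by
  rw [← (exists_pm (key_inj d) (by simpa using he)).choose_spec v, (rank_inj (key_inj d)).eq_iff, eq_comm, ini]

lemma ini_law (he : n % 2 = 0) {K : ℕ} (K0 : 0 < K) (X : PM (Fin n)) :
    (∑ a : Fin (K ^ n), if ini he (fun v => a / K ^ (v : ℕ) % K) = X then (1 / (K ^ n : ℕ) : ℝ) else 0) ≤
      1 / Fintype.card (PM (Fin n)) + n ^ 2 / K := by
  classical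
  have k : (0 : ℝ) < K := by exact_mod_cast K0
  have u1 : ∑ _x : Fin K, (1 / K : ℝ) = 1 := by simp [k.ne']
  have u2 : ∑ d : Fin n → Fin K, ∏ _k : Fin n, (1 / K : ℝ) = 1 := by
    rw [prod_sum fun _ : Fin K => (1 / K : ℝ), u1, one_pow]
  have rk : ∀ d : Fin n → Fin K, Injective d → rank (fun v => (d v : ℕ) * n + v) = rank fun v => (d v : ℕ) :=
    fun d hd => funext fun v => congrArg Finset.card (Finset.filter_congr fun u _ => by
      have := u.2
      have := v.2
      beta_reduce
      rcases lt_trichotomy (d u : ℕ) (d v) with c | c | c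
      · have := Nat.mul_le_mul_right n (Nat.succ_le_of_lt c)
        rw [Nat.succ_mul] at this
        omega
      · rw [hd (Fin.ext c)]; omega
      · have := Nat.mul_le_mul_right n (Nat.succ_le_of_lt c)
        rw [Nat.succ_mul] at this
        omega)
  obtain ⟨F, hF⟩ : ∃ F : PM (Fin n) → ℝ, ∀ X, F X = ∑ d : Fin n → Fin K,
    (∏ _k : Fin n, (1 / K : ℝ)) * if Injective d ∧ ini he (fun v => d v) = X then 1 else 0 := ⟨_, fun _ => rfl⟩
  have F1 : ∀ b c X, F (cj b c X) = F X := fun b c X => by
    rw [hF, hF, ← (Involutive.bijective (f := fun d : Fin n → Fin K => d ∘ swap b c) fun d => by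
      ext; simp).sum_comp]
    refine sum_congr rfl fun d _ => congrArg _ (if_congr ?_ rfl rfl)
    rw [Equiv.injective_comp]
    refine and_congr_right fun hd => ?_
    have : ini he (fun v => (d ∘ swap b c) v) = cj b c (ini he fun v => d v) := PM.ext fun v => by
      have r : ∀ w, rank (fun v => ((d ∘ swap b c) v : ℕ)) w = rank (fun v => (d v : ℕ)) (swap b c w) := fun w =>
        Finset.card_equiv (swap b c) (by simp)
      rw [ini_spec, rk _ (hd.comp (swap b c).injective), r, r, cj_apply, swap_apply_self, ← rk _ hd, ← ini_spec]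
    rw [this, (Involutive.injective (cj_cj b c)).eq_iff]
  have F2 : Fintype.card (PM (Fin n)) * F X ≤ 1 := by
    rw [← nsmul_eq_mul, ← Finset.card_univ, ← Finset.sum_const, sum_congr rfl fun Y _ => cj_const F F1 X Y, ← u2]
    simp only [hF]
    rw [Finset.sum_comm]
    refine sum_le_sum fun d _ => ?_
    rw [← Finset.mul_sum]
    exact mul_le_of_le_one_right (by positivity) (by by_cases e : Injective d <;> simp [e])
  have F3 : ∀ p : Fin n × Fin n, ∑ d : Fin n → Fin K, (∏ _k : Fin n, (1 / K : ℝ)) *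
      (if p.1 ≠ p.2 ∧ d p.1 = d p.2 then 1 else 0) ≤ 1 / K := fun p => by
    by_cases e : p.1 = p.2
    · simp [e]
    have := disint (π := fun _ : Fin K => (1 / K : ℝ)) u1 p.1 fun d => if p.1 ≠ p.2 ∧ d p.1 = d p.2 then 1 else 0
    rw [this]
    simp only [update_self, update_of_ne (Ne.symm e), ne_eq, e, not_false_eq_true, true_and, mul_ite, mul_one, mul_zero,
      Finset.sum_ite_eq', mem_univ, if_true, ← Finset.sum_mul, u2, one_mul, le_refl]
  have F4 := Finset.sum_le_card_nsmul univ _ _ fun p _ => F3 p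
  have c1 : (0 : ℝ) < Fintype.card (PM (Fin n)) := by exact_mod_cast Fintype.card_pos_iff.2 ⟨X⟩
  rw [← Finset.sum_range fun a => if ini he (fun v => a / K ^ (v : ℕ) % K) = X then (1 / (K ^ n : ℕ) : ℝ) else 0,
    digits fun d => if ini he d = X then (1 / (K ^ n : ℕ) : ℝ) else 0]
  refine le_trans ?_ (add_le_add ((le_div_iff₀' c1).2 F2) (F4.trans_eq (by simp [sq, div_eq_mul_inv])))
  rw [hF, Finset.sum_comm, ← Finset.sum_add_distrib]
  refine sum_le_sum fun d _ => ?_
  rw [← Finset.mul_sum, ← mul_add, Finset.prod_const, Finset.card_univ, Fintype.card_fin, one_div_pow, Nat.cast_pow]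
  have s0 : (0 : ℝ) ≤ ∑ p : Fin n × Fin n, if p.1 ≠ p.2 ∧ d p.1 = d p.2 then 1 else 0 := by positivity
  by_cases e : ini he (fun v => d v) = X
  swap
  · rw [if_neg e]; positivity
  rw [if_pos e]
  refine le_mul_of_one_le_right (by positivity) ?_
  by_cases e' : Injective d
  · rw [if_pos ⟨e', e⟩]; linarith
  obtain ⟨u, v, a, b⟩ := Function.not_injective_iff.1 e'
  refine le_add_of_nonneg_of_le (by positivity) (le_trans ?_
    (Finset.single_le_sum (fun _ _ => by positivity) (mem_univ (u, v))))
  exact (if_pos ⟨b, a⟩).ge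

end Vale.Agent.P308
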