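import Mathlib

namespace Vale.Agent.P308

open Finset
open scoped RealInnerProductSpace

variable {H : Type} [NormedAddCommGroup H] [InnerProductSpace ℝ H] {ι : Type} [Fintype ι] [DecidableEq ι]

lemma psd_cs {B : H →ₗ[ℝ] H} (hs : ∀ u v, ⟪B u, v⟫ = ⟪u, B v⟫) (h0 : ∀ u, 0 ≤ ⟪u, B u⟫) {u v : H} {c : ℝ}
    (hc : 0 ≤ c) (hu : ⟪u, B u⟫ ≤ c * ‖u‖ ^ 2) (hv : ⟪v, B v⟫ ≤ c * ‖v‖ ^ 2) : |⟪v, B u⟫| ≤ c * ‖v‖ * ‖u‖ := by
  have := discrim_le_zero (a := ⟪u, B u⟫) (b := 2 * ⟪v, B u⟫) (c := ⟪v, B v⟫) fun x => by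
    have := h0 (x • u + v)
    simp only [map_add, map_smul, inner_add_left, inner_add_right, real_inner_smul_left, real_inner_smul_right,
      ← hs u v, real_inner_comm v (B u)] at this
    linarith
  have a := mul_le_mul hu hv (h0 v) ((h0 u).trans hu)
  refine abs_le_of_sq_le_sq' ?_ (by positivity) |> abs_le.2
  unfold discrim at this
  linarith

/-- data of the degree ladder -/
structure Lad (E : ι → H →ₗ[ℝ] H) (L : ι → ι → H →ₗ[ℝ] H) (γ : ℝ) : Prop where
  sa : ∀ l u v, ⟪E l u, v⟫ = ⟪u, E l v⟫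
  idem : ∀ l u, E l (E l u) = E l u
  comm : ∀ l m u, E l (E m u) = E m (E l u)
  lsa : ∀ i j, i ≠ j → ∀ u v, ⟪L i j u, v⟫ = ⟪u, L i j v⟫
  l0 : ∀ i j, i ≠ j → ∀ u, 0 ≤ ⟪u, L i j u⟫
  l2 : ∀ i j, i ≠ j → ∀ u, ⟪u, L i j u⟫ ≤ 2 * ‖u‖ ^ 2
  lc : ∀ i j, i ≠ j → ∀ l u, l ≠ i → l ≠ j → E l (L i j u) = L i j (E l u)
  kill : ∀ i j, i ≠ j → ∀ u, E i u = u → E j u = u → L i j u = 0
  gap : ∀ i j, i ≠ j → ∀ u v, E i u = 0 → E j u = u → E i v = v → γ * ‖u‖ ^ 2 ≤ ⟪u + v, L i j (u + v)⟫

/-- pure vectors -/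
def Pure (E : ι → H →ₗ[ℝ] H) (S : Finset ι) (u : H) : Prop := ∀ l, E l u = if l ∈ S then 0 else u

variable {E : ι → H →ₗ[ℝ] H} {L : ι → ι → H →ₗ[ℝ] H} {γ : ℝ} {c d : Finset ι → H}

omit [Fintype ι] in
lemma Lad.orth (h : Lad E L γ) {S S' : Finset ι} {u v : H} {l : ι} (hu : E l u = if l ∈ S then 0 else u)
    (hv : E l v = if l ∈ S' then 0 else v) (n : ¬(l ∈ S ↔ l ∈ S')) : ⟪u, v⟫ = 0 := by
  have := h.sa l u v
  rw [hu, hv] at this
  by_cases a : l ∈ S <;> by_cases b : l ∈ S' <;> simp_all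

lemma Lad.exists_dec (h : Lad E L γ) (u : H) : ∃ c : Finset ι → H, (∀ S, Pure E S (c S)) ∧ ∑ S, c S = u := by
  have : ∀ T : Finset ι, ∃ c : Finset ι → H, (∀ S, ∀ l ∈ T, E l (c S) = if l ∈ S then 0 else c S) ∧
      ∑ S ∈ T.powerset, c S = u := by
    intro T
    induction T using Finset.induction_on with
    | empty => exact ⟨fun _ => u, by simp, by simp⟩
    | insert a T ha ih =>
      obtain ⟨c, h1, h2⟩ := ih
      refine ⟨fun S => if a ∈ S then c (S.erase a) - E a (c (S.erase a)) else E a (c S), fun S l hl => ?_, ?_⟩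
      · rcases Finset.mem_insert.1 hl with rfl | hl
        · by_cases e : l ∈ S <;> simp [e, h.idem]
        have : l ≠ a := fun e => ha (e ▸ hl)
        by_cases e : a ∈ S <;> by_cases e' : l ∈ S <;> simp [e, e', h.comm l a, h1 _ l hl, this]
      · rw [Finset.sum_powerset_insert ha, ← Finset.sum_add_distrib, ← h2]
        refine Finset.sum_congr rfl fun S hS => ?_
        have : a ∉ S := fun e => ha (Finset.mem_powerset.1 hS e)
        simp [this]
  obtain ⟨c, h1, h2⟩ := this univ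
  exact ⟨c, fun S l => h1 S l (mem_univ _), h2⟩

omit [Fintype ι] in
lemma Lad.inner_zero (h : Lad E L γ) (hc : ∀ S, Pure E S (c S)) (hd : ∀ S, Pure E S (d S))
    {A B : Finset (Finset ι)} (n : ∀ S ∈ A, S ∉ B) : ⟪∑ S ∈ A, d S, ∑ S ∈ B, c S⟫ = 0 := by
  simp only [sum_inner, inner_sum]
  refine sum_eq_zero fun S' a => sum_eq_zero fun S b => ?_
  obtain ⟨l, e⟩ : ∃ l, ¬(l ∈ S ↔ l ∈ S') := by
    by_contra e
    push Not at e
    exact n S b (Finset.ext e ▸ a)
  exact h.orth (hd S l) (hc S' l) e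

omit [Fintype ι] in
lemma Lad.norm_sq (h : Lad E L γ) (hc : ∀ S, Pure E S (c S)) (A : Finset (Finset ι)) :
    ‖∑ S ∈ A, c S‖ ^ 2 = ∑ S ∈ A, ‖c S‖ ^ 2 := by
  induction A using Finset.induction_on with
  | empty => simp
  | insert S A hS ih =>
    have := h.inner_zero hc hc (A := {S}) (B := A) (by simpa using hS)
    rw [Finset.sum_singleton] at this
    rw [Finset.sum_insert hS, Finset.sum_insert hS, norm_add_sq_real, this, ih]
    ring

/-- number of the two sites in a set -/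
def tw (i j : ι) (S : Finset ι) : ℕ := (if i ∈ S then 1 else 0) + if j ∈ S then 1 else 0

omit [Fintype ι] in
lemma Lad.vanish (h : Lad E L γ) (hc : ∀ S, Pure E S (c S)) (hd : ∀ S, Pure E S (d S)) {i j : ι} (ij : i ≠ j)
    {A B : Finset (Finset ι)} (n : ∀ S ∈ A, ∀ S' ∈ B, tw i j S = 0 ∨ tw i j S' = 0 ∨
      S.card + tw i j S' ≠ S'.card + tw i j S) : ⟪∑ S ∈ A, d S, L i j (∑ S ∈ B, c S)⟫ = 0 := by
  simp only [map_sum, sum_inner, inner_sum]
  refine sum_eq_zero fun S' a => sum_eq_zero fun S b => ?_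
  have k : ∀ (c : Finset ι → H) S, Pure E S (c S) → tw i j S = 0 → L i j (c S) = 0 := fun c S p e =>
    h.kill i j ij _ ((p i).trans (if_neg fun x => by simp [tw, x] at e))
      ((p j).trans (if_neg fun x => by simp [tw, x] at e))
  rcases n S b S' a with e | e | e
  · rw [← h.lsa i j ij, k d S (hd S) e, inner_zero_left]
  · rw [k c S' (hc S') e, inner_zero_right]
  obtain ⟨l, l1, l2, e⟩ : ∃ l, l ≠ i ∧ l ≠ j ∧ ¬(l ∈ S ↔ l ∈ S') := by
    by_contra x
    push Not at x
    have cd : ∀ S : Finset ι, S.card = ((S.erase i).erase j).card + tw i j S := fun S => by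
      have a := Finset.card_erase_eq_ite (s := S) (a := i)
      have b := Finset.card_erase_eq_ite (s := S.erase i) (a := j)
      have c1 : i ∈ S → 0 < S.card := fun x => Finset.card_pos.2 ⟨_, x⟩
      have c2 : j ∈ S.erase i → 0 < (S.erase i).card := fun x => Finset.card_pos.2 ⟨_, x⟩
      simp only [Finset.mem_erase, ij.symm, ne_eq, not_false_eq_true, true_and] at b c2
      unfold tw
      grind
    have : (S.erase i).erase j = (S'.erase i).erase j := by ext l; simp only [Finset.mem_erase]; grind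
    rw [cd S, cd S', this] at e
    omega
  refine h.orth (hd S l) ?_ e
  rw [h.lc i j ij l _ l1 l2, hc S' l]
  split_ifs <;> simp

omit [Fintype ι] [DecidableEq ι] in
lemma E_sum {A : Finset (Finset ι)} {l : ι} (h : ∀ S ∈ A, E l (c S) = c S) : E l (∑ S ∈ A, c S) = ∑ S ∈ A, c S := by
  rw [map_sum]; exact Finset.sum_congr rfl h

omit [DecidableEq ι] in
lemma cnt2 (A : Finset (Finset ι)) (f : Finset ι → ℝ) (P : ι → ι → Finset ι → Prop) [∀ i j S, Decidable (P i j S)] :
    ∑ p : ι × ι, ∑ S ∈ A with P p.1 p.2 S, f S = ∑ S ∈ A, ((univ.filter fun p : ι × ι => P p.1 p.2 S).card : ℝ) * f S := by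
  simp only [Finset.sum_filter]
  rw [Finset.sum_comm]
  exact Finset.sum_congr rfl fun S _ => by rw [← Finset.sum_filter, Finset.sum_const, nsmul_eq_mul]

lemma Lad.diag (h : Lad E L γ) (hc : ∀ S, Pure E S (c S)) (k : ℕ) :
    γ * (k * (Fintype.card ι - k)) * ‖∑ S with S.card = k, c S‖ ^ 2 ≤
      ∑ p ∈ univ.offDiag, ⟪∑ S with S.card = k, c S, L p.1 p.2 (∑ S with S.card = k, c S)⟫ := by
  set A : Finset (Finset ι) := univ.filter fun S => S.card = k with hA
  have mA : ∀ S ∈ A, S.card = k := fun S hS => (Finset.mem_filter.1 hS).2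
  calc _ = ∑ p : ι × ι, ∑ S ∈ A with p.1 ∈ S ∧ p.2 ∉ S, γ * ‖c S‖ ^ 2 := by
        rw [cnt2 A _ fun i j S => i ∈ S ∧ j ∉ S, h.norm_sq hc, Finset.mul_sum]
        refine Finset.sum_congr rfl fun S hS => ?_
        rw [show (univ.filter fun p : ι × ι => p.1 ∈ S ∧ p.2 ∉ S) = S ×ˢ Sᶜ by ext; simp, Finset.card_product,
          Finset.card_compl, Nat.cast_mul, Nat.cast_sub S.card_le_univ, mA S hS]
        ring
    _ = ∑ p ∈ univ.offDiag, ∑ S ∈ A with p.1 ∈ S ∧ p.2 ∉ S, γ * ‖c S‖ ^ 2 :=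
        (Finset.sum_subset (subset_univ _) fun p _ hp => Finset.sum_eq_zero fun S hS => by
          simp only [mem_offDiag, mem_univ, true_and, not_not] at hp
          rw [Finset.mem_filter, hp] at hS
          exact absurd hS.2.1 hS.2.2).symm
    _ ≤ _ := Finset.sum_le_sum fun p hp => by
        obtain ⟨i, j⟩ := p
        have ij : i ≠ j := (mem_offDiag.1 hp).2.2
        have g := h.gap i j ij (∑ S ∈ A with i ∈ S ∧ j ∉ S, c S) (∑ S ∈ A with i ∉ S, c S)
          (by rw [map_sum]; exact sum_eq_zero fun S hS => (hc S i).trans (if_pos (mem_filter.1 hS).2.1))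
          (E_sum fun S hS => (hc S j).trans (if_neg (mem_filter.1 hS).2.2))
          (E_sum fun S hS => (hc S i).trans (if_neg (mem_filter.1 hS).2))
        rw [← Finset.sum_union (Finset.disjoint_filter.2 fun S _ a b => b a.1), ← Finset.filter_or,
          h.norm_sq hc, Finset.mul_sum] at g
        have v := h.vanish hc hc ij (A := A.filter fun S => ¬(i ∈ S ∧ j ∉ S ∨ i ∉ S))
          (B := A.filter fun S => i ∈ S ∧ j ∉ S ∨ i ∉ S) fun S a S' b => by
            have := mA S (mem_filter.1 a).1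
            have := mA S' (mem_filter.1 b).1
            have := (mem_filter.1 a).2
            have := (mem_filter.1 b).2
            unfold tw
            grind
        have z := h.l0 i j ij (∑ S ∈ A with ¬(i ∈ S ∧ j ∉ S ∨ i ∉ S), c S)
        rw [← Finset.sum_filter_add_sum_filter_not A (fun S => i ∈ S ∧ j ∉ S ∨ i ∉ S) c]
        simp only [map_add, inner_add_left, inner_add_right] at *
        rw [v, ← h.lsa i j ij (∑ S ∈ A with i ∈ S ∧ j ∉ S ∨ i ∉ S, c S) (∑ S ∈ A with ¬(i ∈ S ∧ j ∉ S ∨ i ∉ S), c S),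
          real_inner_comm (∑ S ∈ A with ¬(i ∈ S ∧ j ∉ S ∨ i ∉ S), c S), v]
        linarith

lemma Lad.off (h : Lad E L γ) (hc : ∀ S, Pure E S (c S)) (hd : ∀ S, Pure E S (d S)) (k : ℕ) {s : ℝ} (hs : 0 ≤ s)
    (hk : 2 * k * (Fintype.card ι : ℝ) ≤ s ^ 2) :
    |∑ p ∈ univ.offDiag, ⟪∑ S with S.card = k + 1, d S, L p.1 p.2 (∑ S with S.card = k, c S)⟫| ≤
      2 * (k + 1) * s * ‖∑ S with S.card = k + 1, d S‖ * ‖∑ S with S.card = k, c S‖ := by
  set A : Finset (Finset ι) := univ.filter fun S => S.card = k + 1 with hA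
  set B : Finset (Finset ι) := univ.filter fun S => S.card = k with hB
  have mA : ∀ S ∈ A, S.card = k + 1 := fun S hS => (Finset.mem_filter.1 hS).2
  have mB : ∀ S ∈ B, S.card = k := fun S hS => (Finset.mem_filter.1 hS).2
  calc _ ≤ ∑ p : ι × ι, 2 * (‖∑ S ∈ A with p.1 ∈ S ∧ p.2 ∈ S, d S‖ * ‖∑ S ∈ B with ¬(p.1 ∈ S ↔ p.2 ∈ S), c S‖) := by
        refine (Finset.abs_sum_le_sum_abs _ _).trans (le_trans (Finset.sum_le_sum fun p hp => ?_)
          (Finset.sum_le_sum_of_subset_of_nonneg (subset_univ _) fun _ _ _ => by positivity))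
        obtain ⟨i, j⟩ := p
        have ij : i ≠ j := (mem_offDiag.1 hp).2.2
        have v1 := h.vanish hc hd ij (A := A.filter fun S => ¬(i ∈ S ∧ j ∈ S)) (B := B) fun S a S' b => by
          have := mA S (mem_filter.1 a).1
          have := mB S' b
          have := (mem_filter.1 a).2
          unfold tw
          grind
        have v2 := h.vanish hc hd ij (A := A.filter fun S => i ∈ S ∧ j ∈ S)
          (B := B.filter fun S => ¬¬(i ∈ S ↔ j ∈ S)) fun S a S' b => by
          have := mA S (mem_filter.1 a).1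
          have := mB S' (mem_filter.1 b).1
          have := (mem_filter.1 a).2
          have := (mem_filter.1 b).2
          unfold tw
          grind
        rw [← Finset.sum_filter_add_sum_filter_not A (fun S => i ∈ S ∧ j ∈ S) d, inner_add_left, v1, add_zero,
          ← Finset.sum_filter_add_sum_filter_not B (fun S => ¬(i ∈ S ↔ j ∈ S)) c, map_add, inner_add_right, v2,
          add_zero, ← mul_assoc]
        exact psd_cs (h.lsa i j ij) (h.l0 i j ij) zero_le_two (h.l2 i j ij _) (h.l2 i j ij _)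
    _ ≤ _ := by
        rw [← Finset.mul_sum, mul_assoc, mul_assoc, mul_assoc]
        refine mul_le_mul_of_nonneg_left (abs_le_of_sq_le_sq' ((Finset.sum_mul_sq_le_sq_mul_sq _ _ _).trans ?_)
          (by positivity)).2 zero_le_two
        simp only [h.norm_sq hc, h.norm_sq hd, mul_pow]
        rw [cnt2 A _ fun i j S => i ∈ S ∧ j ∈ S, cnt2 B _ fun i j S => ¬(i ∈ S ↔ j ∈ S), mul_left_comm (s ^ 2),
          ← mul_assoc, Finset.mul_sum A _ ((k + 1 : ℝ) ^ 2), Finset.mul_sum B _ (s ^ 2)]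
        refine mul_le_mul (le_of_eq (Finset.sum_congr rfl fun S hS => ?_)) (Finset.sum_le_sum fun S hS =>
          mul_le_mul_of_nonneg_right (le_trans ?_ hk) (sq_nonneg _))
          (Finset.sum_nonneg fun _ _ => mul_nonneg (Nat.cast_nonneg _) (sq_nonneg _))
          (Finset.sum_nonneg fun _ _ => mul_nonneg (sq_nonneg _) (sq_nonneg _))
        · rw [show (univ.filter fun p : ι × ι => p.1 ∈ S ∧ p.2 ∈ S) = S ×ˢ S by ext; simp, Finset.card_product,
            mA S hS]
          push_cast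
          ring
        · have := (Finset.card_le_card (show (univ.filter fun p : ι × ι => ¬(p.1 ∈ S ↔ p.2 ∈ S)) ⊆
            S ×ˢ univ ∪ univ ×ˢ S from fun p hp => by
              simp only [mem_filter, mem_union, mem_product, mem_univ] at *; tauto)).trans (Finset.card_union_le _ _)
          rw [Finset.card_product, Finset.card_product, mB S hS, Finset.card_univ] at this
          exact_mod_cast this.trans_eq (by ring)

/-- one step of the population chain -/
noncomputable def TT (L : ι → ι → H →ₗ[ℝ] H) (M : ℝ) : H →ₗ[ℝ] H :=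
  LinearMap.id - M⁻¹ • ∑ p ∈ univ.offDiag, L p.1 p.2

omit [DecidableEq ι] in
lemma TT_inner (M : ℝ) (u v : H) :
    ⟪v, TT L M u⟫ = ⟪v, u⟫ - M⁻¹ * ∑ p ∈ univ.offDiag, ⟪v, L p.1 p.2 u⟫ := by
  simp [TT, inner_sub_right, inner_smul_right, inner_sum]

omit [DecidableEq ι] in
lemma Lad.TT_sa (h : Lad E L γ) (M : ℝ) (u v : H) : ⟪TT L M u, v⟫ = ⟪u, TT L M v⟫ := by
  rw [real_inner_comm, TT_inner, TT_inner, real_inner_comm, Finset.sum_congr rfl fun p hp =>
    (real_inner_comm _ _).trans (h.lsa p.1 p.2 (mem_offDiag.1 hp).2.2 u v)]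

omit [DecidableEq ι] in
lemma Lad.TT_pos (h : Lad E L γ) {M : ℝ} (M0 : 0 < M) (hM : 2 * (Fintype.card ι : ℝ) ^ 2 ≤ M) (u : H) :
    0 ≤ ⟪u, TT L M u⟫ ∧ ⟪u, TT L M u⟫ ≤ 1 * ‖u‖ ^ 2 := by
  rw [TT_inner, real_inner_self_eq_norm_sq]
  have a := mul_nonneg (inv_pos.2 M0).le (Finset.sum_nonneg fun p hp => h.l0 p.1 p.2 (mem_offDiag.1 hp).2.2 u :
    0 ≤ ∑ p ∈ univ.offDiag, ⟪u, L p.1 p.2 u⟫)
  refine ⟨sub_nonneg.2 ?_, by linarith⟩
  rw [inv_mul_le_iff₀ M0]
  refine (Finset.sum_le_card_nsmul _ _ _ fun p hp => h.l2 p.1 p.2 (mem_offDiag.1 hp).2.2 u).trans ?_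
  have := Finset.card_le_univ (univ.offDiag : Finset (ι × ι))
  rw [Fintype.card_prod] at this
  have : ((univ.offDiag : Finset (ι × ι)).card : ℝ) ≤ Fintype.card ι * Fintype.card ι := by exact_mod_cast this
  rw [nsmul_eq_mul, ← mul_assoc]
  exact mul_le_mul_of_nonneg_right (by linarith) (sq_nonneg _)

lemma Lad.far (h : Lad E L γ) (hc : ∀ S, Pure E S (c S)) (hd : ∀ S, Pure E S (d S)) (M : ℝ)
    {A B : Finset (Finset ι)} (n : ∀ S ∈ A, ∀ S' ∈ B, S ≠ S' ∧ (S.card = 0 ∨ S'.card = 0 ∨ S.card + 2 ≤ S'.card ∨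
      S'.card + 2 ≤ S.card)) : ⟪∑ S ∈ A, d S, TT L M (∑ S ∈ B, c S)⟫ = 0 := by
  rw [TT_inner, h.inner_zero hc hd fun S a b => (n S a S b).1 rfl, Finset.sum_eq_zero fun p hp =>
    h.vanish hc hd (mem_offDiag.1 hp).2.2 fun S a S' b => ?_, mul_zero, sub_zero]
  have := (n S a S' b).2
  simp only [Finset.card_eq_zero] at this
  unfold tw
  grind

lemma le_of_sq_le {x b : ℝ} (hb : 0 ≤ b) (h : x ^ 2 ≤ x * b) : x ≤ b := by
  by_contra c
  push Not at c
  nlinarith

lemma Lad.norm_le (h : Lad E L γ) (hc : ∀ S, Pure E S (c S)) (A : Finset (Finset ι)) :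
    ‖∑ S ∈ A, c S‖ ≤ ‖∑ S, c S‖ := by
  refine abs_le_of_sq_le_sq' ?_ (norm_nonneg _) |>.2
  rw [h.norm_sq hc, h.norm_sq hc]
  exact Finset.sum_le_sum_of_subset_of_nonneg (subset_univ _) fun _ _ _ => sq_nonneg _

lemma Lad.proj (h : Lad E L γ) (hd : ∀ S, Pure E S (d S)) (A : Finset (Finset ι)) :
    ‖∑ S ∈ A, d S‖ ^ 2 = ⟪∑ S ∈ A, d S, ∑ S, d S⟫ := by
  rw [← Finset.sum_add_sum_compl A, inner_add_right, h.inner_zero hd hd (B := Aᶜ) fun S a => by simpa using a, add_zero,
    real_inner_self_eq_norm_sq]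

section step

variable (h : Lad E L γ) (hc : ∀ S, Pure E S (c S)) (hd : ∀ S, Pure E S (d S)) {M : ℝ} (M0 : 0 < M)
  (hM : 2 * (Fintype.card ι : ℝ) ^ 2 ≤ M) (hγ : 0 ≤ γ) (hγ1 : γ ≤ 1) {D : ℕ}
  (hD : 2304 * D ≤ γ ^ 2 * Fintype.card ι) (e : ∑ S, d S = TT L M (∑ S, c S))
include h hc hd M0 hM

omit hc hd in
lemma Lad.contr (u : H) : ‖TT L M u‖ ≤ ‖u‖ := by
  have := psd_cs (h.TT_sa M) (fun u => (h.TT_pos M0 hM u).1) zero_le_one (h.TT_pos M0 hM u).2
    (h.TT_pos M0 hM (TT L M u)).2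
  rw [real_inner_self_eq_norm_sq, one_mul] at this
  exact le_of_sq_le (norm_nonneg _) ((le_abs_self _).trans this)

include hγ hD in
omit hM in
lemma Lad.offT {k : ℕ} (hk : k ≤ 2 * D) :
    |⟪∑ S with S.card = k + 1, d S, TT L M (∑ S with S.card = k, c S)⟫| ≤
      (k + 1) * (γ * Fintype.card ι / M) / 12 * ‖∑ S with S.card = k + 1, d S‖ * ‖∑ S with S.card = k, c S‖ := by
  have k2 : (k : ℝ) ≤ 2 * D := by exact_mod_cast hk
  have := h.off hc hd k (s := γ * Fintype.card ι / 24) (by positivity) (by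
    have := mul_le_mul_of_nonneg_right hD (Nat.cast_nonneg (Fintype.card ι))
    have := mul_le_mul_of_nonneg_right k2 (Nat.cast_nonneg (Fintype.card ι))
    linarith)
  rw [TT_inner, h.inner_zero hc hd fun S a b => by simp only [mem_filter] at a b; omega, zero_sub, abs_neg, abs_mul,
    abs_of_pos (inv_pos.2 M0)]
  exact (mul_le_mul_of_nonneg_left this (inv_pos.2 M0).le).trans_eq (by ring)

include hγ hγ1 hD e in
lemma Lad.step {k : ℕ} (hk : k + 1 ≤ 2 * D) :
    ‖∑ S with S.card = k + 1, d S‖ ≤ (1 - (k + 1) * (γ * Fintype.card ι / M) / 2) * ‖∑ S with S.card = k + 1, c S‖ +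
      (k + 2) * (γ * Fintype.card ι / M) / 12 * ‖∑ S with S.card = k + 2, c S‖ +
      (k + 1) * (γ * Fintype.card ι / M) / 12 * ‖∑ S with S.card = k, c S‖ := by
  have k2 : (k : ℝ) + 1 ≤ 2 * D := by exact_mod_cast hk
  have N0 : (0 : ℝ) ≤ Fintype.card ι := Nat.cast_nonneg _
  have kN : 2 * ((k : ℝ) + 1) ≤ Fintype.card ι := by
    have := mul_le_mul_of_nonneg_right (pow_le_one₀ hγ hγ1 : γ ^ 2 ≤ 1) N0
    have : (0 : ℝ) ≤ D := Nat.cast_nonneg _
    linarith
  have c0 : 0 ≤ 1 - (k + 1) * (γ * Fintype.card ι / M) / 2 := by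
    rw [sub_nonneg, ← mul_div_assoc, div_div, div_le_one (by positivity)]
    have := mul_le_mul_of_nonneg_right hγ1 N0
    have : (0 : ℝ) ≤ k := Nat.cast_nonneg _
    nlinarith
  have dg : ∀ c : Finset ι → H, (∀ S, Pure E S (c S)) → ⟪∑ S with S.card = k + 1, c S,
      TT L M (∑ S with S.card = k + 1, c S)⟫ ≤ (1 - (k + 1) * (γ * Fintype.card ι / M) / 2) *
        ‖∑ S with S.card = k + 1, c S‖ ^ 2 := fun c hc => by
    have a := mul_le_mul_of_nonneg_left (h.diag hc (k + 1)) (inv_pos.2 M0).le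
    have b := mul_le_mul_of_nonneg_left kN (show 0 ≤ M⁻¹ * γ * (k + 1) * ‖∑ S with S.card = k + 1, c S‖ ^ 2 by
      positivity)
    rw [TT_inner, real_inner_self_eq_norm_sq]
    push_cast at a
    rw [div_eq_mul_inv _ M]
    linarith
  have a1 := psd_cs (h.TT_sa M) (fun u => (h.TT_pos M0 hM u).1) c0 (dg c hc) (dg d hd)
  have a2 := h.offT hd hc M0 hγ hD hk
  have a3 := h.offT hc hd M0 hγ hD (Nat.le_of_succ_le hk)
  have a4 := h.far hc hd M (A := univ.filter fun S => S.card = k + 1)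
    (B := univ.filter fun S => ¬(S.card = k + 1 ∨ S.card = k + 2 ∨ S.card = k)) fun S a S' b => by
      simp only [mem_filter] at a b
      exact ⟨fun x => by rw [x] at a; omega, by omega⟩
  have a5 := h.proj hd (univ.filter fun S => S.card = k + 1)
  rw [← h.TT_sa, real_inner_comm] at a2
  rw [e, ← Finset.sum_filter_add_sum_filter_not univ (fun S => S.card = k + 1 ∨ S.card = k + 2 ∨ S.card = k) c,
    Finset.filter_or, Finset.filter_or, Finset.sum_union, Finset.sum_union] at a5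
  · simp only [map_add, inner_add_right, a4] at a5
    refine le_of_sq_le (by positivity) ?_
    push_cast at a2
    linarith [le_abs_self ⟪∑ S with S.card = k + 1, d S, TT L M (∑ S with S.card = k + 1, c S)⟫,
      le_abs_self ⟪∑ S with S.card = k + 1, d S, TT L M (∑ S with S.card = k + 2, c S)⟫,
      le_abs_self ⟪∑ S with S.card = k + 1, d S, TT L M (∑ S with S.card = k, c S)⟫]
  all_goals
    rw [Finset.disjoint_left]
    simp only [mem_filter, mem_union]
    omega

include hγ hγ1 hD e in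
lemma Lad.step_hi : ‖∑ S with D < S.card, d S‖ ≤ ‖∑ S with D < S.card, c S‖ + ‖∑ S with S.card = D, c S‖ := by
  have N0 : (0 : ℝ) ≤ Fintype.card ι := Nat.cast_nonneg _
  have c0 : (D + 1) * (γ * Fintype.card ι / M) / 12 ≤ 1 := by
    rw [← mul_div_assoc, div_div, div_le_one (by positivity)]
    have := mul_le_mul_of_nonneg_right (pow_le_one₀ hγ hγ1 : γ ^ 2 ≤ 1) N0
    have := mul_le_mul_of_nonneg_right hγ1 N0
    have : (0 : ℝ) ≤ D := Nat.cast_nonneg _
    rcases Nat.eq_zero_or_pos (Fintype.card ι) with z | z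
    · rw [z]; simp [M0.le]
    have : (1 : ℝ) ≤ Fintype.card ι := by exact_mod_cast z
    nlinarith
  have a1 := (real_inner_le_norm (∑ S with D < S.card, d S) _).trans
    (mul_le_mul_of_nonneg_left (h.contr M0 hM (∑ S with D < S.card, c S)) (norm_nonneg _))
  have a2 := (le_abs_self _).trans (h.offT hc hd M0 hγ hD (show D ≤ 2 * D by omega))
  have a3 := h.far hc hd M (A := univ.filter fun S => D < S.card)
    (B := univ.filter fun S => ¬(D < S.card ∨ S.card = D)) fun S a S' b => by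
      simp only [mem_filter] at a b
      exact ⟨fun x => by rw [x] at a; omega, by omega⟩
  have a4 := h.far hc hd M (A := univ.filter fun S => D + 1 < S.card)
    (B := univ.filter fun S => S.card = D) fun S a S' b => by
      simp only [mem_filter] at a b
      exact ⟨fun x => by rw [x] at a; omega, by omega⟩
  have a5 := h.proj hd (univ.filter fun S => D < S.card)
  have a6 : ∑ S with D < S.card, d S = ∑ S with S.card = D + 1, d S + ∑ S with D + 1 < S.card, d S := by
    rw [← Finset.sum_union, ← Finset.filter_or]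
    · exact Finset.sum_congr (Finset.filter_congr fun S _ => by omega) fun _ _ => rfl
    rw [Finset.disjoint_left]
    simp only [mem_filter]
    omega
  have a7 : ‖∑ S with S.card = D + 1, d S‖ ≤ ‖∑ S with D < S.card, d S‖ := by
    refine abs_le_of_sq_le_sq' ?_ (norm_nonneg _) |>.2
    rw [h.norm_sq hd, h.norm_sq hd]
    exact Finset.sum_le_sum_of_subset_of_nonneg (fun S => by simp only [mem_filter, mem_univ, true_and]; omega) fun _ _ _ => sq_nonneg _
  have a8 : ⟪∑ S with D < S.card, d S, TT L M (∑ S with S.card = D, c S)⟫ ≤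
      ‖∑ S with D < S.card, d S‖ * ‖∑ S with S.card = D, c S‖ := by
    rw [a6, inner_add_left, a4, add_zero, ← a6]
    refine a2.trans (mul_le_mul_of_nonneg_right (le_trans ?_ a7) (norm_nonneg _))
    exact mul_le_of_le_one_left (norm_nonneg _) c0
  rw [e, ← Finset.sum_filter_add_sum_filter_not univ (fun S => D < S.card ∨ S.card = D) c,
    Finset.filter_or, Finset.sum_union] at a5
  · simp only [map_add, inner_add_right, a3] at a5
    refine le_of_sq_le (by positivity) ?_
    linarith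
  rw [Finset.disjoint_left]
  simp only [mem_filter]
  omega

include e in
omit M0 hM in
lemma Lad.step_zero (z : ∑ S with S.card = 0, c S = 0) : ∑ S with S.card = 0, d S = 0 := by
  have a4 := h.far hc hd M (A := univ.filter fun S => S.card = 0)
    (B := univ.filter fun S => ¬S.card = 0) fun S a S' b => by
      simp only [mem_filter] at a b
      exact ⟨fun x => by rw [x] at a; omega, by omega⟩
  have a5 := h.proj hd (univ.filter fun S => S.card = 0)
  rw [e, ← Finset.sum_filter_add_sum_filter_not univ (fun S => S.card = 0) c, z, zero_add, a4] at a5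
  simpa using a5

end step

theorem Lad.ladder (h : Lad E L γ) (hc : ∀ S, Pure E S (c S)) {M : ℝ} (M0 : 0 < M)
    (hM : 2 * (Fintype.card ι : ℝ) ^ 2 ≤ M) (hγ : 0 ≤ γ) (hγ1 : γ ≤ 1) {D : ℕ}
    (hD : 2304 * D ≤ γ ^ 2 * Fintype.card ι) (z : c ∅ = 0) {A : ℝ} (A0 : 0 ≤ A)
    (hA : ∑ S, 4 ^ S.card * ‖c S‖ ^ 2 ≤ A ^ 2) (t : ℕ) :
    ‖(TT L M)^[t] (∑ S, c S)‖ ≤ A * ((1 - γ * Fintype.card ι / M / 4) ^ t + (2 * t + 2) / 2 ^ D) := by
  set μ := γ * Fintype.card ι / M with hμ
  have N0 : (0 : ℝ) ≤ Fintype.card ι := Nat.cast_nonneg _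
  have μ0 : 0 ≤ μ := by positivity
  have μ1 : μ ≤ 1 := by
    rw [hμ, div_le_one M0]
    have := mul_le_mul_of_nonneg_right hγ1 N0
    rcases Nat.eq_zero_or_pos (Fintype.card ι) with z | z
    · rw [z]; simp [M0.le]
    have : (1 : ℝ) ≤ Fintype.card ι := by exact_mod_cast z
    nlinarith
  have θ0 : 0 ≤ 1 - μ / 4 := by linarith
  have ini : ∀ (B : Finset (Finset ι)) (k : ℕ), (∀ S ∈ B, k ≤ S.card) → ‖∑ S ∈ B, c S‖ ≤ A / 2 ^ k := fun B k hB => by
    refine abs_le_of_sq_le_sq' ?_ (by positivity) |>.2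
    rw [h.norm_sq hc, div_pow, le_div_iff₀ (by positivity), Finset.sum_mul]
    refine le_trans ((Finset.sum_le_sum fun S hS => ?_).trans
      (Finset.sum_le_sum_of_subset_of_nonneg (subset_univ B) fun _ _ _ => by positivity)) hA
    rw [mul_comm, ← pow_mul, mul_comm k, pow_mul]
    exact mul_le_mul_of_nonneg_right (by norm_num; exact pow_le_pow_right₀ (by norm_num) (hB S hS)) (sq_nonneg _)
  have key : ∃ d : Finset ι → H, (∀ S, Pure E S (d S)) ∧ ∑ S, d S = (TT L M)^[t] (∑ S, c S) ∧ ‖∑ S, d S‖ ≤ A ∧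
      ∑ S with S.card = 0, d S = 0 ∧ (∀ k, k ≤ 2 * D + 1 → ‖∑ S with S.card = k, d S‖ ≤
        A * ((1 - μ / 4) ^ t / 2 ^ k + 2 ^ k / 2 ^ (2 * D + 1))) ∧
      ‖∑ S with D < S.card, d S‖ ≤ A * ((2 * t + 1) / 2 ^ D) := by
    induction t with
    | zero =>
      refine ⟨c, hc, rfl, by simpa using ini univ 0 (by simp), Finset.sum_eq_zero fun S hS => ?_, fun k _ =>
        (ini _ k fun S hS => (mem_filter.1 hS).2.ge).trans ?_, (ini _ D fun S hS => (mem_filter.1 hS).2.le).trans_eq ?_⟩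
      · rw [Finset.card_eq_zero.1 (mem_filter.1 hS).2, z]
      · rw [mul_add, pow_zero, mul_one_div]
        exact le_add_of_nonneg_right (by positivity)
      · simp [div_eq_mul_inv]
    | succ t ih =>
      obtain ⟨c, hc, c1, c2, c3, c4, c5⟩ := ih
      obtain ⟨d, hd, e⟩ := h.exists_dec (TT L M (∑ S, c S))
      have d2 : ‖∑ S, d S‖ ≤ A := e ▸ (h.contr M0 hM _).trans c2
      have d3 := h.step_zero hc hd e c3
      have pt := pow_nonneg θ0 t
      refine ⟨d, hd, by rw [e, c1, Function.iterate_succ_apply'], d2, d3, fun k hk => ?_, ?_⟩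
      · rcases k with _ | k
        · rw [d3, norm_zero]
          have := pow_nonneg θ0 (t + 1)
          positivity
        rcases hk.eq_or_lt with x | x
        · rw [← x, div_self (by positivity)]
          refine ((h.norm_le hd _).trans d2).trans (le_mul_of_one_le_right A0 (le_add_of_nonneg_left ?_))
          have := pow_nonneg θ0 (t + 1)
          positivity
        have k0 : (0 : ℝ) ≤ k := Nat.cast_nonneg _
        have k1 : 0 ≤ 1 - (k + 1) * μ / 2 := by
          have k2 : (k : ℝ) + 1 ≤ 2 * D := by exact_mod_cast Nat.le_of_lt_succ x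
          have := mul_le_mul_of_nonneg_right (pow_le_one₀ hγ hγ1 : γ ^ 2 ≤ 1) N0
          rw [sub_nonneg, hμ, ← mul_div_assoc, div_div, div_le_one (by positivity)]
          have := mul_le_mul_of_nonneg_right hγ1 N0
          nlinarith
        refine (h.step hc hd M0 hM hγ hγ1 hD e (by omega)).trans ((add_le_add (add_le_add
          (mul_le_mul_of_nonneg_left (c4 _ hk) k1) (mul_le_mul_of_nonneg_left (c4 _ x) (by positivity)))
          (mul_le_mul_of_nonneg_left (c4 _ (by omega)) (by positivity))).trans ?_)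
        have p1 : 0 ≤ A * ((1 - μ / 4) ^ t / 2 ^ k) * μ := by positivity
        have p2 : 0 ≤ A * (2 ^ k / 2 ^ (2 * D + 1)) * μ := by positivity
        have p3 := mul_nonneg p1 k0
        have p4 := mul_nonneg p2 k0
        rw [← hμ, pow_succ (1 - μ / 4), pow_succ 2 (k + 1), pow_succ 2 k, ← div_div, ← div_div, ← div_div]
        generalize (1 - μ / 4) ^ t = τ at *
        linear_combination (7 / 48) * p3 + (1 / 4) * p2 + (7 / 12) * p4
      · refine (h.step_hi hc hd M0 hM hγ hγ1 hD e).trans ((add_le_add c5 (c4 D (by omega))).trans ?_)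
        rw [← mul_add]
        refine mul_le_mul_of_nonneg_left ?_ A0
        have a1 : (1 - μ / 4) ^ t / 2 ^ D ≤ 1 / 2 ^ D :=
          div_le_div_of_nonneg_right (pow_le_one₀ θ0 (by linarith)) (by positivity)
        have a2 : (2 : ℝ) ^ D / 2 ^ (2 * D + 1) ≤ 1 / 2 ^ D := by
          rw [div_le_div_iff₀ (by positivity) (by positivity), ← pow_add, one_mul]
          exact pow_le_pow_right₀ one_le_two (by omega)
        push_cast
        simp only [div_eq_mul_inv] at *
        linarith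
  obtain ⟨d, hd, d1, -, d3, d4, d5⟩ := key
  have pt := pow_nonneg θ0 t
  have low : ∀ m, m ≤ D → ‖∑ S with S.card ≤ m, d S‖ ≤
      A * ((1 - μ / 4) ^ t * (1 - 1 / 2 ^ m) + 2 ^ (m + 1) / 2 ^ (2 * D + 1)) := by
    intro m
    induction m with
    | zero =>
      intro _
      simp only [Nat.le_zero, d3, norm_zero, pow_zero, div_one, sub_self, mul_zero]
      positivity
    | succ m ih =>
      intro hm
      rw [Finset.filter_congr (q := fun S => S.card ≤ m ∨ S.card = m + 1) fun S _ => by omega, Finset.filter_or,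
        Finset.sum_union (by rw [Finset.disjoint_left]; simp only [mem_filter]; omega)]
      refine (norm_add_le _ _).trans ((add_le_add (ih (by omega)) (d4 _ (by omega))).trans_eq ?_)
      field_simp
      ring
  rw [← d1, ← Finset.sum_filter_add_sum_filter_not univ (fun S => S.card ≤ D) d]
  simp only [not_le]
  refine (norm_add_le _ _).trans ((add_le_add (low D le_rfl) d5).trans ?_)
  rw [← mul_add]
  refine mul_le_mul_of_nonneg_left ?_ A0
  have a1 : 0 ≤ (1 - μ / 4) ^ t * (1 / 2 ^ D) := by positivity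
  have a2 : (2 : ℝ) ^ (D + 1) / 2 ^ (2 * D + 1) = 1 / 2 ^ D := by field_simp; ring
  simp only [div_eq_mul_inv] at *
  linarith

end Vale.Agent.P308
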