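import Vale.Agent.P308.Correct

namespace Vale.Agent.P308

open Finset Equiv Function
open Vale.Agent.P328 (mapR sumR rep rep_succ eat eat_map eat_sum split Av)

lemma eat_avg {β : Type} {B : ℕ} (hB : 0 < B) (st : β → ℕ → β) {X : ℕ} (hX : 0 < X) (G : β → ℝ) (t : ℕ) (y : β) :
    ∑ R ∈ range (B ^ t * X), G ((eat B st)^[t] (y, R)).1 = (B ^ t * X : ℕ) * (Av B st)^[t] G y := by
  have := eat_sum hB st hX (fun y => G y.1) t y
  simp only [Finset.sum_const, Finset.card_range, nsmul_eq_mul,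
    mul_div_cancel_left₀ _ (show (X : ℝ) ≠ 0 by positivity)] at this
  exact ((div_eq_iff (by positivity)).1 this).trans (mul_comm _ _)

namespace Inr

variable (x : Inr)

lemma c0_eq : x.cF x.s0 = fun _ _ => x.m := funext fun u => funext fun v => getD_mapR _ (x.ix_lt u v) _

lemma i0 (he : 1 ≤ x.e) (hs : ∀ u v : Fin x.n, x.adj u v = x.adj v u) (n2 : x.n % 2 = 0) [Nonempty (PM (Fin x.n))] :
    (x.lp he hs).Good 0 (x.cF x.s0) (x.s0.2.1 / x.s0.2.2.1) (¬x.s0.2.2.2 = 0) := by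
  have cp := card_pm (V := Fin x.n) (m := x.n / 2) (by rw [Fintype.card_fin]; omega)
  rw [show 2 * (x.n / 2) = x.n by omega] at cp
  have := (x.lp he hs).init (fun u v => by simp only [lp, Inr.c0]; split_ifs <;> omega) rfl rfl
  rw [c0_eq, show ((x.s0.2.1 : ℝ) / x.s0.2.2.1) = Fintype.card (PM (Fin x.n)) by
    simp only [s0, fac_eq, ← cp]
    rw [Nat.cast_mul, mul_div_cancel_right₀ _ (by positivity)], show (¬x.s0.2.2.2 = 0) = False by simp [s0]]
  exact this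

lemma hg (he : 1 ≤ x.e) (hs : ∀ u v : Fin x.n, x.adj u v = x.adj v u) :
    4 * (x.P : ℝ) ^ 2 * CC (4 / (x.lp he hs).δ) x.n ≤ x.g := by
  simp only [lp, g, CC, LL, rr, P308.kk, L, kk, div_div_eq_mul_div, div_one]
  push_cast
  linarith

lemma tail (T n k : ℕ) : (T * ((n ^ 2 + 1) * (2 * (1 / 2) ^ (k + T * ((n ^ 2 + 1) * 2)))) : ℝ) ≤ (1 / 2) ^ k := by
  have : ((T * ((n ^ 2 + 1) * 2) : ℕ) : ℝ) ≤ 2 ^ (T * ((n ^ 2 + 1) * 2)) := by
    exact_mod_cast Nat.lt_two_pow_self.le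
  rw [pow_add, one_div_pow (n := T * _)]
  refine le_trans (le_of_eq ?_) (mul_le_of_le_one_right (by positivity) ((div_le_one (by positivity)).2 this))
  push_cast; ring

lemma run_le (he : 1 ≤ x.e) (hs : ∀ u v : Fin x.n, x.adj u v = x.adj v u) (n2 : x.n % 2 = 0) (n0 : 0 < x.n)
    {G : St → ℝ} (G1 : ∀ y, |G y| ≤ 1) [Nonempty (PM (Fin x.n))]
    (G0 : ∀ y : St, 0 < y.2.2.1 → (x.lp he hs).Good x.T (x.cF y) (y.2.1 / y.2.2.1) (¬y.2.2.2 = 0) → G y = 0)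
    (ν : PM (Fin x.n) → ℝ) (v1 : ∑ X, ν X = 1) (v2 : ∑ X, ν X ^ 2 / law (aw x.R fun _ _ => x.m) X ≤ 1 + 9 / x.R ^ 2) :
    ∑ σ : Fin (Nn x.N x.s x.T) → PM (Fin x.n), (∏ k, ν (σ k)) *
      (Av (x.B ^ x.tm) x.ph)^[x.T] (fun y => G y.1) (x.s0, x.eP σ) ≤ (1 / 2) ^ x.k := by
  obtain ⟨r1, g0⟩ := x.R_ge
  have D0 := x.D_ge he
  have h0 : 0 < x.h := Nat.add_pos_left (Nat.mul_pos (by omega) (by omega)) _
  have a1 : x.B = x.Q * (x.Q * (2 * (x.P * (x.P * (x.lp he hs).R ^ x.W)))) := by simp only [B, lp]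
  have a2 : 512 * x.g ≤ (x.lp he hs).R := (Nat.le_add_right _ _).trans r1
  have a3 : x.n ≤ x.P := (Nat.lt_size_self _).le
  have a4 : x.n * ((x.lp he hs).m + x.T) ≤ x.W := by simp only [W, lp, le_refl]
  have a5 : 2304 * x.g ^ 2 * (2 * (x.j + 2 + 5 * x.qa)) ≤ x.N := by rw [N]
  have a6 : 4 * x.g * x.Q ^ 2 * (x.Q + x.j) ≤ x.tm := by rw [tm]
  have a7 : (x.lp he hs).η = 1 / x.h := by simp only [lp]
  have a8 : 0 < x.s := by rw [s]; omega
  have a9 : 4 * x.h ^ 2 * x.j ≤ x.s := by rw [s]; omega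
  have b1 : 0 < x.s0.2.2.1 := by simp only [s0, fac_eq]; positivity
  have b2 : ∑ X, ν X ^ 2 / law (aw (x.lp he hs).R (x.cF x.s0)) X ≤ 1 + 9 / (x.lp he hs).R ^ 2 := by
    rw [c0_eq]; exact v2
  have b3 := tail x.T x.n x.k
  rw [← j] at b3
  exact (P308.run (x.lp he hs) (cf := x.cF) (ac := fun y => y.2.1 / y.2.2.1) (fr := fun y => ¬y.2.2.2 = 0)
    (wf := fun y => 0 < y.2.2.1) (upd := fun y τ => x.upd y (x.eP τ)) (x.upd_spec he hs) (U := x.ph)
    (enc := fun _ y σ => (y, x.eP σ)) a1 (fun N y σ ω a b => by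
      rw [show (x.lp he hs).R = x.R from rfl, x.ph_eq y b (by rw [NT]; exact a) σ ω])
    (G := fun y => G y.1) (fun _ => G1 _) (fun _ y _ a b => G0 y a b)
    n0 g0 a2 a3 a4 (x.hg he hs) x.Q_bd.1 a5 le_rfl x.Q_bd.2 a6 h0 a7 a8 a9
    x.T 0 (Nat.add_zero _) x.s0 ν b1 (x.i0 he hs n2) v1 b2).trans b3

lemma pop_eq (n2 : x.n % 2 = 0) (a : ℕ) : x.pop a = x.eP fun l : Fin x.NT => P308.ini n2 fun v =>
    a / (x.K ^ x.n) ^ (l : ℕ) % x.K ^ x.n / x.K ^ (v : ℕ) % x.K := by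
  simp only [pop, mapR_eq, x.ini_eq n2, min_eq_left (Fin.is_le' ..), eP]

lemma bad_le (he : 1 ≤ x.e) (hs : ∀ u v : Fin x.n, x.adj u v = x.adj v u) (n2 : x.n % 2 = 0) (n0 : 0 < x.n)
    {G : St → ℝ} (G1 : ∀ y, |G y| ≤ 1) [Nonempty (PM (Fin x.n))]
    (G0 : ∀ y : St, 0 < y.2.2.1 → (x.lp he hs).Good x.T (x.cF y) (y.2.1 / y.2.2.1) (¬y.2.2.2 = 0) → G y = 0) :
    ∑ a ∈ range x.C, (Av (x.B ^ x.tm) x.ph)^[x.T] (fun y => G y.1) (x.s0, x.pop a) ≤ x.C * (1 / 2) ^ x.k := by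
  obtain ⟨ν, v1, v2, v3⟩ := init_pop n2 (x.lp he hs).hR (K := x.K) (by
    simp only [lp]
    rw [K, pow_add, pow_add, pow_mul 2 x.ra, mul_comm 2, pow_mul 2 x.n]
    exact Nat.mul_le_mul_right _ (Nat.mul_le_mul_right _ (Nat.pow_le_pow_left Nat.lt_two_pow_self.le _)))
    (Nat.two_pow_pos _) x.m
  have r := x.run_le he hs n2 n0 G1 G0 ν v1 v2
  rw [show Nn x.N x.s x.T = x.NT by rw [NT, Nn_eq]] at r
  generalize (Av (x.B ^ x.tm) x.ph)^[x.T] (fun y => G y.1) = H at r ⊢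
  simp only [x.pop_eq n2]
  rw [C, v3 x.NT fun σ => H (x.s0, x.eP σ)]
  exact mul_le_mul_of_nonneg_left r (Nat.cast_nonneg _)

theorem law (G : SimpleGraph (Fin x.n)) [DecidableRel G.Adj] (hG : ∀ u v : Fin x.n, x.adj u v = if G.Adj u v then 1 else 0)
    (he : 1 ≤ x.e) {l : ℕ} (hl : x.bits ≤ l) :
    1 - (1 / 2 : ℝ) ^ x.k ≤ ({ω : Fin l → Fin 2 |
      |(x.main (finFunctionFinEquiv ω) : ℝ) - {M : G.Subgraph | M.IsPerfectMatching}.ncard| ≤
        {M : G.Subgraph | M.IsPerfectMatching}.ncard / x.e}.ncard : ℝ) / 2 ^ l := by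
  classical
  have o := @x.out_ok
  have hM := ncard_pm G
  have hs : ∀ u v : Fin x.n, x.adj u v = x.adj v u := fun u v => by simp only [hG, G.adj_comm]
  have ev : x.n % 2 = 1 → {M : G.Subgraph | M.IsPerfectMatching}.ncard = 0 := fun n1 => by
    rw [Set.ncard_eq_zero, Set.eq_empty_iff_forall_notMem]
    intro M h
    have := SimpleGraph.Subgraph.IsPerfectMatching.even_card h
    rw [Fintype.card_fin, Nat.even_iff] at this
    omega
  replace o := fun i y => @o i G _ hG he hs y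
  generalize {M : G.Subgraph | M.IsPerfectMatching}.ncard = M at *
  suffices r : ∑ a ∈ range (2 ^ l), (if |(x.main a : ℝ) - M| ≤ M / x.e then 0 else 1 : ℝ) ≤ (1 / 2) ^ x.k * 2 ^ l by
    rw [Finset.sum_range, ← Equiv.sum_comp finFunctionFinEquiv] at r
    rw [le_div_iff₀ (by positivity), Set.ncard_eq_toFinset_card', Set.toFinset_ofPred,
      Finset.natCast_card_filter, sub_mul, one_mul, sub_le_iff_le_add]
    refine le_trans ?_ (add_le_add le_rfl r)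
    rw [← Finset.sum_add_distrib]
    exact le_of_eq_of_le (by simp) (Finset.sum_le_sum (f := fun _ => (1 : ℝ)) fun ω _ => by split_ifs <;> simp)
  by_cases n1 : x.n % 2 = 1
  · exact (Finset.sum_eq_zero fun a _ => if_pos (by simp [main, n1, ev n1])).trans_le (by positivity)
  by_cases n0 : x.n = 0
  · refine (Finset.sum_eq_zero fun a _ => if_pos ?_).trans_le (by positivity)
    have : M = 1 := by
      refine hM.trans ((congrArg Finset.card (Finset.eq_univ_of_forall fun X => by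
        simpa using fun v : Fin x.n => absurd v.2 (by omega))).trans ?_)
      simpa using card_pm (V := Fin x.n) (m := 0) (by simpa using n0)
    simp [main, n0, this]
  have n2 : x.n % 2 = 0 := by omega
  have : Nonempty (PM (Fin x.n)) := ⟨P308.ini n2 fun _ => 0⟩
  have r := x.bad_le he hs n2 (by omega) (G := fun y => if |(out y : ℝ) - M| ≤ M / x.e then 0 else 1)
    (fun _ => by split_ifs <;> simp) fun y a b => if_pos (o this y a b)
  have e2 : x.C * ((x.B ^ x.tm) ^ x.T * 2 ^ (l - x.bits)) = 2 ^ l := by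
    rw [← Nat.add_sub_cancel' hl, Nat.add_sub_cancel_left, pow_add, bits, pow_add, ← mul_assoc]
    simp only [pow_mul, pow_add, C, K, B, Q, P, R, pow_one]
  have B0 := pow_pos (B_pos x) x.tm
  have X0 : 0 < 2 ^ (l - x.bits) := by positivity
  have e4 : ∀ a, ∑ b ∈ range ((x.B ^ x.tm) ^ x.T * 2 ^ (l - x.bits)),
      (if |(out (x.fin a b) : ℝ) - M| ≤ M / x.e then 0 else 1 : ℝ) = ((x.B ^ x.tm) ^ x.T * 2 ^ (l - x.bits) : ℕ) *
      (Av (x.B ^ x.tm) x.ph)^[x.T] (fun y => if |(out y.1 : ℝ) - M| ≤ M / x.e then 0 else 1) (x.s0, x.pop a) :=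
    fun a => by
      simp only [fin]
      exact eat_avg B0 x.ph X0 (fun y => if |(out y.1 : ℝ) - M| ≤ M / x.e then 0 else 1) x.T (x.s0, x.pop a)
  have e5 : (2 : ℝ) ^ l = ((x.B ^ x.tm) ^ x.T * 2 ^ (l - x.bits) : ℕ) * x.C := by
    exact_mod_cast e2.symm.trans (mul_comm _ _)
  rw [e5, ← e2]
  simp only [main, if_neg n1, if_neg n0]
  rw [split x.C _ fun a b => if |(out (x.fin a b) : ℝ) - M| ≤ M / x.e then 0 else 1]
  simp only [e4, ← Finset.mul_sum]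
  rw [mul_left_comm, mul_comm ((1 / 2 : ℝ) ^ x.k)]
  exact mul_le_mul_of_nonneg_left r (Nat.cast_nonneg _)

end Inr

end Vale.Agent.P308
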