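import Vale.Agent.P308.Chain

namespace Vale.Agent.P308

open Finset

lemma chi_le {α : Type} [Fintype α] {ν π : α → ℝ} {σ : ℝ} (p0 : ∀ x, 0 < π x) (h1 : ∑ x, ν x = 1)
    (h2 : ∑ x, π x = 1) (s0 : 0 ≤ σ) (h : ∀ x, ν x ≤ (1 + σ) * π x ∧ π x ≤ (1 + σ) * ν x) :
    ∑ x, ν x ^ 2 / π x ≤ 1 + σ ^ 2 := by
  refine (sum_le_sum (g := fun x => 2 * ν x - π x + σ ^ 2 * π x) fun x _ => ?_).trans_eq ?_
  · have := p0 x
    obtain ⟨a, b⟩ := h x
    have c : π x - ν x ≤ σ * π x := by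
      rcases le_total (ν x) (π x) with c | c <;> nlinarith
    rw [div_le_iff₀ this]
    nlinarith
  · simp only [sum_add_distrib, sum_sub_distrib, ← Finset.mul_sum, h1, h2]; ring

variable {V : Type} [DecidableEq V] [Fintype V]

/-- marginal of a pair -/
noncomputable def mg (a : V → V → ℝ) (u v : V) : ℝ := cw a u v / Zw a

/-- raising one pair -/
def Up (c c' : V → V → ℕ) (u v : V) : Prop :=
  u ≠ v ∧ ∀ x y, c' x y = c x y + if (x = u ∧ y = v) ∨ (x = v ∧ y = u) then 1 else 0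

variable {c c' : V → V → ℕ} {u v : V} {R : ℕ}

lemma Up.sum (h : Up c c' u v) : ∑ p ∈ univ.offDiag, c' p.1 p.2 = ∑ p ∈ univ.offDiag, c p.1 p.2 + 2 := by
  have := h.1
  simp only [h.2, sum_add_distrib, ← Finset.card_filter]
  rw [show (univ.offDiag.filter fun p : V × V => (p.1 = u ∧ p.2 = v) ∨ (p.1 = v ∧ p.2 = u)) = {(u, v), (v, u)} by
    ext ⟨x, y⟩; simp only [mem_filter, mem_offDiag, mem_univ, mem_insert, mem_singleton, Prod.mk.injEq]; grind,
    Finset.card_pair (by grind)]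

lemma Up.en (h : Up c c' u v) (X : PM V) : En c' X = En c X + if X u = v then 2 else 0 := by
  have := h.1
  have i := X.inv
  simp only [En, h.2, sum_add_distrib, ← Finset.card_filter]
  split_ifs with e
  · rw [show (univ.filter fun x => (x = u ∧ X x = v) ∨ (x = v ∧ X x = u)) = {u, v} by
      ext x; simp only [mem_filter, mem_univ, mem_insert, mem_singleton]; grind, Finset.card_pair this]
  · rw [Finset.filter_false_of_mem (by grind), Finset.card_empty]

/-- step size -/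
noncomputable def sg (R : ℕ) : ℝ := (R / (R - 1)) ^ 2 - 1
/-- step size -/
noncomputable def lg (R : ℕ) : ℝ := Real.log (R / (R - 1))

lemma sg_bd (hR : 16 ≤ R) : 0 ≤ sg R ∧ sg R ≤ 8 / 3 * (1 / R) ∧ 31 / 16 * (1 / R) ≤ sg R / (1 + sg R) ∧
    1 / R ≤ lg R ∧ lg R ≤ 16 / 15 * (1 / R) ∧ (1 : ℝ) ≤ R / (R - 1) := by
  have r : (16 : ℝ) ≤ R := by exact_mod_cast hR
  have r1 : (0 : ℝ) < R - 1 := by linarith
  have e1 : sg R = (2 * R - 1) / (R - 1) ^ 2 := by unfold sg; field_simp; ring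
  have e2 : sg R / (1 + sg R) = (2 * R - 1) / R ^ 2 := by unfold sg; field_simp; ring
  have a := Real.log_le_sub_one_of_pos (show (0 : ℝ) < R / (R - 1) by positivity)
  have b := Real.one_sub_inv_le_log_of_pos (show (0 : ℝ) < R / (R - 1) by positivity)
  refine ⟨e1 ▸ div_nonneg (by linarith) (by positivity), ?_, ?_, b.trans_eq' (by field_simp; ring), a.trans ?_,
    (one_le_div r1).2 (by linarith)⟩
  · rw [e1, mul_one_div, div_le_div_iff₀ (by positivity) (by positivity)]; nlinarith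
  · rw [e2, mul_one_div, div_le_div_iff₀ (by positivity) (by positivity)]; nlinarith
  · rw [mul_one_div, div_sub_one r1.ne', div_le_div_iff₀ (by positivity) (by positivity)]; linarith

omit [DecidableEq V] [Fintype V] in
lemma aw_pos (hR : 16 ≤ R) (c : V → V → ℕ) (u v : V) : 0 < aw R c u v :=
  pow_pos (zero_lt_one.trans_le (sg_bd hR).2.2.2.2.2) _

lemma Zw_ge (hR : 16 ≤ R) (c : V → V → ℕ) (X : PM V) : wt (aw R c) X ≤ Zw (aw R c) :=
  Finset.single_le_sum (fun X _ => (wt_pos (aw_pos hR c) X).le) (mem_univ X)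

lemma Zw_pos [Nonempty (PM V)] (hR : 16 ≤ R) (c : V → V → ℕ) : 0 < Zw (aw R c) :=
  (wt_pos (aw_pos hR c) _).trans_le (Zw_ge hR c (Classical.arbitrary _))

lemma law_sum [Nonempty (PM V)] (hR : 16 ≤ R) (c : V → V → ℕ) : ∑ X, law (aw R c) X = 1 := by
  simp only [law, ← Finset.sum_div]; exact div_self (Zw_pos hR c).ne'

lemma mg_bd [Nonempty (PM V)] (hR : 16 ≤ R) (c : V → V → ℕ) (u v : V) : 0 ≤ mg (aw R c) u v ∧ mg (aw R c) u v ≤ 1 :=
  ⟨div_nonneg (cw_nonneg (aw_pos hR c) _ _) (Zw_pos hR c).le, (div_le_one (Zw_pos hR c)).2 (cw_le (aw_pos hR c) _ _)⟩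

lemma Up.wt (h : Up c c' u v) (X : PM V) :
    wt (aw R c') X = wt (aw R c) X + sg R * if X u = v then P308.wt (aw R c) X else 0 := by
  rw [wt_aw, wt_aw, h.en, sg]
  split_ifs <;> ring

lemma Up.spec [Nonempty (PM V)] (hR : 16 ≤ R) (h : Up c c' u v) :
    Zw (aw R c') = Zw (aw R c) * (1 + sg R * mg (aw R c) u v) ∧
    Zw (aw R c) = Zw (aw R c') * (1 - sg R / (1 + sg R) * mg (aw R c') u v) ∧
    mg (aw R c') u v * (1 + sg R * mg (aw R c) u v) = (1 + sg R) * mg (aw R c) u v ∧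
    (∀ x y, mg (aw R c) x y ≤ mg (aw R c') x y * (1 + sg R * mg (aw R c) u v)) ∧
    (∀ x y, mg (aw R c') x y ≤ (1 + sg R) * mg (aw R c) x y) ∧
    ∑ X, law (aw R c) X ^ 2 / law (aw R c') X ≤ 1 + sg R ^ 2 ∧
    ∑ X, law (aw R c') X ^ 2 / law (aw R c) X ≤ 1 + sg R ^ 2 := by
  have s := (sg_bd hR).1
  have z := Zw_pos hR c
  have z' := Zw_pos hR c'
  have w := wt_pos (aw_pos hR c)
  have m := mg_bd hR c u v
  have w1 : ∀ X, P308.wt (aw R c) X ≤ P308.wt (aw R c') X ∧ P308.wt (aw R c') X ≤ (1 + sg R) * P308.wt (aw R c) X :=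
    fun X => by
      have := mul_nonneg s (w X).le
      rw [h.wt]; split_ifs <;> constructor <;> linarith
  have e1 : Zw (aw R c') = Zw (aw R c) * (1 + sg R * mg (aw R c) u v) := by
    rw [mul_add, mul_one, mul_left_comm, mg, mul_div_cancel₀ _ z.ne']
    simp only [Zw, cw, h.wt, sum_add_distrib, Finset.mul_sum]
  have e2 : cw (aw R c') u v = (1 + sg R) * cw (aw R c) u v := by
    simp only [cw, Finset.mul_sum, h.wt]
    exact sum_congr rfl fun X _ => by split_ifs <;> ring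
  have p : 0 < 1 + sg R * mg (aw R c) u v := by have := mul_nonneg s m.1; linarith
  have e3 : ∀ x y, mg (aw R c') x y * (1 + sg R * mg (aw R c) u v) = cw (aw R c') x y / Zw (aw R c) := fun x y => by
    rw [mg, e1]; field_simp
  have z1 : Zw (aw R c) ≤ Zw (aw R c') := sum_le_sum fun X _ => (w1 X).1
  have z2 : Zw (aw R c') ≤ (1 + sg R) * Zw (aw R c) := (sum_le_sum fun X _ => (w1 X).2).trans_eq (mul_sum ..).symm
  have l : ∀ X, law (aw R c) X ≤ (1 + sg R) * law (aw R c') X ∧ law (aw R c') X ≤ (1 + sg R) * law (aw R c) X :=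
    fun X => by
      rw [law, law, ← mul_div_assoc, ← mul_div_assoc, div_le_div_iff₀ z z']
      refine ⟨?_, div_le_div₀ (mul_nonneg (by linarith) (w X).le) (w1 X).2 z z1⟩
      have := mul_le_mul (w1 X).1 z2 z'.le ((w X).le.trans (w1 X).1)
      linarith
  refine ⟨e1, ?_, by rw [e3, e2, mul_div_assoc, mg], fun x y => ?_, fun x y => ?_,
    chi_le (fun X => div_pos (wt_pos (aw_pos hR c') X) z') (law_sum hR c) (law_sum hR c') s l,
    chi_le (fun X => div_pos (w X) z) (law_sum hR c') (law_sum hR c) s fun X => (l X).symm⟩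
  · rw [mul_sub, mul_one, mul_left_comm, mg, mul_div_cancel₀ _ z'.ne', e2, e1, mg]
    field_simp
    ring
  · rw [e3]
    exact div_le_div_of_nonneg_right (sum_le_sum fun X _ => by split_ifs; exacts [(w1 X).1, le_rfl]) z.le
  · rw [mg, mg, ← mul_div_assoc]
    refine div_le_div₀ (mul_nonneg (by linarith) (cw_nonneg (aw_pos hR c) _ _)) ?_ z z1
    rw [cw, cw, Finset.mul_sum]
    exact sum_le_sum fun X _ => by split_ifs; exacts [(w1 X).2, by simp]

/-- parameters of the learning rule -/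
structure Lp (V : Type) [Fintype V] where
  R : ℕ
  δ : ℝ
  η : ℝ
  K : ℝ
  Φ : ℝ
  m : ℕ
  c0 : V → V → ℕ
  hR : 16 ≤ R
  hR' : 24 * Fintype.card V ^ 2 ≤ R
  δ0 : 0 < δ
  hδ : 2 * (Fintype.card V : ℝ) ^ 2 * δ ≤ 1
  hδ' : 4 * δ ≤ 1
  η0 : 0 ≤ η
  hη : 16 * η ≤ δ
  hη' : 24 * (Fintype.card V : ℝ) ^ 2 * η ≤ δ
  K0 : 0 ≤ K
  cs : ∀ u v, c0 u v = c0 v u

namespace Lp

variable (P : Lp V)

/-- total deficit -/
noncomputable def df (c : V → V → ℕ) : ℝ :=
  ∑ p ∈ univ.offDiag, max 0 ((P.δ / 2 + P.η) * (1 + sg P.R) - mg (aw P.R c) p.1 p.2)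

/-- potential -/
noncomputable def pot (c : V → V → ℕ) : ℝ :=
  P.δ * lg P.R * (∑ p ∈ univ.offDiag, c p.1 p.2 : ℕ) - Real.log (Zw (aw P.R c))

/-- the invariant -/
structure Good (t : ℕ) (c : V → V → ℕ) (A : ℝ) (f : Prop) : Prop where
  sym : ∀ u v, c u v = c v u
  lo : ∀ u v, P.c0 u v ≤ c u v
  hi : ∀ u v, c u v ≤ P.m + t
  df : P.df c ≤ P.δ / 4
  a1 : (1 - P.η) ^ t * Zw (aw P.R c) ≤ A * P.K
  a2 : A * P.K ≤ (1 + P.η) ^ t * Zw (aw P.R c)
  f1 : f → ∀ u v, u ≠ v → P.c0 u v < c u v → mg (aw P.R c) u v ≤ 3 * P.δ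
  f2 : ¬f → P.Φ + t * (P.δ / 2 * (1 / P.R)) ≤ P.pot c

/-- the learning rule -/
def Spec (c : V → V → ℕ) (A : ℝ) (f : Prop) (p : V → V → ℝ) (c' : V → V → ℕ) (A' : ℝ) (f' : Prop) : Prop :=
  ((f ∨ ∀ u v, u ≠ v → P.c0 u v < c u v → p u v ≤ 2 * P.δ) ∧ c' = c ∧ A' = A ∧ f') ∨
  (¬f ∧ ¬f' ∧ ∃ u v, (Up c c' u v ∧ p u v < P.δ / 2 ∧ A' = A * (1 + sg P.R * p u v)) ∨
    ((∀ x y, x ≠ y → P.δ / 2 ≤ p x y) ∧ Up c' c u v ∧ P.c0 u v < c u v ∧ 2 * P.δ < p u v ∧
      A' = A * (1 - sg P.R / (1 + sg P.R) * p u v)))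

variable {P} [Nonempty (PM V)] {t : ℕ} {A A' : ℝ} {f f' : Prop} {p : V → V → ℝ}

omit [Nonempty (PM V)] in
lemma Good.mg (h : P.Good t c A f) {u v : V} (n : u ≠ v) : P.δ / 4 ≤ mg (aw P.R c) u v := by
  have a := (Finset.single_le_sum (f := fun p : V × V => max 0 ((P.δ / 2 + P.η) * (1 + sg P.R) -
    P308.mg (aw P.R c) p.1 p.2)) (fun _ _ => le_max_left _ _)
    (show (u, v) ∈ univ.offDiag by simpa using n)).trans h.df
  have b := (le_max_right _ _).trans a
  have := mul_nonneg (add_nonneg (half_pos P.δ0).le P.η0) (sg_bd P.hR).1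
  have := P.η0
  linarith

lemma Good.gd (h : P.Good t c A f) : Gd (aw P.R c) (4 / P.δ) :=
  ⟨fun u v => by rw [aw, aw, h.sym], aw_pos P.hR c, Zw_pos P.hR c, fun u v n => by
    have := h.mg n
    have := P.δ0
    rw [P308.mg, le_div_iff₀ (Zw_pos P.hR c)] at *
    rw [div_mul_eq_mul_div, le_div_iff₀ this]
    linarith⟩

lemma Good.pot (h : P.Good t c A f) : P.pot c ≤ 0 := by
  obtain ⟨-, -, -, l1, -, r⟩ := sg_bd P.hR
  have z0 : 0 ≤ Real.log (Zw (aw P.R c)) :=
    Real.log_nonneg (le_trans (wt_aw P.R c _ ▸ one_le_pow₀ r) (Zw_ge P.hR c (Classical.arbitrary _)))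
  have k : ∀ p ∈ (univ : Finset V).offDiag, lg P.R * c p.1 p.2 ≤ Real.log (Zw (aw P.R c)) := fun p hp => by
    have := (div_pos P.δ0 four_pos).trans_le (h.mg (mem_offDiag.1 hp).2.2)
    obtain ⟨X, -, hX⟩ := Finset.exists_ne_zero_of_sum_ne_zero (pos_of_mul_pos_left (a := cw _ _ _) this
      (inv_nonneg.2 (Zw_pos P.hR c).le)).ne'
    have e : X p.1 = p.2 := by by_contra e; exact hX (if_neg e)
    rw [lg, mul_comm, ← Real.log_pow]
    refine Real.log_le_log (by positivity) (le_trans ?_ (Zw_ge P.hR c X))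
    rw [wt_aw, ← e]
    exact pow_le_pow_right₀ r (Finset.single_le_sum (f := fun v => c v (X v)) (fun _ _ => Nat.zero_le _) (mem_univ _))
  have a := Finset.sum_le_card_nsmul _ _ _ k
  have b := Finset.card_le_univ (univ.offDiag : Finset (V × V))
  rw [Fintype.card_prod] at b
  have b : ((univ.offDiag : Finset (V × V)).card : ℝ) ≤ Fintype.card V * Fintype.card V := by exact_mod_cast b
  rw [nsmul_eq_mul, ← Finset.mul_sum] at a
  have := mul_le_mul_of_nonneg_left (a.trans (mul_le_mul_of_nonneg_right b z0)) P.δ0.le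
  have := mul_le_mul_of_nonneg_right P.hδ z0
  unfold Lp.pot
  push_cast
  linarith

lemma acc_step {η Z A K x y : ℝ} {t : ℕ} (η1 : η ≤ 1) (Z0 : 0 ≤ Z) (y0 : 0 ≤ y)
    (h : |x - y| ≤ η * y) (a1 : (1 - η) ^ t * Z ≤ A * K) (a2 : A * K ≤ (1 + η) ^ t * Z) :
    (1 - η) ^ (t + 1) * (Z * y) ≤ A * x * K ∧ A * x * K ≤ (1 + η) ^ (t + 1) * (Z * y) := by
  rw [abs_le] at h
  have p1 : 0 ≤ (1 - η) ^ t * Z := mul_nonneg (pow_nonneg (by linarith) _) Z0
  have p2 : 0 ≤ (1 - η) * y := mul_nonneg (by linarith) y0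
  have b1 := mul_le_mul a1 (show (1 - η) * y ≤ x by linarith) p2 (p1.trans a1)
  have b2 := mul_le_mul a2 (show x ≤ (1 + η) * y by linarith) (by linarith) (p1.trans (a1.trans a2))
  rw [pow_succ, pow_succ]
  constructor <;> linarith

lemma Good.stay (h : P.Good t c A f) (hp : ∀ u v, |p u v - P308.mg (aw P.R c) u v| ≤ P.η)
    (a : f ∨ ∀ u v, u ≠ v → P.c0 u v < c u v → p u v ≤ 2 * P.δ) (b : f') :
    P.Good (t + 1) c A f' ∧ ∑ X, law (aw P.R c) X ^ 2 / law (aw P.R c) X ≤ 1 + 9 / P.R ^ 2 := by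
  have η0 := P.η0
  have hη := P.hη
  have hδ := P.hδ'
  have z := Zw_pos P.hR c
  have := acc_step (by linarith) z.le zero_le_one (x := 1) (by simpa using η0) h.a1 h.a2
  simp only [mul_one] at this
  refine ⟨⟨h.sym, h.lo, fun u v => (h.hi u v).trans (by omega), h.df, this.1, this.2, fun _ u v n e => ?_,
    fun x => absurd b x⟩, le_trans (le_of_eq ?_) (le_add_of_nonneg_right (by positivity))⟩
  · rcases a with a | a
    · exact h.f1 a u v n e
    · linarith [a u v n e, (abs_le.1 (hp u v)).1]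
  · rw [← law_sum P.hR c]
    exact sum_congr rfl fun X _ => by
      rw [sq, mul_div_cancel_right₀ _ (show 0 < law (aw P.R c) X from div_pos (wt_pos (aw_pos P.hR c) X) z).ne']

lemma Good.boost (h : P.Good t c A f) (hp : ∀ u v, |p u v - P308.mg (aw P.R c) u v| ≤ P.η)
    (a : ¬f) (b : ¬f') (U : Up c c' u v) (d : p u v < P.δ / 2) :
    P.Good (t + 1) c' (A * (1 + sg P.R * p u v)) f' ∧ ∑ X, law (aw P.R c) X ^ 2 / law (aw P.R c') X ≤ 1 + 9 / P.R ^ 2 := by
  obtain ⟨s0, s1, s2, l1, l2, -⟩ := sg_bd P.hR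
  have R0 : (16 : ℝ) ≤ P.R := by exact_mod_cast P.hR
  have r0 : (0 : ℝ) < 1 / P.R := by positivity
  have r1 : (1 : ℝ) / P.R ≤ 1 / 16 := one_div_le_one_div_of_le (by norm_num) R0
  have δ0 := P.δ0
  have η0 := P.η0
  have hη := P.hη
  have hδ := P.hδ'
  have z := Zw_pos P.hR c
  have z' := Zw_pos P.hR c'
  have s3 : 1 + sg P.R ^ 2 ≤ 1 + 9 / P.R ^ 2 := by
    have := pow_le_pow_left₀ s0 (show sg P.R ≤ 3 * (1 / P.R) by linarith) 2
    rw [mul_one_div, div_pow] at this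
    linarith
  have cd := Finset.card_le_univ (univ.offDiag : Finset (V × V))
  rw [Fintype.card_prod] at cd
  have cd : ((univ.offDiag : Finset (V × V)).card : ℝ) ≤ Fintype.card V ^ 2 := by rw [sq]; exact_mod_cast cd
  obtain ⟨e1, -, e3, e4, -, e5, -⟩ := U.spec P.hR
  have m := (mg_bd P.hR c u v).1
  have m1 : P308.mg (aw P.R c) u v ≤ P.δ / 2 + P.η := by linarith [(abs_le.1 (hp u v)).1]
  have m2 := mul_nonneg s0 m
  have := acc_step (by linarith) z.le (show 0 ≤ 1 + sg P.R * P308.mg (aw P.R c) u v by linarith)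
    (x := 1 + sg P.R * p u v) (by
      rw [add_sub_add_left_eq_sub, ← mul_sub, abs_mul, abs_of_nonneg s0, mul_comm]
      exact mul_le_mul (hp u v) (by linarith) s0 η0) h.a1 h.a2
  rw [← e1] at this
  refine ⟨⟨fun x y => by rw [U.2, U.2, h.sym]; grind, fun x y => U.2 x y ▸ (h.lo x y).trans (Nat.le_add_right _ _),
    fun x y => by have := h.hi x y; rw [U.2]; split_ifs <;> omega, le_trans ?_ h.df, this.1, this.2,
    fun x => absurd x b, fun _ => ?_⟩, e5.trans s3⟩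
  · generalize hθ : (P.δ / 2 + P.η) * (1 + sg P.R) = θ
    have θ0 : 0 ≤ θ := hθ ▸ by positivity
    have θ1 : θ ≤ P.δ := hθ ▸ by nlinarith
    have k : ∀ x y, max 0 (θ - P308.mg (aw P.R c') x y) ≤ max 0 (θ - P308.mg (aw P.R c) x y) +
        θ * (sg P.R * P308.mg (aw P.R c) u v) := fun x y => by
      refine max_le (add_nonneg (le_max_left _ _) (mul_nonneg θ0 m2)) ?_
      rcases le_total θ (P308.mg (aw P.R c') x y) with i | i
      · linarith [le_max_left 0 (θ - P308.mg (aw P.R c) x y), mul_nonneg θ0 m2]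
      · linarith [le_max_right 0 (θ - P308.mg (aw P.R c) x y), e4 x y, mul_le_mul_of_nonneg_right i m2]
    have k2 : max 0 (θ - P308.mg (aw P.R c') u v) ≤ max 0 (θ - P308.mg (aw P.R c) u v) -
        sg P.R * P308.mg (aw P.R c) u v / 2 := by
      have m3 := (mg_bd P.hR c' u v).1
      have m4 : P308.mg (aw P.R c') u v ≤ (1 + sg P.R) * P308.mg (aw P.R c) u v := by
        linarith [mul_nonneg m3 m2]
      have m5 : P308.mg (aw P.R c') u v ≤ θ := hθ ▸ by nlinarith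
      have m6 := mul_le_mul_of_nonneg_right (show P308.mg (aw P.R c') u v ≤ 1 / 2 by linarith) m2
      rw [max_eq_right (by linarith)]
      linarith [le_max_right 0 (θ - P308.mg (aw P.R c) u v)]
    have uv : (u, v) ∈ (univ : Finset V).offDiag := by simpa using U.1
    have k3 := Finset.sum_le_sum fun (p : V × V) (_ : p ∈ univ.offDiag.erase (u, v)) => k p.1 p.2
    rw [Finset.sum_add_distrib, Finset.sum_const, nsmul_eq_mul] at k3
    have k4 : (((univ : Finset V).offDiag.erase (u, v)).card : ℝ) ≤ Fintype.card V ^ 2 :=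
      le_trans (by exact_mod_cast Finset.card_erase_le) cd
    have k5 := mul_le_mul_of_nonneg_right (mul_le_mul k4 θ1 θ0 (sq_nonneg _)) m2
    have k6 := mul_le_mul_of_nonneg_right P.hδ m2
    rw [Lp.df, Lp.df, hθ, ← Finset.add_sum_erase _ _ uv, ← Finset.add_sum_erase _ _ uv]
    linarith
  · have := h.f2 a
    have := Real.log_le_sub_one_of_pos (show 0 < 1 + sg P.R * P308.mg (aw P.R c) u v by linarith)
    have := mul_le_mul s1 (show P308.mg (aw P.R c) u v ≤ 9 / 16 * P.δ by linarith) m (by linarith)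
    have := mul_le_mul_of_nonneg_left l1 δ0.le
    unfold Lp.pot at *
    rw [e1, Real.log_mul z.ne' (by linarith), U.sum]
    push_cast at *
    linarith

lemma Good.lower (h : P.Good t c A f) (hp : ∀ u v, |p u v - P308.mg (aw P.R c) u v| ≤ P.η)
    (a : ¬f) (b : ¬f') (d : ∀ x y, x ≠ y → P.δ / 2 ≤ p x y) (U : Up c' c u v)
    (e : P.c0 u v < c u v) (g : 2 * P.δ < p u v) :
    P.Good (t + 1) c' (A * (1 - sg P.R / (1 + sg P.R) * p u v)) f' ∧ ∑ X, law (aw P.R c) X ^ 2 / law (aw P.R c') X ≤ 1 + 9 / P.R ^ 2 := by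
  obtain ⟨s0, s1, s2, l1, l2, -⟩ := sg_bd P.hR
  have R0 : (16 : ℝ) ≤ P.R := by exact_mod_cast P.hR
  have r0 : (0 : ℝ) < 1 / P.R := by positivity
  have r1 : (1 : ℝ) / P.R ≤ 1 / 16 := one_div_le_one_div_of_le (by norm_num) R0
  have δ0 := P.δ0
  have η0 := P.η0
  have hη := P.hη
  have hδ := P.hδ'
  have z := Zw_pos P.hR c
  have z' := Zw_pos P.hR c'
  have s3 : 1 + sg P.R ^ 2 ≤ 1 + 9 / P.R ^ 2 := by
    have := pow_le_pow_left₀ s0 (show sg P.R ≤ 3 * (1 / P.R) by linarith) 2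
    rw [mul_one_div, div_pow] at this
    linarith
  have cd := Finset.card_le_univ (univ.offDiag : Finset (V × V))
  rw [Fintype.card_prod] at cd
  have cd : ((univ.offDiag : Finset (V × V)).card : ℝ) ≤ Fintype.card V ^ 2 := by rw [sq]; exact_mod_cast cd
  obtain ⟨-, e1, -, -, e4, -, e5⟩ := U.spec P.hR
  obtain ⟨m, m0⟩ := mg_bd P.hR c u v
  have m1 : 31 / 16 * P.δ ≤ P308.mg (aw P.R c) u v := by linarith [(abs_le.1 (hp u v)).2]
  have q0 : 0 ≤ sg P.R / (1 + sg P.R) := by linarith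
  have q1 : sg P.R / (1 + sg P.R) ≤ 1 / 2 := (div_le_iff₀ (by linarith)).2 (by linarith)
  have m2 := mul_le_mul q1 m0 m (by norm_num)
  have := acc_step (by linarith) z.le (show 0 ≤ 1 - sg P.R / (1 + sg P.R) * P308.mg (aw P.R c) u v by linarith)
    (x := 1 - sg P.R / (1 + sg P.R) * p u v) (by
      rw [sub_sub_sub_cancel_left, ← mul_sub, abs_mul, abs_of_nonneg q0, mul_comm, abs_sub_comm]
      exact mul_le_mul (hp u v) (by linarith) q0 η0) h.a1 h.a2
  rw [← e1] at this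
  refine ⟨⟨fun x y => by have := h.sym x y; rw [U.2, U.2] at this; grind, fun x y => ?_,
    fun x y => by have := h.hi x y; rw [U.2] at this; omega, ?_, this.1, this.2,
    fun x => absurd x b, fun _ => ?_⟩, e5.trans s3⟩
  · have := h.lo x y
    have := U.2 x y
    have := P.cs u v
    have := h.sym u v
    grind
  · refine (Finset.sum_le_card_nsmul _ _ (P.δ * sg P.R + 3 * P.η) fun x hx => max_le (by positivity) ?_).trans ?_
    · have := d x.1 x.2 (mem_offDiag.1 hx).2.2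
      have := (abs_le.1 (hp x.1 x.2)).2
      have := e4 x.1 x.2
      have := mul_nonneg δ0.le s0
      have := mul_le_of_le_one_right η0 (show sg P.R ≤ 1 by linarith)
      rcases le_total (P.δ / 2) (P308.mg (aw P.R c') x.1 x.2) with i | i
      · linarith
      · linarith [mul_le_mul_of_nonneg_left i s0]
    · have a1 : (24 : ℝ) * Fintype.card V ^ 2 ≤ P.R := by exact_mod_cast P.hR'
      have a2 : Fintype.card V ^ 2 * (1 / P.R : ℝ) ≤ 1 / 24 := by
        rw [mul_one_div, div_le_iff₀ (by positivity)]; linarith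
      have a3 := mul_le_mul_of_nonneg_left ((mul_le_mul_of_nonneg_left s1 (sq_nonneg _)).trans
        (show (Fintype.card V : ℝ) ^ 2 * (8 / 3 * (1 / P.R)) ≤ 1 / 8 by linarith)) δ0.le
      have := mul_le_mul_of_nonneg_right cd (show 0 ≤ P.δ * sg P.R + 3 * P.η by positivity)
      rw [nsmul_eq_mul]
      linarith [P.hη']
  · have := h.f2 a
    have := Real.log_le_sub_one_of_pos (show 0 < 1 - sg P.R / (1 + sg P.R) * P308.mg (aw P.R c) u v by linarith)
    have := mul_le_mul s2 m1 (by linarith) q0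
    have := mul_le_mul_of_nonneg_left l2 δ0.le
    have := mul_pos δ0 r0
    unfold Lp.pot at *
    rw [U.sum] at *
    rw [e1, Real.log_mul z.ne' (by linarith)]
    push_cast at *
    linarith

theorem Good.step (h : P.Good t c A f) (hp : ∀ u v, |p u v - P308.mg (aw P.R c) u v| ≤ P.η)
    (s : P.Spec c A f p c' A' f') :
    P.Good (t + 1) c' A' f' ∧ ∑ X, law (aw P.R c) X ^ 2 / law (aw P.R c') X ≤ 1 + 9 / P.R ^ 2 := by
  rcases s with ⟨a, rfl, rfl, b⟩ | ⟨a, b, u, v, ⟨U, d, rfl⟩ | ⟨d, U, e, g, rfl⟩⟩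
  exacts [h.stay hp a b, h.boost hp a b U d, h.lower hp a b d U e g]

end Lp

end Vale.Agent.P308
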