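import Vale.Agent.P328.Model

namespace Vale.Agent.P308

open Vale.Agent.P328

open Classical in
/-- What the program is given: the adjacency matrix of `G` as the list of its rows of zeros and
ones, `e` and `k` in unary (lists of zeros), and the random bits. -/
noncomputable def input {n l : ℕ} (G : SimpleGraph (Fin n)) (e k : ℕ) (ω : Fin l → Fin 2) : Val :=
  .pair (.pair (Val.ofList (List.ofFn fun u => Val.ofNats (List.ofFn fun v => if G.Adj u v then 1 else 0)))
      (.pair (Val.ofNats (List.replicate e 0)) (Val.ofNats (List.replicate k 0))))
    (Val.ofNats (List.ofFn fun i => (ω i : ℕ)))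

end Vale.Agent.P308
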