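import Vale.Agent.P308.Init

namespace Vale.Agent.P308

open Finset Equiv Function

lemma round_le {a b e N : ℕ} (hb : 0 < b) (he : 1 ≤ e) (h : |(a : ℝ) / b - N| ≤ (3 * N + 2) / (16 * e)) :
    |(((2 * a + b) / (2 * b) : ℕ) : ℝ) - N| ≤ N / e := by
  have b0 : (0 : ℝ) < b := by exact_mod_cast hb
  have e1 : (1 : ℝ) ≤ e := by exact_mod_cast he
  have h1 : (((2 * a + b) / (2 * b) : ℕ) : ℝ) ≤ a / b + 1 / 2 :=
    Nat.cast_div_le.trans_eq (by push_cast; field_simp)
  have h2 : (a : ℝ) / b + 1 / 2 < ((2 * a + b) / (2 * b) : ℕ) + 1 := by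
    have : ((2 * a + b : ℕ) : ℝ) < (2 * b * ((2 * a + b) / (2 * b) + 1) : ℕ) := by
      exact_mod_cast Nat.lt_mul_div_succ _ (by omega)
    rw [Nat.cast_mul, Nat.cast_add ((2 * a + b) / (2 * b))] at this
    rw [div_add_div _ _ b0.ne' two_ne_zero, div_lt_iff₀ (by positivity)]
    push_cast at *
    linarith
  generalize (2 * a + b) / (2 * b) = o at *
  rw [abs_le] at h
  have n0 : (0 : ℝ) ≤ N := Nat.cast_nonneg _
  rcases le_total N e with c | c
  · have c : (N : ℝ) ≤ e := by exact_mod_cast c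
    have : (3 * N + 2 : ℝ) / (16 * e) ≤ 5 / 16 := by rw [div_le_iff₀ (by positivity)]; linarith
    have a1 : o < N + 1 := by exact_mod_cast (show (o : ℝ) < N + 1 by linarith)
    have a2 : N < o + 1 := by exact_mod_cast (show (N : ℝ) < o + 1 by linarith)
    rw [show o = N by omega, sub_self, abs_zero]
    positivity
  · have c : (e : ℝ) ≤ N := by exact_mod_cast c
    have a1 : (1 : ℝ) ≤ N / e := (one_le_div (by positivity)).2 c
    have : (3 * N + 2 : ℝ) / (16 * e) ≤ 5 / 16 * (N / e) := by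
      rw [div_le_iff₀ (by positivity)]; field_simp; linarith
    rw [abs_le]
    constructor <;> linarith

section

variable {V : Type} [DecidableEq V] [Fintype V]

theorem Lp.final [Nonempty (PM V)] (P : Lp V) (G : V → V → Prop) [DecidableRel G]
    (hc : ∀ u v, P.c0 u v = if G u v then P.m else 0) (hK : P.K = (P.R / (P.R - 1)) ^ (Fintype.card V * P.m))
    {T e : ℕ} (he : 1 ≤ e) (hT : 0 < P.Φ + T * (P.δ / 2 * (1 / P.R))) (h1 : T * P.η ≤ 1 / (32 * e))
    (h2 : Fintype.card V ^ 2 * (3 * P.δ) ≤ 1 / (16 * e))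
    (h3 : (Fintype.card (PM V) : ℝ) ≤ 1 / (16 * e) * (P.R / (P.R - 1)) ^ P.m) {c : V → V → ℕ} {f : Prop}
    {a b : ℕ} (hb : 0 < b) (gd : P.Good T c (a / b) f) :
    |(((2 * a + b) / (2 * b) : ℕ) : ℝ) - (univ.filter fun X : PM V => ∀ v, G v (X v)).card| ≤
      (univ.filter fun X : PM V => ∀ v, G v (X v)).card / e := by
  refine round_le hb he ?_
  have r := (sg_bd P.hR).2.2.2.2.2
  have e1 : (1 : ℝ) ≤ e := by exact_mod_cast he
  have fr : f := by
    by_contra x
    linarith [gd.f2 x, gd.pot]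
  have K0 : 0 < P.K := hK ▸ by positivity
  have w0 := wt_pos (aw_pos P.hR c)
  have z := Zw_pos P.hR c
  have a1 : P.K * (univ.filter fun X : PM V => ∀ v, G v (X v)).card ≤ Zw (aw P.R c) := by
    rw [natCast_card_filter, Finset.mul_sum]
    refine sum_le_sum fun X _ => ?_
    split_ifs with h
    · rw [mul_one, hK, wt_aw]
      refine pow_le_pow_right₀ r (le_trans (le_of_eq ?_) (sum_le_sum fun v _ => gd.lo v (X v)))
      simp [hc, h]
    · rw [mul_zero]; exact (w0 X).le
  have a2 : Zw (aw P.R c) ≤ P.K * (univ.filter fun X : PM V => ∀ v, G v (X v)).card + P.K * (1 / (16 * e)) +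
      Zw (aw P.R c) * (1 / (16 * e)) := by
    have b1 : ∑ p : V × V, (if P.c0 p.1 p.2 < c p.1 p.2 then cw (aw P.R c) p.1 p.2 else 0) ≤
        Zw (aw P.R c) * (1 / (16 * e)) := by
      refine (Finset.sum_le_card_nsmul _ _ (Zw (aw P.R c) * (3 * P.δ)) fun p _ => ?_).trans ?_
      · have := P.δ0
        split_ifs with h
        · rcases eq_or_ne p.1 p.2 with x | x
          · rw [x, cw_self]; positivity
          · exact (div_le_iff₀' z).1 (gd.f1 fr _ _ x h)
        · positivity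
      · rw [Finset.card_univ, Fintype.card_prod, nsmul_eq_mul, mul_left_comm, ← sq, Nat.cast_pow]
        exact mul_le_mul_of_nonneg_left h2 z.le
    have b2 : ∑ _X : PM V, P.K / (P.R / (P.R - 1)) ^ P.m ≤ P.K * (1 / (16 * e)) := by
      rw [Finset.sum_const, Finset.card_univ, nsmul_eq_mul, mul_div_left_comm]
      exact mul_le_mul_of_nonneg_left ((div_le_iff₀ (by positivity)).2 h3) K0.le
    refine le_trans ?_ (add_le_add (add_le_add le_rfl b2) b1)
    have b3 : ∀ p : V × V, (if P.c0 p.1 p.2 < c p.1 p.2 then cw (aw P.R c) p.1 p.2 else 0) =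
        ∑ X : PM V, if P.c0 p.1 p.2 < c p.1 p.2 ∧ X p.1 = p.2 then wt (aw P.R c) X else 0 := fun p => by
      by_cases h : P.c0 p.1 p.2 < c p.1 p.2 <;> simp [h, cw]
    simp only [b3]
    rw [Finset.sum_comm, natCast_card_filter, Finset.mul_sum, ← Finset.sum_add_distrib, ← Finset.sum_add_distrib]
    refine sum_le_sum fun X _ => ?_
    have := w0 X
    by_cases h : ∃ v, P.c0 v (X v) < c v (X v)
    · obtain ⟨v, h⟩ := h
      refine le_add_of_nonneg_of_le (by positivity) (le_trans ?_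
        (Finset.single_le_sum (fun _ _ => by positivity) (mem_univ (v, X v))))
      exact (if_pos ⟨h, rfl⟩).ge
    push Not at h
    refine le_add_of_le_of_nonneg ?_ (by positivity)
    have q : ∀ v, c v (X v) ≤ P.m := fun v => (h v).trans (by rw [hc]; split_ifs <;> omega)
    split_ifs with g
    · refine le_add_of_le_of_nonneg ?_ (by positivity)
      rw [mul_one, hK, wt_aw]
      exact pow_le_pow_right₀ r ((Finset.sum_le_card_nsmul _ _ _ fun v _ => q v).trans_eq (by simp))
    · push Not at g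
      obtain ⟨v, g⟩ := g
      rw [mul_zero, zero_add, le_div_iff₀ (by positivity), hK, wt_aw, ← pow_add]
      refine pow_le_pow_right₀ r ?_
      have := Finset.sum_le_card_nsmul (univ.erase v) _ _ fun v _ => q v
      have h' := h v
      rw [hc, if_neg g] at h'
      rw [Finset.card_erase_of_mem (mem_univ v), Finset.card_univ, smul_eq_mul] at this
      rw [En, ← Finset.add_sum_erase _ _ (mem_univ v), ← Nat.sub_add_cancel (show 1 ≤ Fintype.card V from Fintype.card_pos_iff.2 ⟨v⟩), add_mul]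
      omega
  have η0 := P.η0
  have x0 : (0 : ℝ) < 1 / (16 * e) := by positivity
  have x1 : (1 : ℝ) / (16 * e) ≤ 1 / 16 := one_div_le_one_div_of_le (by norm_num) (by linarith)
  have x2 : (1 : ℝ) / (32 * e) = 1 / (16 * e) / 2 := by ring
  have c1 : 1 - 1 / (16 * e) ≤ (1 - P.η) ^ T := by
    have := one_add_mul_le_pow (a := -P.η) (by linarith [P.hη, P.hδ']) T
    rw [← sub_eq_add_neg] at this
    linarith
  have c2 : (1 + P.η) ^ T ≤ 1 + 1 / (16 * e) := by
    have t0 : 0 ≤ T * P.η := by positivity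
    have := (abs_le.1 (Real.abs_exp_sub_one_le (x := T * P.η) (by rw [abs_of_nonneg t0]; linarith))).2
    rw [abs_of_nonneg t0, Real.exp_nat_mul] at this
    have := pow_le_pow_left₀ (by linarith) (show 1 + P.η ≤ Real.exp P.η by linarith [Real.add_one_le_exp P.η]) T
    linarith
  have d1 := (mul_le_mul_of_nonneg_right c1 z.le).trans gd.a1
  have d2 := gd.a2.trans (mul_le_mul_of_nonneg_right c2 z.le)
  rw [div_eq_mul_one_div (_ + _)]
  generalize (1 : ℝ) / (16 * e) = x at *
  have n0 : (0 : ℝ) ≤ (univ.filter fun X : PM V => ∀ v, G v (X v)).card := Nat.cast_nonneg _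
  generalize ((univ.filter fun X : PM V => ∀ v, G v (X v)).card : ℝ) = N at *
  generalize (a : ℝ) / b = A at *
  have g1 : (1 - x) * N ≤ A := le_of_mul_le_mul_right (by nlinarith) K0
  have g2 : A * (1 - x) ≤ (1 + x) * (N + x) := le_of_mul_le_mul_right (by
    have := mul_le_mul_of_nonneg_right d2 (show 0 ≤ 1 - x by linarith)
    have := mul_le_mul_of_nonneg_left a2 (show 0 ≤ 1 + x by linarith)
    linarith) K0
  have := mul_nonneg x0.le n0
  rw [abs_le]
  refine ⟨by nlinarith, le_of_mul_le_mul_right ?_ (show 0 < 1 - x by linarith)⟩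
  nlinarith [mul_le_mul_of_nonneg_left x1 this, mul_le_mul_of_nonneg_left x1 x0.le]

lemma ncard_pm (G : SimpleGraph V) [DecidableRel G.Adj] : {M : G.Subgraph | M.IsPerfectMatching}.ncard =
    (univ.filter fun X : PM V => ∀ v, G.Adj v (X v)).card := by
  rw [← Set.ncard_coe_finset]
  refine (Set.ncard_congr (fun X h => ⟨Set.univ, fun u v => X u = v, fun {u v} e => e ▸ (mem_filter.1 h).2 u,
    fun _ => trivial, ⟨fun _ _ => PM.rev⟩⟩) (fun X h => ?_) (fun X Y _ _ e => PM.ext fun v => ?_) fun M h => ?_).symm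
  · exact SimpleGraph.Subgraph.isPerfectMatching_iff.2 fun v => ⟨X v, rfl, fun _ e => Eq.symm e⟩
  · exact (congrArg (fun M : G.Subgraph => M.Adj v (Y v)) e).mpr rfl
  · choose f hf hu using SimpleGraph.Subgraph.isPerfectMatching_iff.1 h
    replace hf : ∀ v, M.Adj v (f v) := hf
    refine ⟨PM.of f (fun v => (hu _ _ (hf v).symm).symm) fun v => (M.adj_sub (hf v)).ne', mem_filter.2 ⟨mem_univ _,
      fun v => M.adj_sub (hf v)⟩, SimpleGraph.Subgraph.ext (Set.eq_univ_of_forall h.2).symm ?_⟩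
    ext u v
    exact ⟨fun e => e ▸ hf u, fun e => (hu _ _ e).symm⟩

end

variable {n : ℕ}

lemma init_pop (he : n % 2 = 0) {K R : ℕ} (R0 : 16 ≤ R) (hK : n ^ 2 * 2 ^ (n ^ 2) * R ^ 2 ≤ K) (K0 : 0 < K) (m : ℕ) :
    ∃ ν : PM (Fin n) → ℝ, ∑ X, ν X = 1 ∧ ∑ X, ν X ^ 2 / law (aw R fun _ _ => m) X ≤ 1 + 9 / R ^ 2 ∧
      ∀ (N : ℕ) (F : (Fin N → PM (Fin n)) → ℝ), ∑ a ∈ range ((K ^ n) ^ N),
        F (fun l => ini he fun v => a / (K ^ n) ^ (l : ℕ) % K ^ n / K ^ (v : ℕ) % K) =
        ((K ^ n) ^ N : ℕ) * ∑ σ : Fin N → PM (Fin n), (∏ k, ν (σ k)) * F σ := by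
  have k : (0 : ℝ) < K := by exact_mod_cast K0
  have r := (sg_bd R0).2.2.2.2.2
  have n1 : ∑ X, (∑ a : Fin (K ^ n), if ini he (fun v => a / K ^ (v : ℕ) % K) = X then (1 / (K ^ n : ℕ) : ℝ) else 0)
      = 1 := by
    rw [Finset.sum_comm]
    simp [k.ne']
  refine ⟨_, n1, le_trans (sum_le_sum fun X _ => ?_) ((Finset.sum_mul _ _ _).symm.trans ((congrArg (· * _) n1).trans
    (one_mul _))).le, fun N F => ?_⟩
  · have c1 : (0 : ℝ) < Fintype.card (PM (Fin n)) := by exact_mod_cast Fintype.card_pos_iff.2 ⟨X⟩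
    have c2 : (Fintype.card (PM (Fin n)) : ℝ) ≤ 2 ^ n ^ 2 := by
      have := card_pm_le (V := Fin n)
      rw [Fintype.card_fin] at this
      exact_mod_cast this
    have c3 : (n : ℝ) ^ 2 * 2 ^ (n ^ 2) * R ^ 2 ≤ K := by exact_mod_cast hK
    rw [law, wt_const, Zw_const, div_mul_cancel_right₀ (by positivity), sq, div_inv_eq_mul, mul_assoc]
    refine mul_le_mul_of_nonneg_left ((mul_le_mul_of_nonneg_right (ini_law he K0 X) c1.le).trans ?_) (by positivity)
    rw [add_mul, one_div_mul_cancel c1.ne', div_mul_eq_mul_div]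
    refine add_le_add le_rfl ((div_le_div_iff₀ k (by positivity)).2 ?_)
    have := mul_le_mul_of_nonneg_left c2 (show (0 : ℝ) ≤ n ^ 2 * R ^ 2 by positivity)
    linarith
  · rw [digits fun d => F fun l => ini he fun v => d l / K ^ (v : ℕ) % K, ← push, Finset.mul_sum]
    refine sum_congr rfl fun d _ => ?_
    rw [Finset.prod_const, Finset.card_univ, Fintype.card_fin, ← mul_assoc, Nat.cast_pow, ← mul_pow,
      mul_one_div_cancel (by positivity), one_pow, one_mul]

end Vale.Agent.P308
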