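import Mathlib

namespace Vale.Agent.P308

open Finset Equiv

/-- perfect matchings of the complete graph -/
structure PM (V : Type) where
  f : Perm V
  inv : ∀ v, f (f v) = v
  ne : ∀ v, f v ≠ v

variable {V : Type}

instance : CoeFun (PM V) fun _ => V → V := ⟨fun X => X.f⟩

lemma PM.rev {X : PM V} {u v : V} (h : X u = v) : X v = u := h ▸ X.inv u
lemma PM.inj : Function.Injective (PM.f (V := V)) := by
  rintro ⟨_, _, _⟩ ⟨_, _, _⟩ rfl; rfl
lemma PM.ext {X Y : PM V} (h : ∀ v, X v = Y v) : X = Y := PM.inj (Equiv.ext h)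

/-- from a function -/
def PM.of (f : V → V) (h : ∀ v, f (f v) = v) (h' : ∀ v, f v ≠ v) : PM V :=
  ⟨Function.Involutive.toPerm f h, h, h'⟩

/-- closed sets -/
def Cl (U : Finset V) (X : PM V) : Prop := ∀ v ∈ U, X v ∈ U

lemma Cl.out {U : Finset V} {X : PM V} (h : Cl U X) {v : V} (hv : v ∉ U) : X v ∉ U :=
  fun c => hv (X.inv v ▸ h _ c)

variable [DecidableEq V]

/-- conjugation by a transposition -/
def cj (a b : V) (X : PM V) : PM V :=
  ⟨swap a b * X.1 * swap a b, fun v => by simp [X.inv], fun v h => by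
    have := congrArg (swap a b) h
    simp only [Perm.mul_apply, swap_apply_self] at this
    exact X.ne _ this⟩

lemma cj_apply (a b : V) (X : PM V) (v : V) : cj a b X v = swap a b (X (swap a b v)) := rfl

lemma cj_cj (a b : V) (X : PM V) : cj a b (cj a b X) = X := PM.ext fun v => by simp [cj_apply]

lemma cj_self (a : V) (X : PM V) : cj a a X = X := PM.ext fun v => by simp [cj_apply]

lemma cj_eq {X : PM V} {a b c d : V} (h1 : X a = b) (h2 : X c = d) (n1 : a ≠ c) (v : V) :
    cj b c X v = if v = a then c else if v = c then a else if v = b then d else if v = d then b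
      else X v := by
  have := X.inv
  have := X.ne
  rw [cj_apply]
  simp only [swap_apply_def]
  grind

open Classical in
/-- replace on a set -/
noncomputable def mix (U : Finset V) (X Y : PM V) : PM V :=
  if h : Cl U X ∧ Cl U Y then PM.of (fun v => if v ∈ U then Y v else X v) (fun v => by
      by_cases e : v ∈ U
      · simp [e, h.2 v e, Y.inv]
      · simp [e, h.1.out e, X.inv]) fun v => by
      by_cases e : v ∈ U <;> simp [e, PM.ne] else X

lemma mix_eq {U : Finset V} {X Y : PM V} (h1 : Cl U X) (h2 : Cl U Y) (v : V) :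
    mix U X Y v = if v ∈ U then Y v else X v := by
  rw [mix, dif_pos ⟨h1, h2⟩]; rfl

lemma mix_cl {U W : Finset V} {X Y : PM V} (h1 : Cl U X) (h2 : Cl U Y) (a : Cl W X) (b : Cl W Y) :
    Cl W (mix U X Y) := fun v hv => by
  rw [mix_eq h1 h2]; split_ifs
  exacts [b v hv, a v hv]

variable [Fintype V]

noncomputable instance : Fintype (PM V) := Fintype.ofInjective _ PM.inj
instance : DecidableEq (PM V) := PM.inj.decidableEq

open Classical in
/-- alternating cycle through a vertex -/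
noncomputable def orb (X Y : PM V) (x : V) : Finset V :=
  univ.filter fun y => ∀ U, x ∈ U → Cl U X → Cl U Y → y ∈ U

lemma mem_orb {X Y : PM V} {x y : V} : y ∈ orb X Y x ↔ ∀ U, x ∈ U → Cl U X → Cl U Y → y ∈ U := by
  simp [orb]

lemma orb_self (X Y : PM V) (x : V) : x ∈ orb X Y x := mem_orb.2 fun _ h _ _ => h
lemma orb_cl1 (X Y : PM V) (x : V) : Cl (orb X Y x) X :=
  fun _ h => mem_orb.2 fun U a b c => b _ (mem_orb.1 h U a b c)
lemma orb_cl2 (X Y : PM V) (x : V) : Cl (orb X Y x) Y :=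
  fun _ h => mem_orb.2 fun U a b c => c _ (mem_orb.1 h U a b c)
lemma orb_comm (X Y : PM V) (x : V) : orb X Y x = orb Y X x := by
  ext; simp only [mem_orb]; tauto

lemma orb_eq {X Y : PM V} {x : V} {U : Finset V} (hx : x ∈ U) (h1 : Cl U X) (h2 : Cl U Y)
    (h : ∀ W, x ∈ W → Cl W X → Cl W Y → U ⊆ W) : orb X Y x = U :=
  Finset.Subset.antisymm (fun _ hy => mem_orb.1 hy U hx h1 h2)
    (h _ (orb_self ..) (orb_cl1 _ _ _) (orb_cl2 _ _ _))

lemma orb_mix {U : Finset V} {X Y : PM V} (h1 : Cl U X) (h2 : Cl U Y) (x : V) :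
    orb (mix U X Y) (mix U Y X) x = orb X Y x := by
  ext
  simp only [mem_orb]
  refine forall_congr' fun W => imp_congr_right fun _ => ⟨fun h a b => h (mix_cl h1 h2 a b)
    (mix_cl h2 h1 b a), fun h a b => h (fun v hv => ?_) fun v hv => ?_⟩ <;>
  · have a1 := a v hv
    have b1 := b v hv
    rw [mix_eq h1 h2] at a1
    rw [mix_eq h2 h1] at b1
    split_ifs at a1 b1 <;> assumption

lemma orb_congr {X Y Y' : PM V} {x : V} (h : ∀ u ∈ orb X Y x, Y' u = Y u) : orb X Y' x = orb X Y x := by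
  have c : Cl (orb X Y x) Y' := fun u hu => h u hu ▸ orb_cl2 _ _ _ u hu
  have s : orb X Y' x ⊆ orb X Y x := fun _ hy => mem_orb.1 hy _ (orb_self ..) (orb_cl1 _ _ _) c
  exact s.antisymm fun _ hy => mem_orb.1 hy _ (orb_self ..) (orb_cl1 _ _ _)
    fun u hu => h u (s hu) ▸ orb_cl2 _ _ _ u hu

omit [Fintype V] in
lemma mix_mix {U : Finset V} {X Y : PM V} (h1 : Cl U X) (h2 : Cl U Y) :
    mix U (mix U X Y) (mix U Y X) = X := PM.ext fun v => by
  rw [mix_eq (mix_cl h1 h2 h1 h2) (mix_cl h2 h1 h2 h1), mix_eq h1 h2, mix_eq h2 h1]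
  split_ifs <;> rfl

/-- swap along the cycle through a vertex -/
noncomputable def os (x : V) (p : PM V × PM V) : PM V × PM V :=
  (mix (orb p.1 p.2 x) p.1 p.2, mix (orb p.1 p.2 x) p.2 p.1)

lemma os_os (x : V) (p : PM V × PM V) : os x (os x p) = p := by
  have a := orb_cl1 p.1 p.2 x
  have b := orb_cl2 p.1 p.2 x
  simp only [os, orb_mix a b, mix_mix a b, mix_mix b a]

/-- weight -/
def wt (a : V → V → ℝ) (X : PM V) : ℝ := ∏ v, a v (X v)

variable {a : V → V → ℝ}

omit [DecidableEq V] in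
lemma wt_pos (ha : ∀ u v, 0 < a u v) (X : PM V) : 0 < wt a X := Finset.prod_pos fun _ _ => ha _ _

lemma wt_mix {U : Finset V} {X Y : PM V} (h1 : Cl U X) (h2 : Cl U Y) :
    wt a (mix U X Y) * wt a (mix U Y X) = wt a X * wt a Y := by
  simp only [wt, ← Finset.prod_mul_distrib, mix_eq h1 h2, mix_eq h2 h1]
  refine Finset.prod_congr rfl fun v _ => ?_
  split_ifs
  exacts [mul_comm _ _, rfl]

lemma wt_os (x : V) (p : PM V × PM V) : wt a (os x p).1 * wt a (os x p).2 = wt a p.1 * wt a p.2 :=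
  wt_mix (orb_cl1 _ _ _) (orb_cl2 _ _ _)

lemma wt_cj (hs : ∀ u v, a u v = a v u) {X : PM V} {b c d e : V} (h1 : X b = c) (h2 : X d = e)
    (n1 : b ≠ d) (n2 : b ≠ e) :
    wt a (cj c d X) * (a b c ^ 2 * a d e ^ 2) = wt a X * (a b d ^ 2 * a c e ^ 2) := by
  have i := X.inv
  have n := X.ne
  have f : ∀ g : V → ℝ, ∏ v, g v = (∏ v ∈ univ \ {b, c, d, e}, g v) * (g b * (g c * (g d * g e))) := by
    intro g
    rw [← Finset.prod_sdiff (Finset.subset_univ {b, c, d, e}), Finset.prod_insert (by grind),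
      Finset.prod_insert (by grind), Finset.prod_pair (by grind)]
  have e1 := cj_eq h1 h2 n1
  rw [wt, wt, f, f fun v => a v (X v), Finset.prod_congr rfl (g := fun v => a v (X v)) fun v hv => by
    rw [e1]; grind, show cj c d X b = d by grind, show cj c d X c = e by grind,
    show cj c d X d = b by grind, show cj c d X e = c by grind, h1, h2, PM.rev h1, PM.rev h2,
    hs d b, hs e c, hs c b, hs e d]
  ring

/-- alternating walks -/
structure Wk (I F : PM V) (v : ℕ → V) (i j : ℕ) : Prop where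
  hI : ∀ k, i ≤ k → k ≤ j → (k + i) % 2 = 0 → I (v k) = v (k + 1)
  hF : ∀ k, i ≤ k → k ≤ j → (k + i) % 2 = 1 → F (v k) = v (k + 1)
  inj : ∀ k l, i ≤ k → k < l → l ≤ j + 1 → v k = v l → k = i ∧ l = j + 1

omit [DecidableEq V] [Fintype V] in
lemma Wk.sub {I F : PM V} {v : ℕ → V} {i j i' j' : ℕ} (h : Wk I F v i j) (hi : i ≤ i') (hj : j' ≤ j)
    (e : (i' + i) % 2 = 0) : Wk I F v i' j' :=
  ⟨fun k a b c => h.hI k (by omega) (by omega) (by omega),
    fun k a b c => h.hF k (by omega) (by omega) (by omega),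
    fun k l a b c d => by have := h.inj k l (by omega) b (by omega) d; omega⟩

omit [DecidableEq V] [Fintype V] in
lemma Wk.sub' {I F : PM V} {v : ℕ → V} {i j i' j' : ℕ} (h : Wk I F v i j) (hi : i ≤ i') (hj : j' ≤ j)
    (e : (i' + i) % 2 = 1) : Wk F I v i' j' :=
  ⟨fun k a b c => h.hF k (by omega) (by omega) (by omega),
    fun k a b c => h.hI k (by omega) (by omega) (by omega),
    fun k l a b c d => by have := h.inj k l (by omega) b (by omega) d; omega⟩

omit [DecidableEq V] in
lemma exists_wk (X Y : PM V) (x : V) :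
    ∃ (v : ℕ → V) (j : ℕ), v 0 = x ∧ v (j + 1) = x ∧ j % 2 = 1 ∧ Wk X Y v 0 j := by
  classical
  obtain ⟨v, h0, hv⟩ : ∃ v : ℕ → V, v 0 = x ∧ ∀ k, v (k + 1) = (if k % 2 = 0 then X else Y) (v k) :=
    ⟨fun k => Nat.rec x (fun k y => (if k % 2 = 0 then X else Y) y) k, rfl, fun _ => rfl⟩
  have odd : ∀ d k, v k ≠ v (k + 2 * d + 1) := by
    intro d
    induction d with
    | zero => exact fun k h => PM.ne _ _ ((hv k).symm.trans h.symm)
    | succ d ih =>
      intro k h
      refine ih (k + 1) ?_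
      rw [hv, h, show k + 2 * (d + 1) + 1 = k + 1 + 2 * d + 1 + 1 by ring, hv (k + 1 + 2 * d + 1),
        show (k + 1 + 2 * d + 1) % 2 = k % 2 by omega, PM.inv]
  have ev : ∀ k d, v k = v (k + 2 * d) → v 0 = v (2 * d) := by
    intro k d
    induction k with
    | zero => simp
    | succ k ih =>
      intro h
      rw [add_right_comm, hv, hv, show (k + 2 * d) % 2 = k % 2 by omega] at h
      exact ih (Equiv.injective _ h)
  have all : ∀ k l, k < l → v k = v l → (l - k) % 2 = 0 ∧ v (l - k) = v 0 := fun k l hl h => by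
    obtain ⟨d, rfl | rfl⟩ : ∃ d, l = k + 2 * d ∨ l = k + 2 * d + 1 := ⟨(l - k) / 2, by omega⟩
    · exact ⟨by omega, by rw [Nat.add_sub_cancel_left]; exact (ev k d h).symm⟩
    · exact absurd h (odd d k)
  have ex : ∃ j, v (j + 1) = v 0 := by
    obtain ⟨k, l, n, h⟩ := Finite.exists_ne_map_eq_of_infinite v
    rcases lt_or_gt_of_ne n with c | c
    · exact ⟨l - k - 1, by rw [show l - k - 1 + 1 = l - k by omega]; exact (all k l c h).2⟩
    · exact ⟨k - l - 1, by rw [show k - l - 1 + 1 = k - l by omega]; exact (all l k c h.symm).2⟩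
  have s := Nat.find_spec ex
  refine ⟨v, Nat.find ex, h0, s.trans h0, by have := (all 0 _ (Nat.succ_pos _) s.symm).1; omega,
    fun k _ _ h => by rw [hv, if_pos (by omega)], fun k _ _ h => by rw [hv, if_neg (by omega)],
    fun k l _ h1 h2 h => ?_⟩
  have := Nat.find_min' ex (m := l - k - 1) (by
    rw [show l - k - 1 + 1 = l - k by omega]; exact (all k l h1 h).2)
  omega

end Vale.Agent.P308
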