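import Vale.Agent.P308.Learn

namespace Vale.Agent.P308

open Finset Real
open Vale.Agent.P328 (split Av Av_abs eat eat_sum decay)

lemma prod_sum {α : Type} [Fintype α] {s : ℕ} (g : α → ℝ) : ∑ τ : Fin s → α, ∏ k, g (τ k) = (∑ x, g x) ^ s := by
  rw [← Fintype.piFinset_univ, ← Finset.prod_univ_sum (fun _ => univ) fun _ x => g x]
  simp

lemma conc {α : Type} [Fintype α] {μ : α → ℝ} (p0 : ∀ x, 0 ≤ μ x) (p1 : ∑ x, μ x = 1) (X : α → Prop)
    [DecidablePred X] {h s j : ℕ} (hh : 0 < h) (s0 : 0 < s) (hs : 4 * h ^ 2 * j ≤ s) :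
    ∑ τ : Fin s → α, (∏ k, μ (τ k)) * (if |(∑ k, if X (τ k) then 1 else 0 : ℕ) / (s : ℝ) -
      ∑ x, if X x then μ x else 0| ≤ 1 / h then 0 else 1) ≤ 2 * (1 / 2) ^ j := by
  generalize hp : (∑ x, if X x then μ x else 0) = p
  have h1 : (1 : ℝ) ≤ h := by exact_mod_cast hh
  have s1 : (0 : ℝ) < s := by exact_mod_cast s0
  have q0 : 0 ≤ p := hp ▸ sum_nonneg fun x _ => by have := p0 x; positivity
  have q1 : p ≤ 1 := hp ▸ p1 ▸ sum_le_sum fun x _ => by split_ifs; exacts [le_rfl, p0 x]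
  have mgf : ∀ θ : ℝ, |θ| ≤ 1 → ∑ τ : Fin s → α, (∏ k, μ (τ k)) *
      exp (θ * ((∑ k, if X (τ k) then 1 else 0 : ℕ) - s * p)) ≤ exp (s * θ ^ 2) := fun θ hθ => by
    rw [sum_congr rfl (g := fun τ => ∏ k, μ (τ k) * exp (θ * ((if X (τ k) then 1 else 0) - p))) fun τ _ => by
      rw [Finset.prod_mul_distrib, ← exp_sum, ← Finset.mul_sum, Finset.sum_sub_distrib]; simp,
      prod_sum fun x => μ x * exp (θ * ((if X x then 1 else 0) - p)), exp_nat_mul]
    refine pow_le_pow_left₀ (sum_nonneg fun x _ => mul_nonneg (p0 x) (exp_pos _).le) ((Finset.sum_le_sum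
      (g := fun x => μ x * (1 - θ * p + θ ^ 2) + θ * if X x then μ x else 0) fun a _ => ?_).trans ?_) _
    · have b : |(if X a then 1 else 0) - p| ≤ 1 := by
        rw [abs_le]; split_ifs <;> constructor <;> linarith
      have d := (abs_le.1 (abs_exp_sub_one_sub_id_le (x := θ * ((if X a then 1 else 0) - p)) (by
        rw [abs_mul]; exact mul_le_one₀ hθ (abs_nonneg _) b))).2
      have e := mul_le_of_le_one_right (sq_nonneg θ) ((sq_le_one_iff_abs_le_one _).2 b)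
      rw [mul_pow] at d
      refine (mul_le_mul_of_nonneg_left (show _ ≤ 1 + θ * ((if X a then 1 else 0) - p) + θ ^ 2 by linarith)
        (p0 a)).trans_eq ?_
      split_ifs <;> ring
    · rw [Finset.sum_add_distrib, ← Finset.sum_mul, ← Finset.mul_sum, p1, hp]
      linarith [add_one_le_exp (θ ^ 2)]
  have a : |1 / (2 * h : ℝ)| ≤ 1 := by
    rw [abs_of_nonneg (by positivity), div_le_one (by positivity)]; linarith
  have b1 := mgf _ a
  have b2 := mgf (-(1 / (2 * h))) (by rwa [abs_neg])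
  have d : exp (s * (1 / (2 * h : ℝ)) ^ 2) * exp (-(s / (2 * h ^ 2))) ≤ (1 / 2) ^ j := by
    have : ((4 * h ^ 2 * j : ℕ) : ℝ) ≤ s := by exact_mod_cast hs
    rw [← exp_add]
    refine (exp_le_exp.2 (show _ ≤ j * (-1 : ℝ) from ?_)).trans ?_
    · rw [show s * (1 / (2 * h : ℝ)) ^ 2 + -(s / (2 * h ^ 2)) = -(s / (4 * h ^ 2)) by field_simp; ring,
        mul_neg_one, neg_le_neg_iff, le_div_iff₀ (by positivity)]
      push_cast at this; linarith
    · rw [exp_nat_mul]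
      refine pow_le_pow_left₀ (exp_pos _).le ?_ _
      rw [exp_neg, one_div]
      exact inv_anti₀ two_pos (by linarith [add_one_le_exp (1 : ℝ)])
  rw [neg_sq] at b2
  have := mul_le_mul_of_nonneg_right (add_le_add b1 b2) (exp_pos (-(s / (2 * h ^ 2)))).le
  refine le_trans ?_ (this.trans (by linarith))
  rw [← Finset.sum_add_distrib, Finset.sum_mul]
  refine sum_le_sum fun τ _ => ?_
  rw [← mul_add, mul_assoc]
  refine mul_le_mul_of_nonneg_left ?_ (prod_nonneg fun _ _ => p0 _)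
  split_ifs with e
  · positivity
  generalize ((∑ k, if X (τ k) then 1 else 0 : ℕ) : ℝ) = x at *
  have u : (s / (2 * h ^ 2) : ℝ) = 1 / (2 * h) * (s * (1 / h)) := by field_simp
  have v : x = s * (x / s) := by field_simp
  have w : (0 : ℝ) ≤ 1 / (2 * h) := by positivity
  rw [add_mul, ← exp_add, ← exp_add, u, v]
  rw [abs_le, not_and_or, not_le, not_le] at e
  have w' := mul_nonneg w s1.le
  rcases e with e | e
  · exact le_add_of_nonneg_of_le (exp_pos _).le (one_le_exp (by nlinarith))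
  · exact le_add_of_le_of_nonneg (one_le_exp (by nlinarith)) (exp_pos _).le

lemma split_pop {α : Type} [Fintype α] {N s : ℕ} (μ : α → ℝ) (F : (Fin N → α) → (Fin s → α) → ℝ) :
    ∑ σ : Fin (N + s) → α, (∏ k, μ (σ k)) * F (fun k => σ (Fin.castAdd s k)) (fun k => σ (Fin.natAdd N k)) =
      ∑ τ : Fin s → α, (∏ k, μ (τ k)) * ∑ σ : Fin N → α, (∏ k, μ (σ k)) * F σ τ := by
  rw [← (Fin.appendEquiv N s).sum_comp, Fintype.sum_prod_type_right]
  refine sum_congr rfl fun τ _ => ?_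
  rw [Finset.mul_sum]
  refine sum_congr rfl fun σ _ => ?_
  simp only [Fin.appendEquiv_apply, Fin.prod_univ_add, Fin.append_left, Fin.append_right]
  ring

/-- population sizes -/
def Nn (N s : ℕ) : ℕ → ℕ
  | 0 => N
  | m + 1 => Nn N s m + s

lemma Nn_eq (N s m : ℕ) : Nn N s m = N + m * s := by
  induction m with
  | zero => simp [Nn]
  | succ m ih => rw [Nn, ih]; ring

lemma Av_iter {β : Type} {B : ℕ} (hB : 0 < B) (st : β → ℕ → β) {f : β → ℝ} (h : ∀ y, |f y| ≤ 1) (m : ℕ) :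
    ∀ y, |(Av B st)^[m] f y| ≤ 1 := by
  induction m with
  | zero => exact h
  | succ m ih => rw [Function.iterate_succ_apply']; exact Av_abs hB st ih

variable {n : ℕ}

/-- empirical counts -/
def ct {s : ℕ} (τ : Fin s → PM (Fin n)) (u v : Fin n) : ℕ := ∑ k, if τ k u = v then 1 else 0

lemma split_good [Nonempty (PM (Fin n))] {R N s h j : ℕ} (hR : 16 ≤ R) (c : Fin n → Fin n → ℕ) (hh : 0 < h) (s0 : 0 < s)
    (hs' : 4 * h ^ 2 * j ≤ s) {F : (Fin N → PM (Fin n)) → (Fin s → PM (Fin n)) → ℝ} (F1 : ∀ σ τ, F σ τ ≤ 1) {b : ℝ}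
    (b0 : 0 ≤ b) (hb : ∀ τ, (∀ u v, |(ct τ u v : ℝ) / s - mg (aw R c) u v| ≤ 1 / h) →
      ∑ σ : Fin N → PM (Fin n), (∏ k, law (aw R c) (σ k)) * F σ τ ≤ b) :
    ∑ σ : Fin (N + s) → PM (Fin n), (∏ k, law (aw R c) (σ k)) *
      F (fun k => σ (Fin.castAdd s k)) (fun k => σ (Fin.natAdd N k)) ≤ b + n ^ 2 * (2 * (1 / 2) ^ j) := by
  have l0 : ∀ X, 0 ≤ law (aw R c) X := fun X => (div_pos (wt_pos (aw_pos hR _) X) (Zw_pos hR _)).le
  have l1 := law_sum hR c
  have k : ∀ τ : Fin s → PM (Fin n), ∑ σ : Fin N → PM (Fin n), (∏ k, law (aw R c) (σ k)) * F σ τ ≤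
      b + ∑ p : Fin n × Fin n, if |(ct τ p.1 p.2 : ℝ) / s - mg (aw R c) p.1 p.2| ≤ 1 / h then 0 else 1 := fun τ => by
    by_cases e : ∀ u v, |(ct τ u v : ℝ) / s - mg (aw R c) u v| ≤ 1 / h
    · exact le_add_of_le_of_nonneg (hb τ e) (sum_nonneg fun _ _ => by positivity)
    push Not at e
    obtain ⟨u, v, e⟩ := e
    refine le_trans ((sum_le_sum fun σ _ => mul_le_of_le_one_right (prod_nonneg fun _ _ => l0 _)
      (F1 _ _)).trans_eq (by rw [prod_sum, l1, one_pow])) (le_add_of_nonneg_of_le b0 ?_)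
    refine le_trans ?_ (Finset.single_le_sum (fun _ _ => by positivity) (mem_univ (u, v)))
    exact (if_neg e.not_ge).ge
  rw [split_pop]
  refine (sum_le_sum fun τ _ => mul_le_mul_of_nonneg_left (k τ) (prod_nonneg fun _ _ => l0 _)).trans ?_
  simp only [mul_add _ b, Finset.sum_add_distrib, ← Finset.sum_mul, prod_sum, l1, one_pow, one_mul,
    Finset.mul_sum (univ : Finset (Fin n × Fin n))]
  rw [Finset.sum_comm]
  refine add_le_add le_rfl ((Finset.sum_le_card_nsmul univ _ (2 * (1 / 2) ^ j) fun p _ => ?_).trans_eq (by simp [sq]))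
  have := conc l0 l1 (fun X => X p.1 = p.2) hh s0 hs'
  rwa [show (∑ X, if X p.1 = p.2 then law (aw R c) X else 0) = mg (aw R c) p.1 p.2 by
    rw [mg, cw, Finset.sum_div]
    exact sum_congr rfl fun X _ => by split_ifs <;> simp [law]] at this

theorem run [Nonempty (PM (Fin n))] (P : Lp (Fin n)) {S Y : Type} {cf : S → Fin n → Fin n → ℕ} {ac : S → ℝ}
    {fr wf : S → Prop} {N s h T W Pp Q g j tm d y : ℕ} {upd : S → (Fin s → PM (Fin n)) → S}
    (hs : ∀ st τ, wf st → wf (upd st τ) ∧ P.Spec (cf st) (ac st) (fr st) (fun u v => ct τ u v / s)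
      (cf (upd st τ)) (ac (upd st τ)) (fr (upd st τ)))
    {U : Y → ℕ → Y} {enc : ∀ N, S → (Fin N → PM (Fin n)) → Y} {B : ℕ} (hB : B = Q * (Q * (2 * (Pp * (Pp * P.R ^ W)))))
    (hU : ∀ M st σ ω, M + s ≤ N + T * s → (∀ X, En (cf st) X ≤ W) → U (enc (M + s) st σ) ω = enc M
      (upd st fun k => ((eat B (pstep Q (pm P.R W Pp (cf st))))^[tm] (σ, ω)).1 (Fin.natAdd M k))
      fun k => ((eat B (pstep Q (pm P.R W Pp (cf st))))^[tm] (σ, ω)).1 (Fin.castAdd s k))
    {G : Y → ℝ} (G1 : ∀ y, |G y| ≤ 1) (G0 : ∀ N st σ, wf st → P.Good T (cf st) (ac st) (fr st) → G (enc N st σ) = 0)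
    (n0 : 0 < n) (g0 : 0 < g) (hR : 512 * g ≤ P.R) (hP : n ≤ Pp) (hW : n * (P.m + T) ≤ W)
    (hg : 4 * (Pp : ℝ) ^ 2 * CC (4 / P.δ) n ≤ g) (hQ : 2 * (N + T * s) ≤ Q) (hN : 2304 * g ^ 2 * d ≤ N)
    (hd : 2 * (j + 2 + y) ≤ d) (hy : 2 * tm + 2 ≤ 2 ^ y) (htm : 4 * g * Q ^ 2 * (Q + j) ≤ tm)
    (hh : 0 < h) (hη : P.η = 1 / h) (s0 : 0 < s) (hs' : 4 * h ^ 2 * j ≤ s) (m : ℕ) :
    ∀ t, m + t = T → ∀ st (ν : PM (Fin n) → ℝ), wf st → P.Good t (cf st) (ac st) (fr st) → ∑ x, ν x = 1 →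
      ∑ x, ν x ^ 2 / law (aw P.R (cf st)) x ≤ 1 + 9 / P.R ^ 2 →
      ∑ σ : Fin (Nn N s m) → PM (Fin n), (∏ k, ν (σ k)) * (Av (B ^ tm) U)^[m] G (enc _ st σ) ≤
        m * ((n ^ 2 + 1) * (2 * (1 / 2) ^ j)) := by
  have B0 : 0 < B := by
    have := P.hR
    have : 0 < N := lt_of_lt_of_le (Nat.mul_pos (by positivity) (by omega)) hN
    have : 0 < Q := by omega
    have : 0 < Pp := by omega
    rw [hB]; positivity
  induction m with
  | zero =>
    intro t e st ν w gd _ _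
    simp [G0 _ st _ w (e ▸ by simpa using gd)]
  | succ m ih =>
    intro t e st ν w gd n1 n2
    have H1 := Av_iter (pow_pos B0 tm) U G1 m
    rw [Function.iterate_succ_apply']
    generalize (Av (B ^ tm) U)^[m] G = H at *
    have mT := Nat.mul_le_mul_right s (show m + 1 ≤ T by omega)
    have eW : ∀ X, En (cf st) X ≤ W := fun X => le_trans ((Finset.sum_le_card_nsmul _ _
      (P.m + T) fun v _ => (gd.hi _ _).trans (by omega)).trans_eq (by simp)) hW
    have e1 : ∀ σ : Fin (Nn N s m + s) → PM (Fin n), Av (B ^ tm) U H (enc _ st σ) =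
        (Av B (pstep Q (pm P.R W Pp (cf st))))^[tm] (fun σ' => H (enc _ (upd st fun k => σ' (Fin.natAdd _ k))
          fun k => σ' (Fin.castAdd s k))) σ := fun σ => by
      have := eat_sum B0 (pstep Q (pm P.R W Pp (cf st))) one_pos (fun p => H (enc _ (upd st fun k =>
        p.1 (Fin.natAdd _ k)) fun k => p.1 (Fin.castAdd s k))) tm σ
      simp only [mul_one, Finset.sum_range_one, Nat.cast_one, div_one] at this
      simp only [Av, hU _ _ _ _ ((Nn_eq N s (m + 1)).trans_le (Nat.add_le_add_left mT N)) eW, this]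
    refine (sum_congr rfl fun σ _ => congrArg _ (e1 σ)).trans_le ((hB ▸ chain_mix gd.gd
      ((one_le_div P.δ0).2 (by linarith [P.hδ', P.δ0])) n0 g0 hR hP eW hg
      (by rw [Nn_eq]; omega) (by rw [Nn_eq]; omega) hd hy htm n1 n2 fun _ => H1 _).trans ?_)
    refine (add_le_add (split_good P.hR (cf st) hh s0 hs' (F := fun σ τ => H (enc _ (upd st τ) σ))
      (fun _ _ => (abs_le.1 (H1 _)).2) (b := m * ((n ^ 2 + 1) * (2 * (1 / 2) ^ j))) (by positivity) fun τ c => ?_)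
      le_rfl).trans_eq (by push_cast; ring)
    have := gd.step (p := fun u v => ct τ u v / s) (fun u v => (c u v).trans_eq hη.symm) (hs st τ w).2
    exact ih (t + 1) (by omega) _ _ (hs st τ w).1 this.1 (law_sum P.hR _) this.2

end Vale.Agent.P308
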