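import Vale.Agent.P308.Lad

namespace Vale.Agent.P308

open Finset Function
open scoped RealInnerProductSpace

/-- positive weights -/
structure Pw (Ω : Type) where
  p : Ω → ℝ
  pos : ∀ x, 0 < p x

/-- functions with a weighted scalar product -/
def WF {Ω : Type} (_P : Pw Ω) : Type := Ω → ℝ

section

variable {Ω : Type} (P : Pw Ω)

instance : AddCommGroup (WF P) := inferInstanceAs (AddCommGroup (Ω → ℝ))
instance : Module ℝ (WF P) := inferInstanceAs (Module ℝ (Ω → ℝ))

variable [Fintype Ω]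

/-- the scalar product -/
@[reducible] noncomputable def WF.core : InnerProductSpace.Core ℝ (WF P) where
  inner u v := ∑ x, P.p x * (u x * v x)
  conj_inner_symm u v := by simp [mul_comm]
  re_inner_nonneg u := Finset.sum_nonneg fun x _ => mul_nonneg (P.pos x).le (mul_self_nonneg _)
  add_left u v w := by
    rw [← Finset.sum_add_distrib]
    exact Finset.sum_congr rfl fun x _ => (by ring : P.p x * ((u x + v x) * w x) = _)
  smul_left u v r := by
    rw [Finset.mul_sum]
    exact Finset.sum_congr rfl fun x _ => (by simp only [conj_trivial]; ring : P.p x * ((r * u x) * v x) = _)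
  definite u h := funext fun x => by
    have := (Finset.sum_eq_zero_iff_of_nonneg fun x _ => mul_nonneg (P.pos x).le (mul_self_nonneg (u x))).1 h x
      (mem_univ _)
    exact mul_self_eq_zero.1 ((mul_eq_zero.1 this).resolve_left (P.pos x).ne')

noncomputable instance : NormedAddCommGroup (WF P) := (WF.core P).toNormedAddCommGroup
noncomputable instance : InnerProductSpace ℝ (WF P) := InnerProductSpace.ofCore (WF.core P).toCore

lemma WF.inner_eq (u v : WF P) : ⟪u, v⟫ = ∑ x, P.p x * (u x * v x) := rfl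

lemma WF.norm_sq (u : WF P) : ‖u‖ ^ 2 = ∑ x, P.p x * u x ^ 2 := by
  rw [← real_inner_self_eq_norm_sq, WF.inner_eq]; simp only [sq]

omit [Fintype Ω] in
lemma WF.sum_apply {β : Type} (s : Finset β) (c : β → WF P) (σ : Ω) : (∑ b ∈ s, c b) σ = ∑ b ∈ s, c b σ :=
  Finset.sum_apply σ s c

variable {κ : Type} [Fintype κ]

/-- generator of a family of involutions -/
def Lop (τ : κ → Ω → Ω) (r : κ → Ω → ℝ) : WF P →ₗ[ℝ] WF P where
  toFun u σ := ∑ ω, r ω σ * (u σ - u (τ ω σ))
  map_add' u v := funext fun σ => by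
    change ∑ ω, r ω σ * (u σ + v σ - (u (τ ω σ) + v (τ ω σ))) = ∑ ω, _ + ∑ ω, _
    rw [← Finset.sum_add_distrib]
    exact Finset.sum_congr rfl fun _ _ => by ring
  map_smul' c u := funext fun σ => by
    change ∑ ω, r ω σ * (c * u σ - c * u (τ ω σ)) = c * ∑ ω, _
    rw [Finset.mul_sum]
    exact Finset.sum_congr rfl fun _ _ => by ring

lemma Lop_inner {τ : κ → Ω → Ω} {r : κ → Ω → ℝ} (h1 : ∀ ω σ, τ ω (τ ω σ) = σ)
    (h2 : ∀ ω σ, P.p σ * r ω σ = P.p (τ ω σ) * r ω (τ ω σ)) (u v : WF P) :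
    2 * ⟪v, Lop P τ r u⟫ = ∑ ω, ∑ σ, P.p σ * (r ω σ * ((u σ - u (τ ω σ)) * (v σ - v (τ ω σ)))) := by
  change 2 * ∑ σ, P.p σ * (v σ * ∑ ω, r ω σ * (u σ - u (τ ω σ))) = _
  simp only [Finset.mul_sum]
  rw [Finset.sum_comm]
  refine Finset.sum_congr rfl fun ω _ => ?_
  have := (Involutive.bijective (h1 ω)).sum_comp fun σ => P.p σ * r ω σ * (v σ * (u σ - u (τ ω σ)))
  simp only [h1, ← h2] at this
  rw [← sub_eq_zero, ← Finset.sum_sub_distrib, ← sub_eq_zero.2 this.symm, ← Finset.sum_sub_distrib]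
  exact Finset.sum_congr rfl fun _ _ => by ring

end

variable {α ι κ : Type} [Fintype α] [Fintype ι] [DecidableEq ι] [Fintype κ]

/-- reversible moves on pairs with a gap on additive functions -/
structure Mv (π : α → ℝ) (m : κ → α × α → α × α) (r : κ → α × α → ℝ) (γ : ℝ) : Prop where
  pos : ∀ x, 0 < π x
  one : ∑ x, π x = 1
  inv : ∀ ω p, m ω (m ω p) = p
  sym : ∀ ω p, π p.1 * π p.2 * r ω p = π (m ω p).1 * π (m ω p).2 * r ω (m ω p)
  r0 : ∀ ω p, 0 ≤ r ω p
  r1 : ∀ p, ∑ ω, r ω p ≤ 1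
  gap : ∀ φ ψ : α → ℝ, ∑ x, π x * φ x = 0 → 2 * (γ * ∑ x, π x * φ x ^ 2) ≤
    ∑ ω, ∑ p, π p.1 * π p.2 * (r ω p * (φ (m ω p).1 + ψ (m ω p).2 - φ p.1 - ψ p.2) ^ 2)

/-- a move on two members of the population -/
def lift (i j : ι) (m : α × α → α × α) (σ : ι → α) : ι → α :=
  update (update σ i (m (σ i, σ j)).1) j (m (σ i, σ j)).2

variable {π : α → ℝ} {m : κ → α × α → α × α} {r : κ → α × α → ℝ} {γ : ℝ}

omit [Fintype α] in
lemma prod_update (π : α → ℝ) (σ : ι → α) (l : ι) (x : α) :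
    (∏ k, π (update σ l x k)) * π (σ l) = (∏ k, π (σ k)) * π x := by
  simp only [apply_update (fun _ => π) σ l x]
  rw [Finset.prod_update_of_mem (mem_univ l), ← Finset.mul_prod_erase _ (fun k => π (σ k)) (mem_univ l),
    Finset.sdiff_singleton_eq_erase]
  ring

lemma swap_sum (π : α → ℝ) (l : ι) (F : (ι → α) → α → ℝ) :
    ∑ σ : ι → α, ∑ x, (∏ k, π (σ k)) * π x * F σ x =
      ∑ σ : ι → α, ∑ x, (∏ k, π (σ k)) * π x * F (update σ l x) (σ l) := by
  have := (Involutive.bijective (f := fun p : (ι → α) × α => (update p.1 l p.2, p.1 l)) fun p => by simp).sum_comp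
    fun p => (∏ k, π (p.1 k)) * π p.2 * F p.1 p.2
  simp only [prod_update, Fintype.sum_prod_type] at this
  exact this.symm

lemma disint (h : ∑ x, π x = 1) (l : ι) (F : (ι → α) → ℝ) :
    ∑ σ : ι → α, (∏ k, π (σ k)) * F σ = ∑ σ : ι → α, (∏ k, π (σ k)) * ∑ x, π x * F (update σ l x) := by
  have := swap_sum π l fun σ _ => F σ
  simp only [mul_assoc, ← Finset.mul_sum, ← Finset.sum_mul, h, one_mul] at this
  exact this

/-- product weights -/
def pw (ι : Type) [Fintype ι] {π : α → ℝ} (h : ∀ x, 0 < π x) : Pw (ι → α) :=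
  ⟨fun σ => ∏ k, π (σ k), fun _ => Finset.prod_pos fun _ _ => h _⟩

/-- resampling of one member -/
def Eop (h : ∀ x, 0 < π x) (l : ι) : WF (pw ι h) →ₗ[ℝ] WF (pw ι h) where
  toFun u σ := ∑ x, π x * u (update σ l x)
  map_add' u v := funext fun σ => by
    change ∑ x, π x * (u _ + v _) = ∑ x, _ + ∑ x, _
    simp only [mul_add, Finset.sum_add_distrib]
  map_smul' c u := funext fun σ => by
    change ∑ x, π x * (c * u _) = c * ∑ x, _
    simp only [Finset.mul_sum, mul_left_comm c]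

lemma Mv.lad (h : Mv π m r γ) : Lad (Eop h.pos) (fun i j : ι => Lop (pw ι h.pos) (fun ω => lift i j (m ω))
    fun ω σ => r ω (σ i, σ j)) γ := by
  have l1 : ∀ {i j : ι}, i ≠ j → ∀ ω σ, (lift i j (m ω) σ i, lift i j (m ω) σ j) = m ω (σ i, σ j) :=
    fun ij ω σ => by simp [lift, ij]
  have inv : ∀ {i j : ι}, i ≠ j → ∀ ω σ, lift i j (m ω) (lift i j (m ω) σ) = σ := fun {i j} ij ω σ => by
    rw [lift, l1 ij, h.inv, lift, update_comm ij, update_idem, update_comm ij.symm, update_idem]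
    simp
  have sym : ∀ {i j : ι}, i ≠ j → ∀ ω σ, (pw ι h.pos).p σ * r ω (σ i, σ j) = (pw ι h.pos).p (lift i j (m ω) σ) *
      r ω (lift i j (m ω) σ i, lift i j (m ω) σ j) := fun {i j} ij ω σ => by
    have a := prod_update π σ i (m ω (σ i, σ j)).1
    have b := prod_update π (update σ i (m ω (σ i, σ j)).1) j (m ω (σ i, σ j)).2
    rw [update_of_ne ij.symm] at b
    rw [l1 ij]
    refine mul_right_cancel₀ (mul_pos (h.pos (σ i)) (h.pos (σ j))).ne' ?_
    simp only [pw, lift]
    linear_combination (∏ k, π (σ k)) * h.sym ω (σ i, σ j) - (r ω (m ω (σ i, σ j)) * π (σ i)) * b -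
      (r ω (m ω (σ i, σ j)) * π (m ω (σ i, σ j)).2) * a
  have D := fun {i j : ι} (ij : i ≠ j) => Lop_inner (pw ι h.pos) (inv ij) (sym ij)
  have p0 := (pw ι h.pos).pos
  have fx : ∀ l (u : WF (pw ι h.pos)), Eop h.pos l u = u → ∀ σ x, u (update σ l x) = u σ := fun l u e σ x => by
    rw [← e]
    change ∑ y, π y * u (update (update σ l x) l y) = ∑ y, π y * u (update σ l y)
    simp only [update_idem]
  refine ⟨fun l u v => ?_, fun l u => funext fun σ => ?_, fun l k u => funext fun σ => ?_, fun i j ij u v => ?_,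
    fun i j ij u => ?_, fun i j ij u => ?_, fun i j ij l u li lj => funext fun σ => ?_,
    fun i j ij u a b => funext fun σ => ?_, fun i j ij u v a b c => ?_⟩
  · change ∑ σ : ι → α, (∏ k, π (σ k)) * ((∑ x, π x * u (update σ l x)) * v σ) =
      ∑ σ : ι → α, (∏ k, π (σ k)) * (u σ * ∑ x, π x * v (update σ l x))
    have := swap_sum π l fun σ x => u (update σ l x) * v σ
    simp only [update_idem, update_eq_self] at this
    simp only [Finset.mul_sum, Finset.sum_mul]
    refine Eq.trans ?_ (this.trans ?_) <;> exact sum_congr rfl fun _ _ => sum_congr rfl fun _ _ => by ring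
  · change ∑ x, π x * ∑ y, π y * u (update (update σ l x) l y) = ∑ y, π y * u (update σ l y)
    simp only [update_idem, ← Finset.sum_mul, h.one, one_mul]
  · change ∑ x, π x * ∑ y, π y * u (update (update σ l x) k y) = ∑ y, π y * ∑ x, π x * u (update (update σ k y) l x)
    rcases eq_or_ne l k with rfl | e
    · rfl
    simp only [Finset.mul_sum, update_comm e]
    rw [Finset.sum_comm]
    simp only [mul_left_comm]
  · refine mul_left_cancel₀ two_ne_zero ?_
    rw [real_inner_comm, D ij, D ij]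
    simp only [mul_comm]
  · refine nonneg_of_mul_nonneg_right ?_ two_pos |> fun x => x
    rw [D ij]
    exact sum_nonneg fun _ _ => sum_nonneg fun _ _ => mul_nonneg (p0 _).le (mul_nonneg (h.r0 _ _) (mul_self_nonneg _))
  · refine le_of_mul_le_mul_left ?_ two_pos
    rw [D ij, WF.norm_sq]
    calc _ ≤ ∑ ω, ∑ σ, (2 * ((pw ι h.pos).p σ * r ω (σ i, σ j) * u σ ^ 2) + 2 * ((pw ι h.pos).p (lift i j (m ω) σ) *
            r ω (lift i j (m ω) σ i, lift i j (m ω) σ j) * u (lift i j (m ω) σ) ^ 2)) :=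
          sum_le_sum fun ω _ => sum_le_sum fun σ _ => by
            rw [← sym ij]
            have := mul_nonneg (mul_nonneg (p0 σ).le (h.r0 ω (σ i, σ j))) (sq_nonneg (u σ + u (lift i j (m ω) σ)))
            linarith
      _ = ∑ σ, 4 * ((pw ι h.pos).p σ * u σ ^ 2) * ∑ ω, r ω (σ i, σ j) := by
          simp only [Finset.sum_add_distrib, fun ω => (Involutive.bijective (inv ij ω)).sum_comp
            fun σ => 2 * ((pw ι h.pos).p σ * r ω (σ i, σ j) * u σ ^ 2)]
          rw [Finset.sum_comm, ← Finset.sum_add_distrib]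
          refine sum_congr rfl fun _ _ => ?_
          rw [← Finset.sum_add_distrib, Finset.mul_sum]
          exact sum_congr rfl fun _ _ => by ring
      _ ≤ _ := by
          rw [← mul_assoc, Finset.mul_sum]
          exact sum_le_sum fun σ _ => (mul_le_of_le_one_right (by have := p0 σ; positivity) (h.r1 _)).trans_eq
            (by ring)
  · change ∑ x, π x * ∑ ω, r ω (update σ l x i, update σ l x j) * (u _ - u (lift i j (m ω) (update σ l x))) =
      ∑ ω, r ω (σ i, σ j) * (∑ x, π x * u (update σ l x) - ∑ x, π x * u (update (lift i j (m ω) σ) l x))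
    simp only [lift, update_of_ne li.symm, update_of_ne lj.symm, update_comm li, update_comm lj, Finset.mul_sum,
      ← Finset.sum_sub_distrib]
    rw [Finset.sum_comm]
    exact sum_congr rfl fun _ _ => sum_congr rfl fun _ _ => by ring
  · exact Finset.sum_eq_zero fun ω _ => by simp only [lift, fx j u b, fx i u a, sub_self, mul_zero]
  · refine le_of_mul_le_mul_left ?_ two_pos
    rw [D ij, WF.norm_sq, Finset.sum_comm]
    simp only [← Finset.mul_sum]
    change 2 * (γ * ∑ σ : ι → α, (∏ k, π (σ k)) * _) ≤ ∑ σ : ι → α, (∏ k, π (σ k)) * _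
    rw [disint h.one i]
    conv_rhs => rw [disint h.one j, disint h.one i]
    rw [Finset.mul_sum, Finset.mul_sum]
    refine sum_le_sum fun σ _ => ?_
    rw [mul_left_comm γ, mul_left_comm]
    refine mul_le_mul_of_nonneg_left ((h.gap (fun x => u (update σ i x)) (fun y => v (update σ j y))
      (congrFun a σ)).trans_eq ?_) (p0 σ).le
    rw [Finset.sum_comm, Fintype.sum_prod_type]
    refine sum_congr rfl fun x _ => ?_
    rw [Finset.mul_sum]
    refine sum_congr rfl fun y _ => ?_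
    rw [← mul_assoc, Finset.mul_sum]
    refine sum_congr rfl fun ω _ => ?_
    have e : ∀ x y, (u + v) (update (update σ i x) j y) = u (update σ i x) + v (update σ j y) := fun x y => by
      change u _ + v _ = _
      rw [fx j u b, update_comm ij, fx i v c]
    have e' : lift i j (m ω) (update (update σ i x) j y) = update (update σ i (m ω (x, y)).1) j (m ω (x, y)).2 := by
      rw [lift, update_of_ne ij, update_self, update_self, ← update_comm ij, update_idem, update_idem]
    rw [e', e, e, update_of_ne ij, update_self, update_self]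
    ring

theorem Mv.mix (h : Mv π m r γ) (hγ : 0 ≤ γ) (hγ1 : γ ≤ 1) {M : ℝ} (M0 : 0 < M)
    (hM : 2 * (Fintype.card ι : ℝ) ^ 2 ≤ M) {D : ℕ} (hD : 2304 * D ≤ γ ^ 2 * Fintype.card ι) {ν : α → ℝ}
    (n1 : ∑ x, ν x = 1) {ε : ℝ} (n2 : ∑ x, ν x ^ 2 / π x ≤ 1 + ε) {A : ℝ} (A0 : 0 ≤ A)
    (hA : (1 + 4 * ε) ^ Fintype.card ι ≤ A ^ 2) {K : ((ι → α) → ℝ) → (ι → α) → ℝ}
    (hK : ∀ F σ, K F σ = F σ - M⁻¹ * ∑ p ∈ (univ : Finset ι).offDiag, ∑ ω,
      r ω (σ p.1, σ p.2) * (F σ - F (lift p.1 p.2 (m ω) σ))) (t : ℕ) {F : (ι → α) → ℝ} (hF : ∀ σ, |F σ| ≤ 1) :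
    ∑ σ : ι → α, (∏ k, ν (σ k)) * K^[t] F σ ≤ ∑ σ : ι → α, (∏ k, π (σ k)) * F σ +
      A * ((1 - γ * Fintype.card ι / M / 4) ^ t + (2 * t + 2) / 2 ^ D) := by
  have p0 := h.pos
  have l := h.lad (ι := ι)
  obtain ⟨T, hT⟩ : ∃ T, T = TT (fun i j : ι => Lop (pw ι h.pos) (fun ω => lift i j (m ω))
    fun ω σ => r ω (σ i, σ j)) M := ⟨_, rfl⟩
  have e : ∀ F : WF (pw ι h.pos), T F = K F := fun F => funext fun σ => by
    refine Eq.trans ?_ (hK F σ).symm
    rw [hT, TT, LinearMap.sub_apply, LinearMap.smul_apply, LinearMap.sum_apply]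
    exact congrArg (fun x => F σ - M⁻¹ * x) (WF.sum_apply _ _ _ σ)
  have sa : ∀ t (u v : WF (pw ι h.pos)), ⟪T^[t] u, v⟫ = ⟪u, T^[t] v⟫ := fun t => by
    induction t with
    | zero => exact fun _ _ => rfl
    | succ t ih => intro u v; rw [iterate_succ_apply, iterate_succ_apply', ih, hT, l.TT_sa]
  obtain ⟨φ, hφ⟩ : ∃ φ : α → ℝ, ∀ x, ν x = π x * (1 + φ x) :=
    ⟨fun x => ν x / π x - 1, fun x => by have := (p0 x).ne'; field_simp; ring⟩
  have f1 : ∑ x, π x * φ x = 0 := by
    simp only [hφ, mul_add, mul_one, Finset.sum_add_distrib, h.one] at n1; linarith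
  have f2 : ∑ x, π x * φ x ^ 2 ≤ ε := by
    rw [sum_congr rfl (g := fun x => π x + 2 * (π x * φ x) + π x * φ x ^ 2) fun x _ => by
      have := (p0 x).ne'; rw [hφ]; field_simp; ring] at n2
    simp only [Finset.sum_add_distrib, ← Finset.mul_sum, h.one, f1] at n2
    linarith
  have f0 : 0 ≤ ∑ x, π x * φ x ^ 2 := sum_nonneg fun x _ => mul_nonneg (p0 x).le (sq_nonneg _)
  obtain ⟨c, hc⟩ : ∃ c : Finset ι → WF (pw ι h.pos), ∀ S σ, c S σ = if S = ∅ then 0 else ∏ k ∈ S, φ (σ k) :=
    ⟨fun S σ => _, fun _ _ => rfl⟩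
  have c1 : ∀ S, Pure (Eop h.pos) S (c S) := fun S k => funext fun σ => by
    change ∑ x, π x * c S (update σ k x) = _
    split_ifs with e
    · simp only [hc, if_neg (Finset.ne_empty_of_mem e), ← Finset.mul_prod_erase _ _ e, update_self, ← mul_assoc]
      rw [sum_congr rfl fun x _ => congrArg _ (prod_congr rfl fun k hk => by
        rw [update_of_ne (Finset.ne_of_mem_erase hk)]), ← Finset.sum_mul, f1, zero_mul]
      rfl
    · rw [sum_congr rfl fun x _ => congrArg _ (show c S (update σ k x) = c S σ by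
        rw [hc, hc, prod_congr rfl fun l hl => by rw [update_of_ne (ne_of_mem_of_not_mem hl e)]]), ← Finset.sum_mul, h.one,
        one_mul]
  have c2 : ∀ S, ‖c S‖ ^ 2 ≤ ε ^ S.card := fun S => by
    rw [WF.norm_sq]
    by_cases e : S = ∅
    · simp [hc, e]
    simp only [hc, if_neg e, pw]
    rw [sum_congr rfl (g := fun σ => ∏ k, π (σ k) * if k ∈ S then φ (σ k) ^ 2 else 1) fun σ _ => by
      rw [Finset.prod_mul_distrib, Finset.prod_ite_mem, Finset.univ_inter, Finset.prod_pow],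
      ← Fintype.piFinset_univ, ← Finset.prod_univ_sum (fun _ => univ) fun k x => π x * if k ∈ S then φ x ^ 2 else 1,
      prod_congr rfl (g := fun k => if k ∈ S then ∑ x, π x * φ x ^ 2 else 1) fun k _ => by
        split_ifs <;> simp [h.one], Finset.prod_ite_mem, Finset.univ_inter, Finset.prod_const]
    exact pow_le_pow_left₀ f0 f2 _
  have c3 := l.ladder c1 M0 hM hγ hγ1 hD (funext fun σ => by rw [hc, if_pos rfl]; rfl) A0 (le_trans (by
    rw [← Finset.card_univ, ← Finset.prod_const, Finset.prod_one_add, Finset.powerset_univ]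
    exact sum_le_sum fun S _ => by
      rw [Finset.prod_const, mul_pow]
      exact mul_le_mul_of_nonneg_left (c2 S) (by positivity)) hA) t
  have c4 : ∀ σ, (∑ S, c S) σ = ∏ k, (1 + φ (σ k)) - 1 := fun σ => by
    rw [WF.sum_apply, Finset.prod_one_add, Finset.powerset_univ, ← Finset.add_sum_erase _ _ (mem_univ ∅),
      ← Finset.add_sum_erase _ (fun S => ∏ k ∈ S, φ (σ k)) (mem_univ ∅), hc, if_pos rfl, Finset.prod_empty,
      sum_congr rfl fun S hS => (hc S σ).trans (if_neg (Finset.ne_of_mem_erase hS))]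
    ring
  obtain ⟨o, ho⟩ : ∃ o : WF (pw ι h.pos), ∀ σ, o σ = 1 := ⟨fun _ => 1, fun _ => rfl⟩
  have o1 : T^[t] o = o := iterate_fixed (funext fun σ => ((congrFun (e o) σ).trans (hK o σ)).trans (by simp [ho])) t
  obtain ⟨G, hG⟩ : ∃ G : WF (pw ι h.pos), G = F := ⟨F, rfl⟩
  have g1 : ‖G‖ ≤ 1 := by
    refine abs_le_of_sq_le_sq' ?_ zero_le_one |>.2
    rw [WF.norm_sq]
    refine (sum_le_sum fun σ _ => mul_le_of_le_one_right ((pw ι h.pos).pos σ).le
      ((sq_le_one_iff_abs_le_one _).2 (hG ▸ hF σ))).trans_eq ?_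
    simp only [pw]
    rw [← Fintype.piFinset_univ, ← Finset.prod_univ_sum (fun _ => univ) fun _ x => π x]
    simp [h.one]
  have g2 := sa t o G
  have g3 := (sa t (∑ S, c S) G).symm.trans_le ((real_inner_le_norm _ _).trans
    (mul_le_mul (hT ▸ c3) g1 (norm_nonneg _) ((norm_nonneg _).trans c3)))
  rw [o1, WF.inner_eq, WF.inner_eq] at g2
  rw [WF.inner_eq, sum_congr rfl fun σ _ => by rw [c4], show (T : _ → _) = K from funext e] at g3
  rw [show (T : _ → _) = K from funext e] at g2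
  subst hG
  simp only [ho, one_mul, pw, sub_mul, mul_sub, Finset.sum_sub_distrib, mul_one] at g2 g3
  simp only [hφ, Finset.prod_mul_distrib, mul_assoc]
  exact (sub_le_iff_le_add'.1 g3).trans_eq (congrArg (· + _) g2.symm)

end Vale.Agent.P308
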