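import Vale.Agent.P308.Env

namespace Vale.Agent.P308

open Finset

variable {V : Type} [DecidableEq V] [Fintype V]

lemma abs_tri {x y z s t : ℝ} (h1 : |y - x| ≤ s) (h2 : |z - y| ≤ t) : |z - x| ≤ s + t := by
  rw [abs_le] at *
  constructor <;> linarith [h1.1, h1.2, h2.1, h2.2]

lemma Env.o_step (E : Env V) {I F : PM V} {v : ℕ → V} {i j : ℕ}
    (ihO : ∀ I F v i' j', j' - i' < j - i → E.OSt I F v i' j')
    (ihE : ∀ I F v i' j', j' - i' < j - i → E.ESt I F v i' j') : E.OSt I F v i j := by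
  intro T h e hij hN D1 D2 P Q h0 hP hQ
  have g := E.gd
  have w0 := wt_pos g.ha
  have xy : v (i + 1) ≠ v j := h.ne le_rfl hij (by omega) (by omega) (by omega)
  have hq := g.q_ge xy
  obtain ⟨r1, r2, r3⟩ := rr_ge E.q E.N
  obtain ⟨l1, l2⟩ := LL_ge hq E.N
  have iI : I (v (i + 1)) = v i := PM.rev (h.hI i le_rfl hij.le (by omega))
  have jI : I (v j) = v (j + 1) := h.hI j hij.le le_rfl (by omega)
  have n1 : v (i + 1) ≠ v (j + 1) := h.ne le_rfl hij (by omega) (by omega) (by omega)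
  have n2 : v j ≠ v i := h.ne hij le_rfl (by omega) (by omega) (by omega)
  have n3 : v (i + 1) ≠ v i := h.ne le_rfl hij (by omega) (by omega) (by omega)
  have c1 := cj_eq iI jI xy
  have w1 := wt_cj g.hs iI jI xy n1
  have ok := E.m1 _ _ _ (v i) (v j) T.1
  generalize cj (v i) (v j) I = I' at c1 w1 ok
  have p0 : I' (v (i + 1)) = v j := by rw [c1, if_pos rfl]
  have p1 : ∀ k, i + 1 < k → k < j → I' (v k) = I (v k) := fun k a b => by
    rw [c1, if_neg (h.ne a.le b.le (by omega) (by omega) (by omega)),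
      if_neg (h.ne a.le b.le (by omega) (by omega) (by omega)),
      if_neg (h.ne a.le b.le (by omega) (by omega) (by omega)),
      if_neg (h.ne a.le b.le (by omega) (by omega) (by omega))]
  have o := orb_odd h e hij p0 p1 fun _ _ _ => rfl
  have w2 : E.W ≤ LL E.q E.N ^ 2 * (wt E.a I' * wt E.a F) := by
    have n4 : v i ≠ v (j + 1) := fun c => xy (by rw [← h.hI i le_rfl hij.le (by omega), c, PM.rev jI])
    have a1 := mul_le_mul (g.lo xy) (g.lo n4) zero_le_one (zero_le_one.trans (g.lo xy))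
    have a2 := mul_le_mul (g.up (v (i + 1)) (v i)) (g.up (v j) (v (j + 1)))
      (mul_nonneg (g.nonneg _ _) (sq_nonneg _)) zero_le_one
    have a3 := mul_le_mul_of_nonneg_left D1 (show 0 ≤ E.q ^ 2 * (E.a (v (i + 1)) (v j) ^ 2 *
      E.a (v i) (v (j + 1)) ^ 2) by positivity)
    have a4 := rp_aux (H := nn E.a (v (i + 1)) (v i) * nn E.a (v j) (v (j + 1))) (M := 1)
      (N := (E.q * rr E.q E.N) ^ 2) (w0 I).le (w0 I').le w1 (by linarith) (by linarith) (sq_nonneg _)
    have a5 := mul_le_mul_of_nonneg_right (pow_le_pow_left₀ (by positivity) l1 2) (w0 I').le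
    refine T.2.2.trans ?_
    rw [← mul_assoc]
    exact mul_le_mul_of_nonneg_right (by linarith) (w0 F).le
  have up := @E.up
  have w3 := up (k := 0) hq (by omega) (mul_pos (w0 I') (w0 F)).le w2 (by simp)
  have f1 := E.fl I' F (v (i + 1)) (E.mono ok (by omega)) w3
  have s1 := os1 o
  have s2 := os2 o
  have s3 := wt_os (a := E.a) (v (i + 1)) (I', F)
  have ok' := E.m3 _ _ _ (v (i + 1)) ok
  rw [o] at f1
  generalize (os (v (i + 1)) (I', F)).1 = X at *
  generalize (os (v (i + 1)) (I', F)).2 = Y at *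
  suffices s : |E.f X - E.f I'| ≤ (4 * ((j : ℝ) - i - 1) - 1) * E.β by
    rw [E.g_congr _ Q F fun u hu => by obtain ⟨k, a, b, rfl⟩ := mem_arc.1 hu; exact hQ k a b,
      E.g_congr _ P I' fun u hu => by
        obtain ⟨k, a, b, rfl⟩ := mem_arc.1 hu
        rcases a.eq_or_lt with rfl | a
        · rw [h0, p0]
        rcases b.eq_or_lt with rfl | b
        · rw [PM.rev h0, PM.rev p0]
        rw [hP k a b, p1 k a b]]
    rw [abs_le] at *
    constructor <;> linarith [s.1, s.2, f1.1, f1.2]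
  obtain ⟨H, k, k1, k2, C, t1, -, t2, -, t3, t4⟩ := g.centre (by omega) hN xy n3.symm n2.symm n3.symm n2.symm
    D2 D2 D2 D2
  have df := @C.df _ _ _ _ _ _ g E.N
  have t3' := t3.trans (mul_le_mul_of_nonneg_right (show _ ≤ 2 * rr E.q E.N by linarith) (g.nonneg _ _))
  have t4' := t4.trans (mul_le_mul_of_nonneg_right r2 (g.nonneg _ _))
  have t5 := t4
  rw [mul_comm, g.symm] at t5
  have hβ := E.hβ
  have mem := @h.mem
  by_cases pk : (k + i) % 2 = 0
  · have kI : I' (v k) = v (k + 1) := (p1 k (by omega) k2).trans (h.hI k (by omega) k2.le pk)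
    have m1 : v (i + 1) ≠ v k := h.ne le_rfl hij (by omega) (by omega) (by omega)
    have m2 : v j ≠ v (k + 1) := h.ne hij le_rfl (by omega) (by omega) (by omega)
    have c2 := cj_eq p0 kI m1
    have w4 := C.rp2 g (by linarith) (w0 _).le (w0 _).le t3' t4' m1 m2 (by ring)
      (wt_cj g.hs p0 kI m1 (h.ne le_rfl hij (by omega) (by omega) (by omega)))
    have w5 := up (k := 2) hq (by omega) (mul_pos (w0 _) (w0 F)).le w2
      ((mul_le_mul_of_nonneg_right w4 (w0 F).le).trans_eq (mul_assoc _ _ _))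
    have b1 := E.sw I' F (v j) (v k) (E.mono ok (by omega)) w3 w5
    have ok1 := E.m1 _ _ _ (v j) (v k) ok
    generalize cj (v j) (v k) I' = P₁ at *
    have q0 : P₁ (v (i + 1)) = v k := by rw [c2, if_pos rfl]
    have q1 : ∀ l, i + 1 < l → l < j → l ≠ k → l ≠ k + 1 → P₁ (v l) = I (v l) := fun l a b c d => by
      rw [c2, if_neg (h.ne a.le b.le (by omega) (by omega) (by omega)),
        if_neg (h.ne a.le b.le (by omega) (by omega) (by omega)),
        if_neg (h.ne a.le b.le (by omega) (by omega) (by omega)),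
        if_neg (h.ne a.le b.le (by omega) (by omega) (by omega)), p1 l a b]
    have hl := h.sub le_rfl k2.le (by omega)
    have hr := h.sub (show i ≤ k by omega) le_rfl pk
    have q2 : ∀ l, i + 1 < l → l < k → P₁ (v l) = I (v l) := fun l a b => q1 l a (by omega) b.ne (by omega)
    have o1 := orb_odd hl (by omega) (by omega) q0 q2 fun _ _ _ => rfl
    have b2 := E.flip ok1 o1 w5 (ihO I F v i k (by omega) T hl (by omega) (by omega) (by omega)
      (df t1 t4 (by ring)) (df t1 t4 (by ring)) _ _ q0 q2 fun _ _ _ => rfl)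
    have s4 := os1 o1
    have s5 := os2 o1
    rw [← wt_os (v (i + 1)) (P₁, F)] at w5
    have ok2 := E.m3 _ _ _ (v (i + 1)) ok1
    generalize (os (v (i + 1)) (P₁, F)).1 = P₂ at *
    generalize (os (v (i + 1)) (P₁, F)).2 = F₂ at *
    have q3 : P₂ (v (k + 1)) = v j := by
      rw [s4, if_neg (by rw [mem] <;> omega), c2,
        if_neg (h.ne (by omega) k2 (by omega) (by omega) (by omega)),
        if_neg (h.ne (by omega) k2 (by omega) (by omega) (by omega)), if_neg m2.symm, if_pos rfl]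
    have q4 : ∀ l, k + 1 < l → l < j → P₂ (v l) = I (v l) := fun l a b => by
      rw [s4, if_neg (by rw [mem] <;> omega), q1 l (by omega) b (by omega) a.ne']
    have q5 : ∀ l, k + 1 ≤ l → l ≤ j → F₂ (v l) = F (v l) := fun l a b => by
      rw [s5, if_neg (by rw [mem] <;> omega)]
    have o2 := orb_odd hr (by omega) k2 q3 q4 q5
    have b3 := E.flip ok2 o2 w5 (ihO I F v k j (by omega) T hr (by omega) k2 hN
      ((df t2 t5 (by ring)).trans_eq (by ring)) ((df t2 t5 (by ring)).trans_eq (by ring)) _ _ q3 q4 q5)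
    have eq : (os (v (k + 1)) (P₂, F₂)).1 = X := PM.ext fun u => by
      rw [os1 o2, s1, s4, s5]
      by_cases hu : u ∈ arc v (i + 1) j
      · obtain ⟨l, a, b, rfl⟩ := mem_arc.1 hu
        rw [if_pos hu]
        by_cases c : l ≤ k
        · rw [if_neg (by rw [mem] <;> omega), if_pos (arc_mem a c)]
        · rw [if_pos (arc_mem (by omega) b), if_neg (by rw [mem] <;> omega)]
      · have : ∀ l, i + 1 ≤ l → l ≤ j → u ≠ v l := fun l a b c => hu (c ▸ arc_mem a b)
        rw [if_neg hu, if_neg, if_neg, c2, if_neg (this _ le_rfl hij), if_neg (this _ k1 k2.le),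
          if_neg (this _ hij le_rfl), if_neg (this _ (by omega) k2)]
        all_goals
          intro c
          obtain ⟨l, a, b, rfl⟩ := mem_arc.1 c
          exact this l (by omega) (by omega) rfl
    rw [eq] at b3
    exact (abs_tri (abs_tri b1 b2) b3).trans_eq (by ring)
  · have kF := h.hF k (by omega) k2.le (by omega)
    have hl := h.sub le_rfl k2.le (by omega)
    have hr := h.sub' (show i ≤ k by omega) le_rfl (by omega)
    have cl : Cx I F I' F v i k (v j) (v (k + 1)) :=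
      ⟨fun l a b => p1 l a (by omega), fun _ _ _ => rfl, p0, kF, by rw [mem] <;> omega, by rw [mem] <;> omega⟩
    have bl := ihE I F v i k (by omega) T hl (by omega) k1 (by omega) _ _ _ _ cl (E.m0 _ _ _ ok) w2
      (df t1 t4 (by ring)) (df t1 t4 (by ring)) (df t3 t4 (by ring)) (df t3 t4 (by ring))
    have kj : (k : ℝ) + 1 ≤ j := by exact_mod_cast k2
    have out : ∀ u, u ∉ arc v (i + 1) k → u ∉ arc v (k + 1) j → u ∉ arc v (i + 1) j := fun u a b c => by
      obtain ⟨l, c, d, rfl⟩ := mem_arc.1 c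
      rw [mem] at a b <;> omega
    rcases Nat.eq_or_lt_of_le k2 with rfl | k3
    · refine (bl X ⟨fun l a b => ?_, ?_, fun u a b => ?_⟩).trans (by push_cast; nlinarith)
      · rw [s1, if_pos (arc_mem a (by omega))]
      · rw [s1, if_pos (arc_mem k1 (by omega)), kF]
      · rw [s1, if_neg (out u a fun c => ?_)]
        obtain ⟨l, c, d, rfl⟩ := mem_arc.1 c
        exact b (by rw [show l = k + 1 by omega])
    obtain ⟨P₁, sp⟩ : ∃ P₁, Sp F I' P₁ v i k (v j) :=
      ⟨_, (hy_spec g.hs g.ha hl (by omega) k1 cl (h.ne hij le_rfl (by omega) (by omega) (by omega)) rfl).1⟩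
    have t2' := t3
    rw [mul_comm, g.symm] at t2'
    have br := ihE F I v k j (by omega) T.symm hr (by omega) k2 hN X Y (v k) (v (i + 1))
      ⟨fun l a b => by rw [s1, if_pos (arc_mem (by omega) b)],
        fun l a b => by rw [s2, if_pos (arc_mem (by omega) b.le), p1 l (by omega) b],
        by rw [s1, if_pos (arc_mem (by omega) k2), PM.rev kF],
        by rw [s2, if_pos (arc_mem hij le_rfl), PM.rev p0], by rw [mem] <;> omega, by rw [mem] <;> omega⟩
      ok' (s3 ▸ w2) ((df t2 t5 (by ring)).trans_eq (by ring)) ((df t2' t5 (by ring)).trans_eq (by ring))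
      ((df t2 t5 (by ring)).trans_eq (by ring)) ((df t2' t5 (by ring)).trans_eq (by ring)) P₁
      ⟨fun l a b => by
        rw [sp.h3 _ (by rw [mem] <;> omega) (h.ne (by omega) b.le (by omega) (by omega) b.ne), p1 l (by omega) b],
        PM.rev sp.h2, fun u a b => by
          by_cases c : u ∈ arc v (i + 1) k
          · obtain ⟨l, c', d, rfl⟩ := mem_arc.1 c
            rw [sp.h1 l c' (d.lt_of_ne fun x => b (by rw [x])), s1, if_pos (arc_mem c' (by omega))]
          · rw [sp.h3 u c fun x => a (x ▸ arc_mem k2 le_rfl), s1, if_neg (out u c a)]⟩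
    rw [abs_sub_comm] at br
    exact (abs_tri (bl _ sp) br).trans (by nlinarith)

lemma Env.e_I (E : Env V) {I F P Q X : PM V} {v : ℕ → V} {i j k : ℕ} {z z' : V} {H : V → ℝ}
    (ihO : ∀ I F v i' j', j' - i' < j - i → E.OSt I F v i' j')
    (ihE : ∀ I F v i' j', j' - i' < j - i → E.ESt I F v i' j') (T : E.Top I F) (h : Wk I F v i j)
    (e : (i + j) % 2 = 1) (hij : i < j) (hN : j ≤ E.N) (c : Cx I F P Q v i j z z') (ok : E.Ok 5 P Q)
    (w2 : E.W ≤ LL E.q E.N ^ 2 * (wt E.a P * wt E.a Q)) (sp : Sp F P X v i j z) (k1 : i + 1 ≤ k) (k2 : k < j)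
    (C : Ctr E.a (kk E.q) H) (t1 : H (v (i + 1)) * H (v i) ≤ (1 + rr E.q E.N) * nn E.a (v (i + 1)) (v i))
    (t2 : H (v (i + 1)) * H z ≤ (1 + rr E.q E.N) * nn E.a (v (i + 1)) z)
    (t3 : H (v j) * H (v (j + 1)) ≤ (1 + rr E.q E.N) * nn E.a (v j) (v (j + 1)))
    (t4 : H (v j) * H z' ≤ (1 + rr E.q E.N) * nn E.a (v j) z')
    (t5 : H (v k) * H (v (k + 1)) ≤ kk E.q * E.N * nn E.a (v k) (v (k + 1))) (pk : (k + i) % 2 = 0) :
    |E.f X - E.f P| ≤ 4 * ((j : ℝ) - i - 1) * E.β := by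
  have g := E.gd
  have w0 := wt_pos g.ha
  have xy : v (i + 1) ≠ v j := h.ne le_rfl hij (by omega) (by omega) (by omega)
  have hq := g.q_ge xy
  obtain ⟨r1, r2, r3⟩ := rr_ge E.q E.N
  have nz : ∀ l, i + 1 ≤ l → l ≤ j → v l ≠ z := fun l a b x => c.nz (x ▸ arc_mem a b)
  have nz' : ∀ l, i + 1 ≤ l → l ≤ j → v l ≠ z' := fun l a b x => c.nz' (x ▸ arc_mem a b)
  have df := @C.df _ _ _ _ _ _ g E.N
  have t2' := t2.trans (mul_le_mul_of_nonneg_right (show _ ≤ 2 * rr E.q E.N by linarith) (g.nonneg _ _))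
  have t4' := t4.trans (mul_le_mul_of_nonneg_right (show _ ≤ 2 * rr E.q E.N by linarith) (g.nonneg _ _))
  have t5' := t5.trans (mul_le_mul_of_nonneg_right r2 (g.nonneg _ _))
  have t6 := t5
  have t6' := t5'
  rw [mul_comm, g.symm] at t6 t6'
  have hβ := E.hβ
  have mem := @h.mem
  have up := @E.up
  have k0 := zero_le_one.trans (kk_ge E.q)
  have m0 : v k ≠ v (k + 1) := h.ne k1 k2.le (by omega) (by omega) (by omega)
  have m1 : v k ≠ v j := h.ne k1 k2.le (by omega) (by omega) (by omega)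
  have a0 := g.ha
  have kI := h.hI k (by omega) k2.le pk
  have hl := h.sub le_rfl k2.le (by omega)
  have hr := h.sub (show i ≤ k by omega) le_rfl pk
  have cr : Cx I F P Q v k j (v k) z' :=
    ⟨fun l a b => c.hP l (by omega) b, fun l a b => c.hQ l (by omega) b,
      (c.hP _ (by omega) k2).trans (PM.rev kI), c.hz', by rw [mem] <;> omega, fun x => by
        obtain ⟨l, a, b, x⟩ := mem_arc.1 x
        exact nz' l (by omega) b x⟩
  obtain ⟨P₁, Q₁, hp⟩ : ∃ P₁ Q₁, hy (v (k + 1)) (v k) z' (P, Q) = (P₁, Q₁) := ⟨_, _, rfl⟩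
  obtain ⟨s1, -, -, s4, s5⟩ := hy_spec g.hs g.ha hr (by omega) k2 cr (nz' k k1 k2.le) hp
  have ok1 := E.mhy (m := 2) ok (v (k + 1)) (v k) z'
  rw [hp] at ok1
  have b1 := ihE I F v k j (by omega) T hr (by omega) k2 hN _ _ _ _ cr ok w2
    ((df t3 t6 (by ring)).trans_eq (by ring)) ((df t4 t6 (by ring)).trans_eq (by ring))
    ((df t3 t6 (by ring)).trans_eq (by ring)) ((df t4 t6 (by ring)).trans_eq (by ring)) _ s1
  have m2 : v (i + 1) ≠ v k := h.ne le_rfl hij (by omega) (by omega) (by omega)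
  have p0 : P₁ (v (i + 1)) = z := (s1.h3 _ (by rw [mem] <;> omega) m2).trans c.hz
  have p1 := PM.rev s1.h2
  have c2 := cj_eq p0 p1 m2
  have w3 := wt_cj g.hs p0 p1 m2 xy
  have w4 := up (k := 2) hq (by omega) (mul_pos (w0 _) (w0 _)).le w2 (C.rp2 g (by linarith)
    (mul_pos (w0 _) (w0 _)).le (mul_pos (w0 _) (w0 _)).le t6' t4' m1.symm (nz' _ (by omega) k2) (by ring) s5)
  have w5 := up (k := 3) hq le_rfl (mul_pos (w0 (cj z (v k) P₁)) (w0 Q₁)).le w2 (C.rp3 g (by linarith) k0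
    (mul_pos (w0 _) (w0 _)).le (mul_pos (w0 _) (w0 _)).le t6' t4' t2' (nz' _ (by omega) k2) m2
    (nz _ hij le_rfl).symm (by ring) (mul_right_cancel₀ (pow_pos (a0 (v k) (v j)) 2).ne' (by
      rw [g.hs (v j) (v k)] at s5
      linear_combination (wt E.a Q₁ * E.a (v (k + 1)) (v k) ^ 2 * E.a (v j) z' ^ 2) * w3 +
        (E.a (v (i + 1)) (v k) ^ 2 * E.a z (v j) ^ 2) * s5)))
  have b2 := E.sw P₁ Q₁ z (v k) (E.mono ok1 (by omega)) w4 w5
  have ok2 := E.m1 _ _ _ z (v k) ok1
  generalize cj z (v k) P₁ = P₂ at *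
  have q0 : P₂ (v (i + 1)) = v k := by rw [c2, if_pos rfl]
  have q1 : ∀ l, i + 1 < l → l < k → P₂ (v l) = I (v l) := fun l a b => by
    rw [c2, if_neg (h.ne a.le (by omega) (by omega) (by omega) (by omega)),
      if_neg (h.ne a.le (by omega) (by omega) (by omega) (by omega)), if_neg (nz l a.le (by omega)),
      if_neg (h.ne a.le (by omega) (by omega) (by omega) (by omega)),
      s1.h3 _ (by rw [mem] <;> omega) (h.ne a.le (by omega) (by omega) (by omega) (by omega)),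
      c.hP l a (by omega)]
  have q2 : ∀ l, i + 1 ≤ l → l ≤ k → Q₁ (v l) = F (v l) := fun l a b => by
    rw [s4 _ (by rw [mem] <;> omega) (nz' l a (by omega)), c.hQ l a (by omega)]
  have o1 := orb_odd hl (by omega) (by omega) q0 q1 q2
  have b3 := E.flip ok2 o1 w5 (ihO I F v i k (by omega) T hl (by omega) (by omega) (by omega)
    (df t1 t5 (by ring)) (df t1 t5 (by ring)) _ _ q0 q1 q2)
  have eq : Sp F P ((os (v (i + 1)) (P₂, Q₁)).1) v i j z := by
    refine ⟨fun l a b => ?_, ?_, fun u a b => ?_⟩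
    · rw [os1 o1]
      by_cases d : l ≤ k
      · rw [if_pos (arc_mem a d), q2 l a d]
      · rw [if_neg (by rw [mem] <;> omega), c2, if_neg (h.ne a b.le (by omega) (by omega) (by omega)),
          if_neg (h.ne a b.le (by omega) (by omega) (by omega)), if_neg (nz l a b.le),
          if_neg (h.ne a b.le (by omega) (by omega) (by omega)), s1.h1 l (by omega) b]
    · rw [os1 o1, if_neg (by rw [mem] <;> omega), c2, if_neg xy.symm, if_neg m1.symm, if_neg (nz _ hij le_rfl),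
        if_pos rfl]
    · have : ∀ l, i + 1 ≤ l → l ≤ j → u ≠ v l := fun l c d x => a (x ▸ arc_mem c d)
      rw [os1 o1, if_neg, c2, if_neg (this _ le_rfl hij), if_neg (this _ k1 k2.le), if_neg b,
        if_neg (this _ hij le_rfl), s1.h3 _ _ (this _ k1 k2.le)]
      all_goals
        intro c
        obtain ⟨l, a, b, rfl⟩ := mem_arc.1 c
        exact this l (by omega) (by omega) rfl
  rw [eq.uniq sp] at b3
  exact (abs_tri (abs_tri b1 b2) b3).trans (by nlinarith)

lemma Env.e_F (E : Env V) {I F P Q X : PM V} {v : ℕ → V} {i j k : ℕ} {z z' : V} {H : V → ℝ}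
    (ihO : ∀ I F v i' j', j' - i' < j - i → E.OSt I F v i' j')
    (ihE : ∀ I F v i' j', j' - i' < j - i → E.ESt I F v i' j') (T : E.Top I F) (h : Wk I F v i j)
    (e : (i + j) % 2 = 1) (hij : i < j) (hN : j ≤ E.N) (c : Cx I F P Q v i j z z') (ok : E.Ok 5 P Q)
    (w2 : E.W ≤ LL E.q E.N ^ 2 * (wt E.a P * wt E.a Q)) (sp : Sp F P X v i j z) (k1 : i + 1 ≤ k) (k2 : k < j)
    (C : Ctr E.a (kk E.q) H) (t1 : H (v (i + 1)) * H (v i) ≤ (1 + rr E.q E.N) * nn E.a (v (i + 1)) (v i))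
    (t2 : H (v (i + 1)) * H z ≤ (1 + rr E.q E.N) * nn E.a (v (i + 1)) z)
    (t3 : H (v j) * H (v (j + 1)) ≤ (1 + rr E.q E.N) * nn E.a (v j) (v (j + 1)))
    (t4 : H (v j) * H z' ≤ (1 + rr E.q E.N) * nn E.a (v j) z')
    (t5 : H (v k) * H (v (k + 1)) ≤ kk E.q * E.N * nn E.a (v k) (v (k + 1))) (pk : ¬(k + i) % 2 = 0) :
    |E.f X - E.f P| ≤ 4 * ((j : ℝ) - i - 1) * E.β := by
  have g := E.gd
  have w0 := wt_pos g.ha
  have xy : v (i + 1) ≠ v j := h.ne le_rfl hij (by omega) (by omega) (by omega)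
  have hq := g.q_ge xy
  obtain ⟨r1, r2, r3⟩ := rr_ge E.q E.N
  have nz : ∀ l, i + 1 ≤ l → l ≤ j → v l ≠ z := fun l a b x => c.nz (x ▸ arc_mem a b)
  have nz' : ∀ l, i + 1 ≤ l → l ≤ j → v l ≠ z' := fun l a b x => c.nz' (x ▸ arc_mem a b)
  have df := @C.df _ _ _ _ _ _ g E.N
  have t2' := t2.trans (mul_le_mul_of_nonneg_right (show _ ≤ 2 * rr E.q E.N by linarith) (g.nonneg _ _))
  have t4' := t4.trans (mul_le_mul_of_nonneg_right (show _ ≤ 2 * rr E.q E.N by linarith) (g.nonneg _ _))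
  have t5' := t5.trans (mul_le_mul_of_nonneg_right r2 (g.nonneg _ _))
  have t6 := t5
  have t6' := t5'
  rw [mul_comm, g.symm] at t6 t6'
  have hβ := E.hβ
  have mem := @h.mem
  have up := @E.up
  have k0 := zero_le_one.trans (kk_ge E.q)
  have m0 : v k ≠ v (k + 1) := h.ne k1 k2.le (by omega) (by omega) (by omega)
  have m1 : v k ≠ v j := h.ne k1 k2.le (by omega) (by omega) (by omega)
  have a0 := g.ha
  have kF := h.hF k (by omega) k2.le (by omega)
  have k3 : k + 1 < j := by omega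
  have hl := h.sub le_rfl k2.le (by omega)
  have hr := h.sub' (show i ≤ k by omega) le_rfl (by omega)
  have cl : Cx I F P Q v i k z (v (k + 1)) :=
    ⟨fun l a b => c.hP l a (by omega), fun l a b => c.hQ l a (by omega), c.hz, (c.hQ k k1 k2).trans kF,
      fun x => by
        obtain ⟨l, a, b, x⟩ := mem_arc.1 x
        exact nz l a (by omega) x, by rw [mem] <;> omega⟩
  obtain ⟨P₁, Q₁, hp⟩ : ∃ P₁ Q₁, hy (v (i + 1)) z (v (k + 1)) (P, Q) = (P₁, Q₁) := ⟨_, _, rfl⟩
  obtain ⟨s1, -, s3, s4, s5⟩ := hy_spec g.hs g.ha hl (by omega) k1 cl (nz _ (by omega) k2).symm hp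
  have ok1 := E.mhy (m := 2) ok (v (i + 1)) z (v (k + 1))
  rw [hp] at ok1
  have b1 := ihE I F v i k (by omega) T hl (by omega) k1 (by omega) _ _ _ _ cl ok w2
    (df t1 t5 (by ring)) (df t1 t5 (by ring)) (df t2 t5 (by ring)) (df t2 t5 (by ring)) _ s1
  have m2 : v (k + 1) ≠ v j := h.ne (by omega) k2 (by omega) (by omega) (by omega)
  have p0 := PM.rev s3
  have p1 : Q₁ (v j) = z' := (s4 _ (by rw [mem] <;> omega) m2.symm).trans c.hz'
  have c2 := cj_eq p0 p1 m2
  have w3 := wt_cj g.hs p0 p1 m2 (nz' _ (by omega) k2)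
  have w4 : wt E.a P₁ * wt E.a (cj (v (i + 1)) (v j) Q₁) * (E.a (v (i + 1)) z ^ 2 * E.a (v k) (v (k + 1)) ^ 2 *
      E.a (v j) z' ^ 2) = wt E.a P * wt E.a Q * (E.a (v k) z ^ 2 * E.a (v (k + 1)) (v j) ^ 2 *
      E.a (v (i + 1)) z' ^ 2) := mul_right_cancel₀ (pow_pos (a0 (v (i + 1)) (v (k + 1))) 2).ne' (by
    rw [g.hs (v (k + 1)) (v (i + 1))] at w3
    linear_combination (wt E.a P₁ * E.a (v (i + 1)) z ^ 2 * E.a (v k) (v (k + 1)) ^ 2) * w3 +
      (E.a (v (k + 1)) (v j) ^ 2 * E.a (v (i + 1)) z' ^ 2) * s5)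
  have ok2 := E.m2 _ _ _ (v (i + 1)) (v j) ok1
  generalize cj (v (i + 1)) (v j) Q₁ = Q₂ at *
  have w5 := up (k := 3) hq le_rfl (mul_pos (w0 _) (w0 _)).le w2 (C.rp3 g (by linarith) k0
    (mul_pos (w0 _) (w0 _)).le (mul_pos (w0 _) (w0 _)).le t2' t5' t4' (nz _ k1 k2.le) m2
    (nz' _ le_rfl hij) (by ring) w4)
  have q0 : Q₂ (v (k + 1)) = v j := by rw [c2, if_pos rfl]
  have q1 : ∀ l, k + 1 < l → l < j → Q₂ (v l) = F (v l) := fun l a b => by
    rw [c2, if_neg (h.ne (by omega) b.le (by omega) (by omega) (by omega)),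
      if_neg (h.ne (by omega) b.le (by omega) (by omega) (by omega)),
      if_neg (h.ne (by omega) b.le (by omega) (by omega) (by omega)), if_neg (nz' l (by omega) b.le),
      s4 _ (by rw [mem] <;> omega) (h.ne (by omega) b.le (by omega) (by omega) (by omega)),
      c.hQ l (by omega) b]
  have q2 : ∀ l, k + 1 ≤ l → l ≤ j → P₁ (v l) = I (v l) := fun l a b => by
    rw [s1.h3 _ (by rw [mem] <;> omega) (nz l (by omega) b), c.hP l (by omega) b]
  have o1 := (orb_comm _ _ _).trans (orb_odd hr (by omega) k2 q0 q1 q2)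
  have b2 := E.flip ok2 o1 w5 ((abs_sub_comm _ _).trans_le (ihO F I v k j (by omega) T.symm hr (by omega) k2 hN
    ((df t3 t6 (by ring)).trans_eq (by ring)) ((df t3 t6 (by ring)).trans_eq (by ring)) _ _ q0 q1 q2))
  have s6 := os1 o1
  rw [← wt_os (v (k + 1)) (P₁, Q₂)] at w4 w5
  have ok3 := E.m3 _ _ _ (v (k + 1)) ok2
  generalize (os (v (k + 1)) (P₁, Q₂)).1 = P₂ at *
  generalize (os (v (k + 1)) (P₁, Q₂)).2 = Q₃ at *
  have q3 : P₂ (v k) = z := by rw [s6, if_neg (by rw [mem] <;> omega), s1.h2]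
  have q4 : P₂ (v (k + 1)) = v j := by rw [s6, if_pos (arc_mem le_rfl k2), q0]
  have c3 := cj_eq q3 q4 m0
  have w6 := wt_cj g.hs q3 q4 m0 m1
  have w7 := up (k := 2) hq (by omega) (mul_pos (w0 (cj z (v (k + 1)) P₂)) (w0 Q₃)).le w2 (C.rp2 g (by linarith)
    (mul_pos (w0 _) (w0 _)).le (mul_pos (w0 _) (w0 _)).le t2' t4' (nz _ hij le_rfl).symm (nz' _ le_rfl hij)
    (by ring) (mul_right_cancel₀ (mul_pos (pow_pos (a0 (v k) z) 2) (pow_pos (a0 (v (k + 1)) (v j)) 2)).ne' (by
      linear_combination (wt E.a Q₃ * E.a (v (i + 1)) z ^ 2 * E.a (v j) z' ^ 2) * w6 +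
        (E.a z (v j) ^ 2) * w4)))
  have b3 := E.sw P₂ Q₃ z (v (k + 1)) ok3 w5 w7
  have eq : Sp F P (cj z (v (k + 1)) P₂) v i j z := by
    refine ⟨fun l a b => ?_, ?_, fun u a b => ?_⟩
    · rw [c3]
      rcases eq_or_ne l k with rfl | d
      · rw [if_pos rfl, kF]
      rw [if_neg (h.ne a b.le (by omega) (by omega) d)]
      rcases eq_or_ne l (k + 1) with rfl | d'
      · rw [if_pos rfl, PM.rev kF]
      rw [if_neg (h.ne a b.le (by omega) (by omega) d'), if_neg (nz l a b.le),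
        if_neg (h.ne a b.le (by omega) (by omega) b.ne), s6]
      by_cases d'' : l < k
      · rw [if_neg (by rw [mem] <;> omega), s1.h1 l a d'']
      · rw [if_pos (arc_mem (by omega) b.le), q1 l (by omega) b]
    · rw [c3, if_neg m1.symm, if_neg m2.symm, if_neg (nz _ hij le_rfl), if_pos rfl]
    · have : ∀ l, i + 1 ≤ l → l ≤ j → u ≠ v l := fun l c d x => a (x ▸ arc_mem c d)
      rw [c3, if_neg (this _ k1 k2.le), if_neg (this _ (by omega) k2), if_neg b,
        if_neg (this _ hij le_rfl), s6, if_neg, s1.h3 _ _ b]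
      all_goals
        intro c
        obtain ⟨l, a, b, rfl⟩ := mem_arc.1 c
        exact this l (by omega) (by omega) rfl
  rw [eq.uniq sp] at b3
  exact (abs_tri (abs_tri b1 b2) b3).trans (by nlinarith)

lemma Env.e_step (E : Env V) {I F : PM V} {v : ℕ → V} {i j : ℕ}
    (ihO : ∀ I F v i' j', j' - i' < j - i → E.OSt I F v i' j')
    (ihE : ∀ I F v i' j', j' - i' < j - i → E.ESt I F v i' j') : E.ESt I F v i j := by
  intro T h e hij hN P Q z z' c ok w2 D1 D2 D3 D4 X sp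
  rcases Nat.eq_or_lt_of_le hij with rfl | hij'
  · rw [sp.uniq (P₂ := P) ⟨fun k a b => by omega, c.hz, fun _ _ _ => rfl⟩]
    simp
  have nz : ∀ l, i + 1 ≤ l → l ≤ j → v l ≠ z := fun l a b x => c.nz (x ▸ arc_mem a b)
  obtain ⟨H, k, k1, k2, C, t1, t2, t3, t4, -, t5⟩ := E.gd.centre hij' hN
    (h.ne le_rfl hij (by omega) (by omega) (by omega))
    (h.ne le_rfl hij (by omega) (by omega) (by omega)).symm (h.ne hij le_rfl (by omega) (by omega) (by omega)).symm
    (nz _ le_rfl hij).symm (nz _ hij le_rfl).symm D1 D2 D3 D4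
  by_cases pk : (k + i) % 2 = 0
  exacts [E.e_I ihO ihE T h e hij hN c ok w2 sp k1 k2 C t1 t2 t3 t4 t5 pk,
    E.e_F ihO ihE T h e hij hN c ok w2 sp k1 k2 C t1 t2 t3 t4 t5 pk]

lemma Env.both (E : Env V) (d : ℕ) : (∀ I F v i j, j - i < d → E.OSt I F v i j) ∧
    ∀ I F v i j, j - i < d → E.ESt I F v i j := by
  induction d with
  | zero => exact ⟨fun _ _ _ _ _ h => by omega, fun _ _ _ _ _ h => by omega⟩
  | succ d ih =>
    exact ⟨fun _ _ _ _ _ h => E.o_step (fun _ _ _ _ _ _ => ih.1 _ _ _ _ _ (by omega))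
      fun _ _ _ _ _ _ => ih.2 _ _ _ _ _ (by omega), fun _ _ _ _ _ h =>
      E.e_step (fun _ _ _ _ _ _ => ih.1 _ _ _ _ _ (by omega)) fun _ _ _ _ _ _ => ih.2 _ _ _ _ _ (by omega)⟩

/-- flipping a whole alternating cycle -/
theorem Env.cycle (E : Env V) (hN : Fintype.card V ≤ E.N) {X Y : PM V} (T : E.Top X Y) (x : V) :
    |E.f (os x (X, Y)).1 - E.f X| ≤ 4 * E.N * E.β := by
  obtain ⟨v, j, v0, v1, v2, h⟩ := exists_wk X Y (X x)
  have vx : v (0 + 1) = x := by rw [← h.hI 0 le_rfl (by omega) rfl, v0, X.inv]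
  have jN : j ≤ E.N := by
    have := Finset.card_le_univ (arc v 1 j)
    rw [arc, Finset.card_image_of_injOn, Nat.card_Icc] at this
    · omega
    intro k a l b c
    rw [Finset.mem_coe, Finset.mem_Icc] at a b
    by_contra n
    exact h.ne a.1 a.2 (by omega) (by omega) n c
  have j0 : 0 < j := by omega
  have nz : v 0 ∉ arc v (0 + 1) j := by rw [h.mem] <;> omega
  have jF : Y (v j) = v 0 := by rw [h.hF j (by omega) le_rfl (by omega), v1, v0]
  have iI : X (v (0 + 1)) = v 0 := PM.rev (h.hI 0 le_rfl (by omega) rfl)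
  have g := E.gd
  have r := (rr_ge E.q E.N).2.2
  have D : Df E.a (rr E.q E.N) (v (0 + 1)) (v 0) (v j) (v 0) := by
    rw [Df, g.symm (v 0), g.symm (v 0), mul_comm]
    exact le_mul_of_one_le_left (mul_nonneg (g.nonneg _ _) (g.nonneg _ _)) (one_le_pow₀ r)
  have o : orb X Y x = insert (v 0) (arc v (0 + 1) j) := by
    refine orb_eq (vx ▸ Finset.mem_insert_of_mem (arc_mem le_rfl j0)) (fun u hu => ?_) (fun u hu => ?_)
      fun W a b c => Finset.insert_subset (by rw [← iI, vx]; exact b _ a) (arc_sub (vx ▸ a) b c fun k h1 h2 => ?_)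
    · rcases Finset.mem_insert.1 hu with rfl | hu
      · exact PM.rev iI ▸ Finset.mem_insert_of_mem (arc_mem le_rfl j0)
      obtain ⟨k, a, b, rfl⟩ := mem_arc.1 hu
      obtain ⟨l, c, d⟩ := h.nbI a b
      rcases Nat.eq_zero_or_pos l with rfl | l0
      · exact c ▸ Finset.mem_insert_self _ _
      exact c ▸ Finset.mem_insert_of_mem (arc_mem l0 (by omega))
    · rcases Finset.mem_insert.1 hu with rfl | hu
      · exact PM.rev jF ▸ Finset.mem_insert_of_mem (arc_mem j0 le_rfl)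
      obtain ⟨k, a, b, rfl⟩ := mem_arc.1 hu
      rcases b.eq_or_lt with rfl | b
      · exact jF ▸ Finset.mem_insert_self _ _
      obtain ⟨l, c, d⟩ := h.nbF a b.le
      exact c ▸ Finset.mem_insert_of_mem (arc_mem (by omega) (by omega))
    · by_cases g : (k + 0) % 2 = 0
      · exact .inl (h.hI k (by omega) h2.le g)
      · exact .inr (h.hF k (by omega) h2.le (by omega))
  have hq := g.q_ge (X.ne x)
  have := (E.both (j + 1)).2 X Y v 0 j (by omega) T h (by omega) j0 jN X Y (v 0) (v 0)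
    ⟨fun _ _ _ => rfl, fun _ _ _ => rfl, iI, jF, nz, nz⟩ (E.mono T.1 (by omega))
    (T.2.2.trans (le_mul_of_one_le_left (mul_pos (wt_pos g.ha _) (wt_pos g.ha _)).le
      (one_le_pow₀ (LL_ge hq _).2))) (by rw [v1, ← v0]; exact D) D (by rw [v1, ← v0]; exact D) D (os x (X, Y)).1
    ⟨fun l a b => by rw [os1 o, if_pos (Finset.mem_insert_of_mem (arc_mem a b.le))],
      by rw [os1 o, if_pos (Finset.mem_insert_of_mem (arc_mem j0 le_rfl)), jF],
      fun u a b => by rw [os1 o, if_neg (by simp only [Finset.mem_insert]; tauto)]⟩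
  have jN' : (j : ℝ) ≤ E.N := by exact_mod_cast jN
  exact this.trans (by have := E.hβ; push_cast; nlinarith)

end Vale.Agent.P308
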